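import Claimed.Agent.R324.E2.PdA

/-
Row 324, module E2 (copy of the row 325 engine): calculus on `U = (-∞,T) × ℝ`, part B: the mixed derivatives
`e2Pd i j f = ∂_x^j ∂_t^i f`.
-/

set_option autoImplicit false

namespace Claimed.Agent.R324

open Set
open scoped ContDiff

variable {T : ℝ} {f g : ℝ × ℝ → ℝ}

theorem e2Pd_zero_zero (f : ℝ × ℝ → ℝ) : e2Pd 0 0 f = f := rfl

/-- (`Function.iterate_succ_apply'`) -/
theorem e2Pd_succ_x (i j : ℕ) (f : ℝ × ℝ → ℝ) : e2Pd i (j + 1) f = e2Pdx (e2Pd i j f) := by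
  unfold e2Pd
  rw [Function.iterate_succ_apply']

/-- (`Function.iterate_succ_apply`) -/
theorem e2Pd_pdt (i j : ℕ) (f : ℝ × ℝ → ℝ) : e2Pd i j (e2Pdt f) = e2Pd (i + 1) j f := by
  unfold e2Pd
  rw [Function.iterate_succ_apply]

theorem e2Pd_zero_left (i : ℕ) (f : ℝ × ℝ → ℝ) : e2Pd i 0 f = e2Pdt^[i] f := rfl

theorem E2Sm.pdt_iter (h : E2Sm T f) (i : ℕ) : E2Sm T (e2Pdt^[i] f) := by
  induction i with
  | zero => exact h
  | succ i ih =>
    rw [Function.iterate_succ_apply']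
    exact ih.pdt

theorem E2Sm.pdx_iter (h : E2Sm T f) (j : ℕ) : E2Sm T (e2Pdx^[j] f) := by
  induction j with
  | zero => exact h
  | succ j ih =>
    rw [Function.iterate_succ_apply']
    exact ih.pdx

theorem E2Sm.pd (h : E2Sm T f) (i j : ℕ) : E2Sm T (e2Pd i j f) := by
  exact (h.pdt_iter i).pdx_iter j

theorem e2Pdt_iter_congr (h : ∀ t < T, ∀ x, f (t, x) = g (t, x)) (i : ℕ) :
    ∀ t < T, ∀ x, e2Pdt^[i] f (t, x) = e2Pdt^[i] g (t, x) := by
  induction i with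
  | zero => exact h
  | succ i ih =>
    rw [Function.iterate_succ_apply', Function.iterate_succ_apply']
    exact e2Pdt_congr ih

theorem e2_EngPdB_pdx_iter_congr (h : ∀ t < T, ∀ x, f (t, x) = g (t, x)) (j : ℕ) :
    ∀ t < T, ∀ x, e2Pdx^[j] f (t, x) = e2Pdx^[j] g (t, x) := by
  induction j with
  | zero => exact h
  | succ j ih =>
    rw [Function.iterate_succ_apply', Function.iterate_succ_apply']
    exact e2Pdx_congr ih

theorem e2Pd_congr (h : ∀ t < T, ∀ x, f (t, x) = g (t, x)) (i j : ℕ) :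
    ∀ t < T, ∀ x, e2Pd i j f (t, x) = e2Pd i j g (t, x) := by
  exact e2_EngPdB_pdx_iter_congr (e2Pdt_iter_congr h i) j

/-- no hypothesis needed: `(fun y => e2Pdx g (t,y)) = deriv (fun y => g (t,y))`, `iteratedDeriv_succ'`/`iteratedDeriv_succ`. -/
theorem e2Pdx_iter_eq_iteratedDeriv (j : ℕ) (g : ℝ × ℝ → ℝ) (t x : ℝ) :
    e2Pdx^[j] g (t, x) = iteratedDeriv j (fun y => g (t, y)) x := by
  induction j generalizing x with
  | zero => rfl
  | succ j ih =>
    rw [Function.iterate_succ_apply', iteratedDeriv_succ]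
    show deriv (fun y => e2Pdx^[j] g (t, y)) x = _
    congr 1
    funext y
    exact ih y

theorem e2Pdt_iter_eq_iteratedDeriv (i : ℕ) (g : ℝ × ℝ → ℝ) (t x : ℝ) :
    e2Pdt^[i] g (t, x) = iteratedDeriv i (fun s => g (s, x)) t := by
  induction i generalizing t with
  | zero => rfl
  | succ i ih =>
    rw [Function.iterate_succ_apply', iteratedDeriv_succ]
    show deriv (fun s => e2Pdt^[i] g (s, x)) t = _
    congr 1
    funext s
    exact ih s

theorem e2Pd_eq_iteratedDeriv (i j : ℕ) (f : ℝ × ℝ → ℝ) (t x : ℝ) :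
    e2Pd i j f (t, x) = iteratedDeriv j (fun y => e2Pdt^[i] f (t, y)) x := by
  exact e2Pdx_iter_eq_iteratedDeriv j (e2Pdt^[i] f) t x

/-- `∂_t ∂_x^j g = ∂_x^j ∂_t g` on `U` (induction on `j` from `E2Sm.pd_comm`, `e2Pdx_congr`). -/
theorem E2Sm.pdt_pdx_iter (h : E2Sm T f) (j : ℕ) : ∀ t < T, ∀ x,
    e2Pdt (e2Pdx^[j] f) (t, x) = e2Pdx^[j] (e2Pdt f) (t, x) := by
  induction j with
  | zero => intro t _ x; rfl
  | succ j ih =>
    intro t ht x
    rw [Function.iterate_succ_apply', Function.iterate_succ_apply',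
      (h.pdx_iter j).pd_comm t ht x]
    exact e2Pdx_congr ih t ht x

/-- `∂_t^i ∂_x g = ∂_x ∂_t^i g` on `U`. -/
theorem E2Sm.pdt_iter_pdx (h : E2Sm T f) (i : ℕ) : ∀ t < T, ∀ x,
    e2Pdt^[i] (e2Pdx f) (t, x) = e2Pdx (e2Pdt^[i] f) (t, x) := by
  induction i with
  | zero => intro t _ x; rfl
  | succ i ih =>
    intro t ht x
    rw [Function.iterate_succ_apply', Function.iterate_succ_apply',
      e2Pdt_congr ih t ht x]
    exact (h.pdt_iter i).pd_comm t ht x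

theorem E2Sm.pdt_pd (h : E2Sm T f) (i j : ℕ) : ∀ t < T, ∀ x,
    e2Pdt (e2Pd i j f) (t, x) = e2Pd (i + 1) j f (t, x) := by
  intro t ht x
  unfold e2Pd
  rw [(h.pdt_iter i).pdt_pdx_iter j t ht x, Function.iterate_succ_apply']

theorem E2Sm.pd_pdx (h : E2Sm T f) (i j : ℕ) : ∀ t < T, ∀ x,
    e2Pd i j (e2Pdx f) (t, x) = e2Pd i (j + 1) f (t, x) := by
  intro t ht x
  unfold e2Pd
  rw [e2_EngPdB_pdx_iter_congr (h.pdt_iter_pdx i) j t ht x, Function.iterate_succ_apply]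

theorem E2Sm.pd_hasDerivAt_t (h : E2Sm T f) (i j : ℕ) {t : ℝ} (ht : t < T) (x : ℝ) :
    HasDerivAt (fun s => e2Pd i j f (s, x)) (e2Pd (i + 1) j f (t, x)) t := by
  have h1 := (h.pd i j).hasDerivAt_t ht x
  rwa [h.pdt_pd i j t ht x] at h1

theorem E2Sm.pd_hasDerivAt_x (h : E2Sm T f) (i j : ℕ) {t : ℝ} (ht : t < T) (x : ℝ) :
    HasDerivAt (fun y => e2Pd i j f (t, y)) (e2Pd i (j + 1) f (t, x)) x := by
  have h1 := (h.pd i j).hasDerivAt_x ht x
  rwa [← e2Pd_succ_x] at h1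

theorem e2Pd_add (hf : E2Sm T f) (hg : E2Sm T g) (i j : ℕ) : ∀ t < T, ∀ x,
    e2Pd i j (fun q => f q + g q) (t, x) = e2Pd i j f (t, x) + e2Pd i j g (t, x) := by
  induction i generalizing f g with
  | zero =>
    induction j with
    | zero => intro t _ x; rfl
    | succ j ih =>
      intro t ht x
      rw [e2Pd_succ_x, e2Pd_succ_x, e2Pd_succ_x, e2Pdx_congr (g := fun q => e2Pd 0 j f q + e2Pd 0 j g q) ih t ht x]
      exact e2Pdx_add (hf.pd 0 j) (hg.pd 0 j) t ht x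
  | succ i ih =>
    intro t ht x
    rw [← e2Pd_pdt, ← e2Pd_pdt, ← e2Pd_pdt, e2Pd_congr (g := fun q => e2Pdt f q + e2Pdt g q) (e2Pdt_add hf hg) i j t ht x]
    exact ih hf.pdt hg.pdt t ht x

theorem e2_PdB_pdt_neg (f : ℝ × ℝ → ℝ) : e2Pdt (fun q => - f q) = fun q => - e2Pdt f q :=
  funext fun q => e2Pdt_neg f q

theorem e2_PdB_pdx_neg (f : ℝ × ℝ → ℝ) : e2Pdx (fun q => - f q) = fun q => - e2Pdx f q :=
  funext fun q => e2Pdx_neg f q

theorem e2_PdB_pd_neg (i j : ℕ) (f : ℝ × ℝ → ℝ) :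
    e2Pd i j (fun q => - f q) = fun q => - e2Pd i j f q := by
  induction i generalizing f with
  | zero =>
    induction j with
    | zero => rfl
    | succ j ih => rw [e2Pd_succ_x, ih, e2_PdB_pdx_neg, e2Pd_succ_x]
  | succ i ih => rw [← e2Pd_pdt, e2_PdB_pdt_neg, ih, e2Pd_pdt]

theorem e2Pd_neg (hf : E2Sm T f) (i j : ℕ) : ∀ t < T, ∀ x,
    e2Pd i j (fun q => - f q) (t, x) = - e2Pd i j f (t, x) := by
  intro t _ x
  rw [e2_PdB_pd_neg]

theorem e2Pd_sub (hf : E2Sm T f) (hg : E2Sm T g) (i j : ℕ) : ∀ t < T, ∀ x,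
    e2Pd i j (fun q => f q - g q) (t, x) = e2Pd i j f (t, x) - e2Pd i j g (t, x) := by
  intro t ht x
  have h1 : (fun q => f q - g q) = fun q => f q + (fun q => - g q) q := by
    funext q; exact sub_eq_add_neg _ _
  rw [h1, e2Pd_add hf hg.neg i j t ht x, e2Pd_neg hg i j t ht x, sub_eq_add_neg]

theorem e2_PdB_pdt_zero : e2Pdt (fun _ => (0 : ℝ)) = fun _ => 0 := by
  funext q
  simp [e2Pdt]

theorem e2_PdB_pdx_zero : e2Pdx (fun _ => (0 : ℝ)) = fun _ => 0 := by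
  funext q
  simp [e2Pdx]

theorem e2_PdB_pd_zero (i j : ℕ) : e2Pd i j (fun _ => (0 : ℝ)) = fun _ => 0 := by
  unfold e2Pd
  rw [Function.iterate_fixed e2_PdB_pdt_zero, Function.iterate_fixed e2_PdB_pdx_zero]

theorem e2Pd_sum {ι : Type} (s : Finset ι) {F : ι → ℝ × ℝ → ℝ} (h : ∀ k ∈ s, E2Sm T (F k))
    (i j : ℕ) : ∀ t < T, ∀ x,
    e2Pd i j (fun q => ∑ k ∈ s, F k q) (t, x) = ∑ k ∈ s, e2Pd i j (F k) (t, x) := by
  classical
  induction s using Finset.induction_on with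
  | empty =>
    intro t _ x
    simp only [Finset.sum_empty]
    rw [e2_PdB_pd_zero]
  | insert a s ha ih =>
    intro t ht x
    have h1 : (fun q => ∑ k ∈ insert a s, F k q) = fun q => F a q + (fun q => ∑ k ∈ s, F k q) q := by
      funext q; exact Finset.sum_insert ha
    have h2 : ∀ k ∈ s, E2Sm T (F k) := fun k hk => h k (Finset.mem_insert_of_mem hk)
    rw [h1, e2Pd_add (h a (Finset.mem_insert_self a s)) (e2Sm_sum s h2) i j t ht x,
      ih h2 t ht x, Finset.sum_insert ha]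

/-- recursion for products in `t`. -/
theorem e2Pd_succ_mul (hf : E2Sm T f) (hg : E2Sm T g) (i j : ℕ) : ∀ t < T, ∀ x,
    e2Pd (i + 1) j (fun q => f q * g q) (t, x)
      = e2Pd i j (fun q => e2Pdt f q * g q) (t, x) + e2Pd i j (fun q => f q * e2Pdt g q) (t, x) := by
  intro t ht x
  rw [← e2Pd_pdt, e2Pd_congr (g := fun q => e2Pdt f q * g q + f q * e2Pdt g q) (e2Pdt_mul hf hg) i j t ht x]
  exact e2Pd_add (hf.pdt.mul hg) (hf.mul hg.pdt) i j t ht x

/-- recursion for products in `x` (no time derivative). -/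
theorem e2Pd_zero_succ_mul (hf : E2Sm T f) (hg : E2Sm T g) (j : ℕ) : ∀ t < T, ∀ x,
    e2Pd 0 (j + 1) (fun q => f q * g q) (t, x)
      = e2Pd 0 j (fun q => e2Pdx f q * g q) (t, x) + e2Pd 0 j (fun q => f q * e2Pdx g q) (t, x) := by
  intro t ht x
  have h1 : e2Pd 0 (j + 1) (fun q => f q * g q) = e2Pd 0 j (e2Pdx (fun q => f q * g q)) := rfl
  rw [h1, e2Pd_congr (g := fun q => e2Pdx f q * g q + f q * e2Pdx g q) (e2Pdx_mul hf hg) 0 j t ht x]
  exact e2Pd_add (hf.pdx.mul hg) (hf.mul hg.pdx) 0 j t ht x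

theorem e2_PdB_pdt_iter_of_t (φ : ℝ → ℝ) (i : ℕ) :
    e2Pdt^[i] (fun q : ℝ × ℝ => φ q.1) = fun q => (deriv^[i] φ) q.1 := by
  induction i generalizing φ with
  | zero => rfl
  | succ i ih =>
    rw [Function.iterate_succ_apply, Function.iterate_succ_apply, ← ih (deriv φ)]
    rfl

/-- a function of `t` alone has no `x`-derivative. -/
theorem e2Pd_of_t_succ (φ : ℝ → ℝ) (i j : ℕ) (q : ℝ × ℝ) :
    e2Pd i (j + 1) (fun q => φ q.1) q = 0 := by
  unfold e2Pd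
  rw [e2_PdB_pdt_iter_of_t, Function.iterate_succ_apply]
  have h1 : e2Pdx (fun q : ℝ × ℝ => (deriv^[i] φ) q.1) = fun _ => 0 := by
    funext r
    simp [e2Pdx]
  rw [h1, Function.iterate_fixed e2_PdB_pdx_zero]

end Claimed.Agent.R324
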