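import Claimed.Agent.R324.E2.Fin

/-
Row 324, module E2: from the variable `x ∈ [0,1]` (`e2_main`) back to `y = 2x - 1 ∈ [-1,1]`: the statement of `engine2` (R324/Engine2.lean) with its
definitions `SmT`, `e2dim`, `e2fac`, `e2Loc` unfolded.
-/

set_option autoImplicit false

namespace Claimed.Agent.R324

open Set
open scoped ContDiff

/-- composition with an affine map in the second variable. -/
theorem e2Sm_comp_aff {T : ℝ} {f : ℝ × ℝ → ℝ} (hf : E2Sm T f) (α β : ℝ) :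
    E2Sm T (fun p => f (p.1, α * p.2 + β)) := by
  have h1 : ContDiff ℝ ∞ (fun p : ℝ × ℝ => (p.1, α * p.2 + β)) := by fun_prop
  exact ContDiffOn.comp (t := Iio T ×ˢ (univ : Set ℝ)) hf h1.contDiffOn
    (fun p hp => ⟨hp.1, mem_univ _⟩)

theorem e2_conv_deriv {g : ℝ → ℝ} (hg : ContDiff ℝ ∞ g) (α β : ℝ) :
    deriv (fun z => g (α * z + β)) = fun z => α * deriv g (α * z + β) := by
  funext z
  have h1 : HasDerivAt g (deriv g (α * z + β)) (α * z + β) :=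
    ((hg.differentiable (by simp)) _).hasDerivAt
  have h2 : HasDerivAt (fun z : ℝ => α * z + β) α z := by
    simpa using ((hasDerivAt_id' z).const_mul α).add_const β
  have h3 := h1.comp z h2
  rw [mul_comm]
  exact h3.deriv

theorem e2_conv_deriv2 {g : ℝ → ℝ} (hg : ContDiff ℝ ∞ g) (α β : ℝ) (z : ℝ) :
    iteratedDeriv 2 (fun z => g (α * z + β)) z = α * (α * deriv (deriv g) (α * z + β)) := by
  rw [iteratedDeriv_succ, iteratedDeriv_one, e2_conv_deriv hg, deriv_const_mul_field,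
    e2_conv_deriv (e2_deriv_contDiff hg)]

/-- the integral in the two variables. -/
theorem e2_conv_integral (G : ℝ → ℝ) :
    ∫ ξ in (0 : ℝ)..1, 2 * G (2 * ξ + -1) = ∫ ξ in (-1 : ℝ)..1, G ξ := by
  rw [intervalIntegral.integral_const_mul,
    intervalIntegral.integral_comp_mul_add (fun ξ => G ξ) (two_ne_zero) (-1)]
  norm_num
  ring

/-- **Change of variables.** -/
theorem engine2_main (q : ℕ) (hq : Odd q) (t₁ T : ℝ) (a : ℝ × ℝ → ℝ) (b F : Fin 3 → ℝ × ℝ → ℝ)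
    (c : Fin 3 → Fin 3 → ℝ × ℝ → ℝ) (N : ℕ) (e k : Fin N → Fin 3 → ℝ × ℝ → ℝ)
    (ha : E2Sm T a) (hb : ∀ j, E2Sm T (b j)) (hF : ∀ j, E2Sm T (F j)) (hc : ∀ j l, E2Sm T (c j l))
    (he : ∀ i j, E2Sm T (e i j)) (hk : ∀ i j, E2Sm T (k i j))
    (hpos : ∀ t < T, ∀ y ∈ Icc (-1 : ℝ) 1, 0 < a (t, y))
    (hF0 : ∀ j, ∀ t ≤ t₁, ∀ y ∈ Icc (-1 : ℝ) 1, F j (t, y) = 0) :
    ∃ U : Fin 3 → ℝ × ℝ → ℝ, (∀ j, E2Sm T (U j)) ∧
      (∀ j, ∀ t ≤ t₁, ∀ y ∈ Icc (-1 : ℝ) 1, U j (t, y) = 0) ∧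
      ∀ j, ∀ t < T, ∀ y ∈ Icc (-1 : ℝ) 1,
        deriv (fun s => U j (s, y)) t
          = (a (t, y) * (1 - y ^ 2) * iteratedDeriv 2 (fun z => U j (t, z)) y
              + (-(if j = 2 then (q : ℝ) + 5 else (q : ℝ) + 1) * y * a (t, y)
                  + (1 - y ^ 2) * b j (t, y)) * deriv (fun z => U j (t, z)) y
              + ∑ l, (if l = 2 ∧ j ≠ 2 then 1 - y ^ 2 else 1) * c j l (t, y) * U l (t, y))
          + ∑ i, e i j (t, y) * (∫ ξ in (-1 : ℝ)..1, ∑ l, k i l (t, ξ) * U l (t, ξ)) + F j (t, y) := by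
  rcases lt_or_ge t₁ T with ht | ht
  swap
  · refine ⟨fun _ _ => 0, fun _ => contDiffOn_const, fun _ _ _ _ _ => rfl, fun j t htT y hy => ?_⟩
    rw [hF0 j t (htT.le.trans ht) y hy]
    simp
  obtain ⟨μ, hμ⟩ := hq
  have ha' : E2Sm T (fun p => a (p.1, 2 * p.2 + -1)) := e2Sm_comp_aff ha 2 (-1)
  let D : E2Data :=
    { μ := μ, t₁ := t₁, T := T
      a := fun p => a (p.1, 2 * p.2 + -1)
      b := fun j p => 2 * b j (p.1, 2 * p.2 + -1) - e2Pdx (fun p => a (p.1, 2 * p.2 + -1)) p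
      c := fun j l p => (if l = 2 ∧ j ≠ 2 then 4 else 1) * c j l (p.1, 2 * p.2 + -1)
      F := fun j p => F j (p.1, 2 * p.2 + -1)
      n := N
      e := fun i j p => e i j (p.1, 2 * p.2 + -1)
      k := fun i j p => 2 * k i j (p.1, 2 * p.2 + -1)
      ht := ht
      ha := ha'
      hb := fun j => ((e2Sm_const T 2).mul (e2Sm_comp_aff (hb j) 2 (-1))).sub ha'.pdx
      hc := fun j l => (e2Sm_const T _).mul (e2Sm_comp_aff (hc j l) 2 (-1))
      hF := fun j => e2Sm_comp_aff (hF j) 2 (-1)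
      he := fun i j => e2Sm_comp_aff (he i j) 2 (-1)
      hk := fun i j => (e2Sm_const T 2).mul (e2Sm_comp_aff (hk i j) 2 (-1))
      hpos := fun t ht x hx => hpos t ht (2 * x + -1) ⟨by linarith [hx.1], by linarith [hx.2]⟩
      hF0 := fun j t ht x hx =>
        hF0 j t ht (2 * x + -1) ⟨by linarith [hx.1], by linarith [hx.2]⟩ }
  obtain ⟨γ, hγ, hγ0, hpde⟩ := e2_main D
  refine ⟨fun j p => γ j (p.1, 1 / 2 * p.2 + 1 / 2), fun j => e2Sm_comp_aff (hγ j) (1 / 2) (1 / 2),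
    fun j t ht y hy => hγ0 j t ht _ ⟨by linarith [hy.1], by linarith [hy.2]⟩, ?_⟩
  intro j t htT y hy
  set x : ℝ := 1 / 2 * y + 1 / 2 with hx
  have hxI : x ∈ Icc (0 : ℝ) 1 := ⟨by rw [hx]; linarith [hy.1], by rw [hx]; linarith [hy.2]⟩
  have hxy : 2 * x + -1 = y := by rw [hx]; ring
  have hg : ContDiff ℝ ∞ (fun z => γ j (t, z)) := (hγ j).slice_x htT
  have h := hpde j t htT x hxI
  have hL : deriv (fun s => γ j (s, 1 / 2 * y + 1 / 2)) t = e2Pdt (γ j) (t, x) := rfl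
  have hd1 : deriv (fun z => γ j (t, 1 / 2 * z + 1 / 2)) y
      = 1 / 2 * deriv (fun z => γ j (t, z)) x := by
    rw [e2_conv_deriv hg]
  have hd2 : iteratedDeriv 2 (fun z => γ j (t, 1 / 2 * z + 1 / 2)) y
      = 1 / 2 * (1 / 2 * deriv (deriv (fun z => γ j (t, z))) x) :=
    e2_conv_deriv2 hg (1 / 2) (1 / 2) y
  have hmul := e2Pdx_mul D.ha (hγ j).pdx t htT x
  have hS : e2S D γ j (t, x) = e2S0 D γ j (t, x) + F j (t, y) := by
    show e2S0 D γ j (t, x) + F j (t, 2 * x + -1) = _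
    rw [hxy]
  have hsum1 : ∑ l, e2s j l x * D.c j l (t, x) * γ l (t, x)
      = ∑ l, (if l = 2 ∧ j ≠ 2 then 1 - y ^ 2 else 1) * c j l (t, y) * γ l (t, x) := by
    refine Finset.sum_congr rfl fun l _ => ?_
    show e2s j l x * ((if l = 2 ∧ j ≠ 2 then 4 else 1) * c j l (t, 2 * x + -1)) * γ l (t, x) = _
    rw [hxy]
    unfold e2s
    by_cases hl : l = 2 ∧ j ≠ 2
    · rw [if_pos hl, if_pos hl, if_pos hl, hx]
      ring
    · rw [if_neg hl, if_neg hl, if_neg hl]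
      ring
  have hsum2 : ∑ i, D.e i j (t, x) * ∫ ξ in (0 : ℝ)..1, ∑ l, D.k i l (t, ξ) * γ l (t, ξ)
      = ∑ i, e i j (t, y) * ∫ ξ in (-1 : ℝ)..1, ∑ l, k i l (t, ξ) * γ l (t, 1 / 2 * ξ + 1 / 2) := by
    refine Finset.sum_congr rfl fun i _ => ?_
    show e i j (t, 2 * x + -1) * _ = _
    rw [hxy, ← e2_conv_integral]
    congr 1
    refine intervalIntegral.integral_congr fun ξ _ => ?_
    show ∑ l, 2 * k i l (t, 2 * ξ + -1) * γ l (t, ξ) = _
    rw [Finset.mul_sum]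
    refine Finset.sum_congr rfl fun l _ => ?_
    have : 1 / 2 * (2 * ξ + -1) + 1 / 2 = ξ := by ring
    rw [this]
    ring
  have hm : ((D.m j : ℕ) : ℝ) + 1 = (if j = 2 then (q : ℝ) + 5 else (q : ℝ) + 1) / 2 := by
    show ((e2m μ j : ℕ) : ℝ) + 1 = _
    unfold e2m
    rw [hμ]
    split_ifs <;> push_cast <;> ring
  rw [hL, h, hS, e2S0_eq_pd, hd1, hd2]
  simp only [hsum1, hsum2]
  rw [hmul]
  have e1 : e2Pdx (γ j) (t, x) = deriv (fun z => γ j (t, z)) x := rfl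
  have e2 : e2Pdx (e2Pdx (γ j)) (t, x) = deriv (deriv (fun z => γ j (t, z))) x := rfl
  have e3 : D.a (t, x) = a (t, y) := by
    show a (t, 2 * x + -1) = _
    rw [hxy]
  have e4 : D.b j (t, x) = 2 * b j (t, y) - e2Pdx D.a (t, x) := by
    show 2 * b j (t, 2 * x + -1) - _ = _
    rw [hxy]
  have e5 : 2 * ((D.m j : ℕ) : ℝ) + 2 = 2 * (((D.m j : ℕ) : ℝ) + 1) := by ring
  rw [e1, e2, e3, e4, e5, hm]
  simp only [hx]
  ring

end Claimed.Agent.R324
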