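import Claimed.Agent.R324.E2.PdA
import Claimed.Agent.R325.Pk09

/-
Row 324, module E2 (copy of the row 325 engine): extension to `x ∈ ℝ` (Seeley, black box from row 325).
-/

set_option autoImplicit false

namespace Claimed.Agent.R324

open Set Filter Topology
open scoped ContDiff

/-- **Extension.**  `seeley_strip (t₁-1) T g` gives `G`, smooth on `(t₁-1,T) × ℝ`, `= g` on the strip.  Let
`χ(t) = Real.smoothTransition (2 (t - t₁) + 1)` (`= 0` for `t ≤ t₁ - 1/2`, `= 1` for `t ≥ t₁`) and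
`γ(t,x) = if t₁ - 3/4 < t then χ(t) G(t,x) else 0`.
Smoothness at `q` with `q.1 < T`: if `q.1 < t₁ - 1/2` then `γ = 0` near `q`; if `t₁ - 3/4 < q.1` then `γ = χ G` near `q`, and `G` is `ContDiffAt` there
(the set `(t₁-1,T) × ℝ` is open).  Use `e2Sm_of_contDiffAt` and `ContDiffAt.congr_of_eventuallyEq`. -/
theorem e2_extend (t₁ T : ℝ) (g : ℝ × ℝ → ℝ)
    (hg : ContDiffOn ℝ ∞ g (Ioo (t₁ - 1) T ×ˢ Icc (0 : ℝ) 1))
    (h0 : ∀ t ∈ Ioc (t₁ - 1) t₁, ∀ x ∈ Icc (0 : ℝ) 1, g (t, x) = 0) :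
    ∃ γ : ℝ × ℝ → ℝ, E2Sm T γ ∧ (∀ t ≤ t₁, ∀ x ∈ Icc (0 : ℝ) 1, γ (t, x) = 0) ∧
      ∀ t ∈ Ioo t₁ T, ∀ x ∈ Icc (0 : ℝ) 1, γ (t, x) = g (t, x) := by
  classical
  obtain ⟨G, hG, hGg⟩ := Claimed.Agent.R325.seeley_strip (t₁ - 1) T g hg
  set χ : ℝ → ℝ := fun t => Real.smoothTransition (2 * (t - t₁) + 1) with hχd
  have hχ : ContDiff ℝ ∞ χ :=
    Real.smoothTransition.contDiff.comp
      ((contDiff_const.mul (contDiff_id.sub contDiff_const)).add contDiff_const)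
  have hχ0 : ∀ t, t ≤ t₁ - 1 / 2 → χ t = 0 := fun t ht =>
    Real.smoothTransition.zero_of_nonpos (by linarith)
  have hχ1 : ∀ t, t₁ ≤ t → χ t = 1 := fun t ht =>
    Real.smoothTransition.one_of_one_le (by linarith)
  set γ : ℝ × ℝ → ℝ := fun q => if t₁ - 3 / 4 < q.1 ∧ q.1 < T then χ q.1 * G q else 0 with hγd
  have hopen : IsOpen (Ioo (t₁ - 1) T ×ˢ (univ : Set ℝ)) := isOpen_Ioo.prod isOpen_univ
  refine ⟨γ, e2Sm_of_contDiffAt fun q hq => ?_, fun t ht x hx => ?_, fun t ht x hx => ?_⟩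
  · rcases lt_or_ge (t₁ - 3 / 4) q.1 with h | h
    · have hGq : ContDiffAt ℝ ∞ G q :=
        (hG q ⟨⟨by linarith, hq⟩, mem_univ _⟩).contDiffAt
          (hopen.mem_nhds ⟨⟨by linarith, hq⟩, mem_univ _⟩)
      have h1 : ContDiffAt ℝ ∞ (fun p : ℝ × ℝ => χ p.1 * G p) q :=
        ((hχ.comp contDiff_fst).contDiffAt).mul hGq
      refine h1.congr_of_eventuallyEq ?_
      have hop : {p : ℝ × ℝ | t₁ - 3 / 4 < p.1} ∈ nhds q :=
        (isOpen_lt continuous_const continuous_fst).mem_nhds h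
      have hop2 : {p : ℝ × ℝ | p.1 < T} ∈ nhds q :=
        (isOpen_lt continuous_fst continuous_const).mem_nhds hq
      filter_upwards [hop, hop2] with p hp hp2
      simp only [hγd]
      rw [if_pos ⟨hp, hp2⟩]
    · refine (contDiffAt_const (c := (0 : ℝ))).congr_of_eventuallyEq ?_
      have hop : {p : ℝ × ℝ | p.1 < t₁ - 1 / 2} ∈ nhds q :=
        (isOpen_lt continuous_fst continuous_const).mem_nhds (by show q.1 < t₁ - 1 / 2; linarith)
      filter_upwards [hop] with p hp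
      simp only [hγd]
      split_ifs
      · rw [hχ0 p.1 (le_of_lt hp), zero_mul]
      · rfl
  · simp only [hγd]
    split_ifs with h
    · rw [hGg (t, x) ⟨⟨by linarith [h.1], h.2⟩, hx⟩, h0 t ⟨by linarith [h.1], ht⟩ x hx, mul_zero]
    · rfl
  · simp only [hγd]
    rw [if_pos ⟨by linarith [ht.1], ht.2⟩, hχ1 t ht.1.le, one_mul,
      hGg (t, x) ⟨⟨by linarith [ht.1], ht.2⟩, hx⟩]

end Claimed.Agent.R324
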