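import Mathlib

/-
Row 324, module E2 (copy of the row 325 engine): a function on the strip `(s₀,T) × [0,1]` all of whose mixed partial derivatives exist and are locally bounded is
`ContDiffOn ℝ ∞` on the strip.  Imports only Mathlib.
-/

set_option autoImplicit false

namespace Claimed.Agent.R324

open Set Filter Topology
open scoped ContDiff

/-- A family `G i j` ("`∂_x^j ∂_t^i G`") on the strip `(s₀,T) × [0,1]`. -/
structure E2Fam (s₀ T : ℝ) (G : ℕ → ℕ → ℝ × ℝ → ℝ) : Prop where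
  dt : ∀ i j, ∀ t ∈ Ioo s₀ T, ∀ x ∈ Icc (0 : ℝ) 1,
    HasDerivAt (fun s => G i j (s, x)) (G (i + 1) j (t, x)) t
  dx : ∀ i j, ∀ t ∈ Ioo s₀ T, ∀ x ∈ Icc (0 : ℝ) 1,
    HasDerivWithinAt (fun y => G i j (t, y)) (G i (j + 1) (t, x)) (Icc (0 : ℝ) 1) x
  bdd : ∀ i j, ∀ s₁ s₂, s₀ < s₁ → s₂ < T → ∃ C : ℝ, ∀ t ∈ Icc s₁ s₂, ∀ x ∈ Icc (0 : ℝ) 1,
    |G i j (t, x)| ≤ C

variable {s₀ T : ℝ} {G : ℕ → ℕ → ℝ × ℝ → ℝ}

/-- Lipschitz in `t` and in `x` on compact sub-rectangles (mean value inequality on the convex sets `[s₁,s₂]`, `[0,1]`, derivative bounds from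
`bdd`). -/
theorem E2Fam.lip (h : E2Fam s₀ T G) (i j : ℕ) {s₁ s₂ : ℝ} (h₁ : s₀ < s₁) (h₂ : s₂ < T) :
    ∃ C : ℝ, 0 ≤ C ∧ ∀ t ∈ Icc s₁ s₂, ∀ t' ∈ Icc s₁ s₂, ∀ x ∈ Icc (0 : ℝ) 1, ∀ x' ∈ Icc (0 : ℝ) 1,
      |G i j (t', x') - G i j (t, x)| ≤ C * (|t' - t| + |x' - x|) := by
  obtain ⟨C1, hC1⟩ := h.bdd (i + 1) j s₁ s₂ h₁ h₂
  obtain ⟨C2, hC2⟩ := h.bdd i (j + 1) s₁ s₂ h₁ h₂
  have hsub : ∀ t ∈ Icc s₁ s₂, t ∈ Ioo s₀ T := fun t ht =>
    ⟨lt_of_lt_of_le h₁ ht.1, lt_of_le_of_lt ht.2 h₂⟩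
  refine ⟨|C1| + |C2|, by positivity, ?_⟩
  intro t ht t' ht' x hx x' hx'
  have e1 : |G i j (t', x') - G i j (t, x')| ≤ C1 * |t' - t| := by
    have := Convex.norm_image_sub_le_of_norm_hasDerivWithin_le
      (f := fun s => G i j (s, x')) (f' := fun s => G (i + 1) j (s, x')) (s := Icc s₁ s₂)
      (C := C1) (x := t) (y := t')
      (fun s hs => (h.dt i j s (hsub s hs) x' hx').hasDerivWithinAt)
      (fun s hs => by simpa [Real.norm_eq_abs] using hC1 s hs x' hx')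
      (convex_Icc s₁ s₂) ht ht'
    simpa [Real.norm_eq_abs] using this
  have e2 : |G i j (t, x') - G i j (t, x)| ≤ C2 * |x' - x| := by
    have := Convex.norm_image_sub_le_of_norm_hasDerivWithin_le
      (f := fun y => G i j (t, y)) (f' := fun y => G i (j + 1) (t, y)) (s := Icc (0 : ℝ) 1)
      (C := C2) (x := x) (y := x')
      (fun y hy => h.dx i j t (hsub t ht) y hy)
      (fun y hy => by simpa [Real.norm_eq_abs] using hC2 t ht y hy)
      (convex_Icc 0 1) hx hx'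
    simpa [Real.norm_eq_abs] using this
  have e3 : |G i j (t', x') - G i j (t, x)|
      ≤ |G i j (t', x') - G i j (t, x')| + |G i j (t, x') - G i j (t, x)| := by
    have := abs_add_le (G i j (t', x') - G i j (t, x')) (G i j (t, x') - G i j (t, x))
    simpa using this
  have a1 : C1 * |t' - t| ≤ |C1| * |t' - t| :=
    mul_le_mul_of_nonneg_right (le_abs_self C1) (abs_nonneg _)
  have a2 : C2 * |x' - x| ≤ |C2| * |x' - x| :=
    mul_le_mul_of_nonneg_right (le_abs_self C2) (abs_nonneg _)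
  have p1 : 0 ≤ |C1| * |x' - x| := by positivity
  have p2 : 0 ≤ |C2| * |t' - t| := by positivity
  nlinarith

/-- one-dimensional second order Taylor estimate on a convex set -/
theorem e2_cd_taylor1 {f f' : ℝ → ℝ} {s : Set ℝ} (hs : Convex ℝ s)
    (hf : ∀ y ∈ s, HasDerivWithinAt f (f' y) s y) {C : ℝ} (hC0 : 0 ≤ C)
    (hC : ∀ y ∈ s, ∀ z ∈ s, |f' z - f' y| ≤ C * |z - y|) {a b : ℝ} (ha : a ∈ s) (hb : b ∈ s) :
    |f b - f a - (b - a) * f' a| ≤ C * |b - a| ^ 2 := by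
  have hsub : uIcc a b ⊆ s := hs.ordConnected.uIcc_subset ha hb
  have := Convex.norm_image_sub_le_of_norm_hasDerivWithin_le
      (f := fun y => f y - (y - a) * f' a) (f' := fun y => f' y - f' a) (s := uIcc a b)
      (C := C * |b - a|) (x := a) (y := b)
      (fun y hy => by
        have h1 : HasDerivWithinAt f (f' y) (uIcc a b) y := (hf y (hsub hy)).mono hsub
        have h2 : HasDerivWithinAt (fun y => (y - a) * f' a) (f' a) (uIcc a b) y := by
          have := ((hasDerivWithinAt_id y (uIcc a b)).sub_const a).mul_const (f' a)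
          simpa using this
        exact h1.sub h2)
      (fun y hy => by
        rw [Real.norm_eq_abs]
        refine (hC a ha y (hsub hy)).trans ?_
        refine mul_le_mul_of_nonneg_left ?_ hC0
        exact abs_sub_left_of_mem_uIcc hy)
      (convex_uIcc a b) left_mem_uIcc right_mem_uIcc
  rw [Real.norm_eq_abs, Real.norm_eq_abs] at this
  have e : (f b - (b - a) * f' a - (f a - (a - a) * f' a)) = f b - f a - (b - a) * f' a := by ring
  rw [e] at this
  calc _ ≤ C * |b - a| * |b - a| := this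
    _ = C * |b - a| ^ 2 := by ring

/-- Quadratic Taylor estimate in two variables on compact sub-rectangles:
`G(t',x') - G(t,x) - (t'-t) G_t(t,x) - (x'-x) G_x(t,x)`
`= [G(t',x') - G(t,x') - (t'-t) G_t(t,x')] + (t'-t)[G_t(t,x') - G_t(t,x)] + [G(t,x') - G(t,x) - (x'-x) G_x(t,x)]`;
the first and the third bracket are one-dimensional second order Taylor remainders (two mean value inequalities, second derivatives
`G (i+2) j`, `G i (j+2)` bounded), the middle one is `E2Fam.lip` for `G (i+1) j`. -/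
theorem E2Fam.taylor (h : E2Fam s₀ T G) (i j : ℕ) {s₁ s₂ : ℝ} (h₁ : s₀ < s₁) (h₂ : s₂ < T) :
    ∃ C : ℝ, 0 ≤ C ∧ ∀ t ∈ Icc s₁ s₂, ∀ t' ∈ Icc s₁ s₂, ∀ x ∈ Icc (0 : ℝ) 1, ∀ x' ∈ Icc (0 : ℝ) 1,
      |G i j (t', x') - G i j (t, x) - (t' - t) * G (i + 1) j (t, x) - (x' - x) * G i (j + 1) (t, x)|
        ≤ C * (|t' - t| + |x' - x|) ^ 2 := by
  obtain ⟨A, hA0, hA⟩ := h.lip (i + 1) j h₁ h₂
  obtain ⟨B, hB0, hB⟩ := h.lip i (j + 1) h₁ h₂
  have hsub : ∀ t ∈ Icc s₁ s₂, t ∈ Ioo s₀ T := fun t ht =>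
    ⟨lt_of_lt_of_le h₁ ht.1, lt_of_le_of_lt ht.2 h₂⟩
  refine ⟨A + A + B, by positivity, ?_⟩
  intro t ht t' ht' x hx x' hx'
  have e1 : |G i j (t', x') - G i j (t, x') - (t' - t) * G (i + 1) j (t, x')| ≤ A * |t' - t| ^ 2 :=
    e2_cd_taylor1 (f := fun s => G i j (s, x')) (f' := fun s => G (i + 1) j (s, x'))
      (convex_Icc s₁ s₂)
      (fun s hs => (h.dt i j s (hsub s hs) x' hx').hasDerivWithinAt) hA0
      (fun y hy z hz => by simpa using hA y hy z hz x' hx' x' hx') ht ht'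
  have e2 : |G (i + 1) j (t, x') - G (i + 1) j (t, x)| ≤ A * |x' - x| := by
    simpa using hA t ht t ht x hx x' hx'
  have e3 : |G i j (t, x') - G i j (t, x) - (x' - x) * G i (j + 1) (t, x)| ≤ B * |x' - x| ^ 2 :=
    e2_cd_taylor1 (f := fun y => G i j (t, y)) (f' := fun y => G i (j + 1) (t, y))
      (convex_Icc 0 1)
      (fun y hy => h.dx i j t (hsub t ht) y hy) hB0
      (fun y hy z hz => by simpa using hB t ht t ht y hy z hz) hx hx'
  have e4 : |(t' - t) * (G (i + 1) j (t, x') - G (i + 1) j (t, x))| ≤ |t' - t| * (A * |x' - x|) := by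
    rw [abs_mul]
    exact mul_le_mul_of_nonneg_left e2 (abs_nonneg _)
  have key : G i j (t', x') - G i j (t, x) - (t' - t) * G (i + 1) j (t, x)
        - (x' - x) * G i (j + 1) (t, x)
      = (G i j (t', x') - G i j (t, x') - (t' - t) * G (i + 1) j (t, x'))
        + (t' - t) * (G (i + 1) j (t, x') - G (i + 1) j (t, x))
        + (G i j (t, x') - G i j (t, x) - (x' - x) * G i (j + 1) (t, x)) := by ring
  rw [key]
  have t1 := abs_add_three (G i j (t', x') - G i j (t, x') - (t' - t) * G (i + 1) j (t, x'))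
    ((t' - t) * (G (i + 1) j (t, x') - G (i + 1) j (t, x)))
    (G i j (t, x') - G i j (t, x) - (x' - x) * G i (j + 1) (t, x))
  refine t1.trans ?_
  set p := |t' - t| with hp
  set q := |x' - x| with hq
  have hp0 : 0 ≤ p := abs_nonneg _
  have hq0 : 0 ≤ q := abs_nonneg _
  have : A * p ^ 2 + p * (A * q) + B * q ^ 2 ≤ (A + A + B) * (p + q) ^ 2 := by
    have m1 : 0 ≤ A * (p * q) := by positivity
    have m2 : 0 ≤ A * q ^ 2 := by positivity
    have m3 : 0 ≤ B * p ^ 2 := by positivity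
    have m4 : 0 ≤ B * (p * q) := by positivity
    have m5 : 0 ≤ A * p ^ 2 := by positivity
    nlinarith
  linarith

/-- Fréchet derivative within the strip.  Near `q = (t,x)` the strip is contained in a compact sub-rectangle `[s₁,s₂] × [0,1]` with
`s₀ < s₁ < t < s₂ < T`; `E2Fam.taylor` gives `O(‖q'-q‖^2) = o(‖q'-q‖)` (`|t'-t| + |x'-x| ≤ 2 ‖q'-q‖` for the sup norm). -/
theorem E2Fam.hasFDerivWithinAt (h : E2Fam s₀ T G) (i j : ℕ) {q : ℝ × ℝ}
    (hq : q ∈ Ioo s₀ T ×ˢ Icc (0 : ℝ) 1) :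
    HasFDerivWithinAt (G i j)
      (G (i + 1) j q • ContinuousLinearMap.fst ℝ ℝ ℝ + G i (j + 1) q • ContinuousLinearMap.snd ℝ ℝ ℝ)
      (Ioo s₀ T ×ˢ Icc (0 : ℝ) 1) q := by
  obtain ⟨t, x⟩ := q
  obtain ⟨ht, hx⟩ := hq
  simp only at ht hx
  have h1 : s₀ < (s₀ + t) / 2 := by linarith [ht.1]
  have h2 : (t + T) / 2 < T := by linarith [ht.2]
  obtain ⟨C, hC0, hC⟩ := h.taylor i j h1 h2
  rw [hasFDerivWithinAt_iff_isLittleO, Asymptotics.isLittleO_iff]
  intro c hc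
  have hδ : 0 < min (min (t - (s₀ + t) / 2) ((t + T) / 2 - t)) (c / (4 * C + 1)) := by
    refine lt_min (lt_min ?_ ?_) (by positivity)
    · linarith [ht.1]
    · linarith [ht.2]
  filter_upwards [self_mem_nhdsWithin, mem_nhdsWithin_of_mem_nhds (Metric.ball_mem_nhds (t, x) hδ)]
    with q' hq' hball
  obtain ⟨t', x'⟩ := q'
  obtain ⟨-, hx'⟩ := hq'
  simp only at hx'
  have hd : ‖((t', x') : ℝ × ℝ) - (t, x)‖ <
      min (min (t - (s₀ + t) / 2) ((t + T) / 2 - t)) (c / (4 * C + 1)) := by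
    rw [← dist_eq_norm]; exact hball
  set r := ‖((t', x') : ℝ × ℝ) - (t, x)‖ with hr
  have hr0 : 0 ≤ r := norm_nonneg _
  have ht'r : |t' - t| ≤ r := by
    have h3 : ‖(((t', x') : ℝ × ℝ) - (t, x)).1‖ ≤ r := norm_fst_le _
    rwa [Real.norm_eq_abs] at h3
  have hx'r : |x' - x| ≤ r := by
    have h3 : ‖(((t', x') : ℝ × ℝ) - (t, x)).2‖ ≤ r := norm_snd_le _
    rwa [Real.norm_eq_abs] at h3
  have hr1 : r < t - (s₀ + t) / 2 := lt_of_lt_of_le hd ((min_le_left _ _).trans (min_le_left _ _))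
  have hr2 : r < (t + T) / 2 - t := lt_of_lt_of_le hd ((min_le_left _ _).trans (min_le_right _ _))
  have hr3 : r < c / (4 * C + 1) := lt_of_lt_of_le hd (min_le_right _ _)
  have htmem : t ∈ Icc ((s₀ + t) / 2) ((t + T) / 2) := ⟨by linarith [ht.1], by linarith [ht.2]⟩
  have ht'mem : t' ∈ Icc ((s₀ + t) / 2) ((t + T) / 2) := by
    have := abs_le.1 ht'r
    exact ⟨by linarith [this.1], by linarith [this.2]⟩
  have key := hC t htmem t' ht'mem x hx x' hx'
  have e : G i j (t', x') - G i j (t, x) -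
      (G (i + 1) j (t, x) • ContinuousLinearMap.fst ℝ ℝ ℝ +
        G i (j + 1) (t, x) • ContinuousLinearMap.snd ℝ ℝ ℝ) ((t', x') - (t, x))
      = G i j (t', x') - G i j (t, x) - (t' - t) * G (i + 1) j (t, x)
        - (x' - x) * G i (j + 1) (t, x) := by
    simp
    ring
  rw [e, Real.norm_eq_abs]
  refine key.trans ?_
  have hsum : |t' - t| + |x' - x| ≤ 2 * r := by linarith
  have hsum0 : 0 ≤ |t' - t| + |x' - x| := by positivity
  have hsq : (|t' - t| + |x' - x|) ^ 2 ≤ (2 * r) ^ 2 := by gcongr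
  have h4 : (4 * C + 1) * r < c := by
    rw [lt_div_iff₀ (by positivity)] at hr3
    linarith
  calc C * (|t' - t| + |x' - x|) ^ 2 ≤ C * (2 * r) ^ 2 := by gcongr
    _ = (4 * C * r) * r := by ring
    _ ≤ c * r := by
        apply mul_le_mul_of_nonneg_right _ hr0
        nlinarith

theorem e2_strip_uniqueDiffOn (s₀ T : ℝ) : UniqueDiffOn ℝ (Ioo s₀ T ×ˢ Icc (0 : ℝ) 1) :=
  (uniqueDiffOn_Ioo s₀ T).prod (uniqueDiffOn_Icc zero_lt_one)

/-- Induction on `m`, for all `(i,j)` simultaneously.  `m = 0`: continuity from differentiability.  Step: `contDiffOn_succ_iff_fderivWithin`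
(with `e2_strip_uniqueDiffOn`); `fderivWithin` is `G (i+1) j • fst + G i (j+1) • snd` on the strip (`HasFDerivWithinAt.fderivWithin`), which is
`C^m` by the induction hypothesis (`ContDiffOn.smul`/`ContDiffOn.add`, `contDiffOn_const`, `ContDiffOn.congr`). -/
theorem E2Fam.contDiffOn_nat (h : E2Fam s₀ T G) (m : ℕ) : ∀ i j,
    ContDiffOn ℝ m (G i j) (Ioo s₀ T ×ˢ Icc (0 : ℝ) 1) := by
  induction m with
  | zero =>
    intro i j
    rw [Nat.cast_zero, contDiffOn_zero]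
    intro q hq
    exact (h.hasFDerivWithinAt i j hq).continuousWithinAt
  | succ m ih =>
    intro i j
    rw [Nat.cast_succ, contDiffOn_succ_iff_fderivWithin (e2_strip_uniqueDiffOn s₀ T)]
    refine ⟨fun q hq => (h.hasFDerivWithinAt i j hq).differentiableWithinAt, by simp, ?_⟩
    have hc : ContDiffOn ℝ m (fun q => G (i + 1) j q • ContinuousLinearMap.fst ℝ ℝ ℝ +
        G i (j + 1) q • ContinuousLinearMap.snd ℝ ℝ ℝ) (Ioo s₀ T ×ˢ Icc (0 : ℝ) 1) :=
      ((ih (i + 1) j).smul contDiffOn_const).add ((ih i (j + 1)).smul contDiffOn_const)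
    refine hc.congr fun q hq => ?_
    exact (h.hasFDerivWithinAt i j hq).fderivWithin (e2_strip_uniqueDiffOn s₀ T q hq)

theorem E2Fam.contDiffOn (h : E2Fam s₀ T G) : ContDiffOn ℝ ∞ (G 0 0) (Ioo s₀ T ×ˢ Icc (0 : ℝ) 1) :=
  contDiffOn_infty.2 fun m => h.contDiffOn_nat m 0 0

end Claimed.Agent.R324
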