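import Mathlib

/-
Row 324, module E2 (copy of the row 325 engine): three one-dimensional lemmas for limits of smooth functions.  Imports only Mathlib.
-/

set_option autoImplicit false

namespace Claimed.Agent.R324

open Set Filter Topology

/-- second order Taylor estimate by two applications of the mean value inequality:
`|h z - h y - h' y (z - y)| ≤ K (z-y)^2` for `y, z ∈ [α,β]`.
(`k(s) = h s - h' y * s` has derivative `h' s - h' y`, of modulus `≤ K |s - y| ≤ K |z - y|` on the segment between `y` and `z`;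
`Convex.norm_image_sub_le_of_norm_hasDerivWithin_le`.) -/
theorem e2_taylor2 {h h' h'' : ℝ → ℝ} {α β K : ℝ}
    (h1 : ∀ y ∈ Icc α β, HasDerivAt h (h' y) y) (h2 : ∀ y ∈ Icc α β, HasDerivAt h' (h'' y) y)
    (hK : ∀ y ∈ Icc α β, |h'' y| ≤ K) :
    ∀ y ∈ Icc α β, ∀ z ∈ Icc α β, |h z - h y - h' y * (z - y)| ≤ K * (z - y) ^ 2 := by
  intro y hy z hz
  have hconv : Convex ℝ (Icc α β) := convex_Icc α β
  have hA : ∀ s ∈ Icc α β, |h' s - h' y| ≤ K * |s - y| := by
    intro s hs
    have := hconv.norm_image_sub_le_of_norm_hasDerivWithin_le (f := h') (f' := h'') (C := K)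
      (fun x hx => (h2 x hx).hasDerivWithinAt) (fun x hx => by simpa using hK x hx) hy hs
    simpa [Real.norm_eq_abs] using this
  have hK0 : 0 ≤ K := le_trans (abs_nonneg _) (hK y hy)
  have hsub : uIcc y z ⊆ Icc α β := hconv.ordConnected.uIcc_subset hy hz
  have hB := (convex_uIcc y z).norm_image_sub_le_of_norm_hasDerivWithin_le
      (f := fun s => h s - h' y * s) (f' := fun s => h' s - h' y) (C := K * |z - y|)
      (fun x hx => by
        have := (h1 x (hsub hx)).fun_sub ((hasDerivAt_id x).const_mul (h' y))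
        simpa using this.hasDerivWithinAt)
      (fun x hx => by
        rw [Real.norm_eq_abs]
        refine (hA x (hsub hx)).trans ?_
        exact mul_le_mul_of_nonneg_left (abs_sub_left_of_mem_uIcc hx) hK0)
      left_mem_uIcc right_mem_uIcc
  rw [Real.norm_eq_abs, Real.norm_eq_abs] at hB
  have e1 : h z - h y - h' y * (z - y) = h z - h' y * z - (h y - h' y * y) := by ring
  have e2 : K * (z - y) ^ 2 = K * |z - y| * |z - y| := by
    rw [mul_assoc, abs_mul_abs_self]; ring
  rw [e1, e2]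
  exact hB

/-- **Landau-type inequality**: `|h'| ≤ 2ε/δ + Kδ` on `[α,β]` if `|h| ≤ ε`, `|h''| ≤ K` there and `2δ ≤ β - α`.
For `y ∈ [α,β]` one of `y + δ`, `y - δ` lies in `[α,β]`; apply `e2_taylor2` with `z = y ± δ`:
`δ |h' y| ≤ |h z| + |h y| + K δ^2`. -/
theorem e2_landau {h h' h'' : ℝ → ℝ} {α β ε K δ : ℝ} (hδ : 0 < δ) (hδ' : 2 * δ ≤ β - α)
    (h1 : ∀ y ∈ Icc α β, HasDerivAt h (h' y) y) (h2 : ∀ y ∈ Icc α β, HasDerivAt h' (h'' y) y)
    (hε : ∀ y ∈ Icc α β, |h y| ≤ ε) (hK : ∀ y ∈ Icc α β, |h'' y| ≤ K) :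
    ∀ y ∈ Icc α β, |h' y| ≤ 2 * ε / δ + K * δ := by
  intro y hy
  have key : ∀ z ∈ Icc α β, |z - y| = δ → |h' y| ≤ 2 * ε / δ + K * δ := by
    intro z hz hzy
    have hT := e2_taylor2 h1 h2 hK y hy z hz
    have hz' := hε z hz
    have hy' := hε y hy
    have hsq : (z - y) ^ 2 = δ ^ 2 := by rw [← sq_abs, hzy]
    rw [hsq] at hT
    have h3 : |h' y * (z - y)| ≤ 2 * ε + K * δ ^ 2 := by
      have : h' y * (z - y) = (h z - h y) - (h z - h y - h' y * (z - y)) := by ring
      rw [this]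
      calc |(h z - h y) - (h z - h y - h' y * (z - y))|
          ≤ |h z - h y| + |h z - h y - h' y * (z - y)| := abs_sub _ _
        _ ≤ (|h z| + |h y|) + K * δ ^ 2 := by
            gcongr
            exact abs_sub _ _
        _ ≤ 2 * ε + K * δ ^ 2 := by linarith
    rw [abs_mul, hzy] at h3
    have : 2 * ε / δ + K * δ = (2 * ε + K * δ ^ 2) / δ := by
      field_simp
    rw [this, le_div_iff₀ hδ]
    exact h3
  by_cases hc : y + δ ≤ β
  · refine key (y + δ) ⟨by linarith [hy.1], hc⟩ ?_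
    simp [abs_of_pos hδ]
  · refine key (y - δ) ⟨by linarith [hy.1], by linarith [hy.2]⟩ ?_
    simp [abs_of_pos hδ]

/-- a quadratic remainder estimate gives the derivative within the interval. -/
theorem e2_hasDerivWithinAt_of_sq {h : ℝ → ℝ} {α β K d y : ℝ}
    (H : ∀ z ∈ Icc α β, |h z - h y - d * (z - y)| ≤ K * (z - y) ^ 2) :
    HasDerivWithinAt h d (Icc α β) y := by
  rw [hasDerivWithinAt_iff_isLittleO]
  have hO : (fun z => h z - h y - (z - y) • d) =O[𝓝[Icc α β] y] fun z => (z - y) ^ 2 := by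
    refine Asymptotics.IsBigO.of_bound K ?_
    filter_upwards [self_mem_nhdsWithin] with z hz
    have := H z hz
    rw [Real.norm_eq_abs, Real.norm_eq_abs, abs_of_nonneg (sq_nonneg (z - y)), smul_eq_mul,
      mul_comm (z - y) d]
    exact this
  refine hO.trans_isLittleO ?_
  have : (fun z : ℝ => (z - y) ^ 2) =o[𝓝 y] fun z => z - y := by
    have h0 := Asymptotics.isLittleO_pow_sub_sub (E' := ℝ) y (m := 2) (by norm_num)
    simpa using h0
  exact this.mono nhdsWithin_le_nhds

/-- **The derivative of a pointwise limit** when the second derivatives are uniformly bounded: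
pass to the limit `n → ∞` in `e2_taylor2` (`le_of_tendsto`), then `e2_hasDerivWithinAt_of_sq`. -/
theorem e2_limit_deriv {h h' h'' : ℕ → ℝ → ℝ} {H H' : ℝ → ℝ} {α β K : ℝ}
    (h1 : ∀ n, ∀ y ∈ Icc α β, HasDerivAt (h n) (h' n y) y)
    (h2 : ∀ n, ∀ y ∈ Icc α β, HasDerivAt (h' n) (h'' n y) y)
    (hK : ∀ n, ∀ y ∈ Icc α β, |h'' n y| ≤ K)
    (hl : ∀ y ∈ Icc α β, Tendsto (fun n => h n y) atTop (𝓝 (H y)))
    (hl' : ∀ y ∈ Icc α β, Tendsto (fun n => h' n y) atTop (𝓝 (H' y))) :
    ∀ y ∈ Icc α β, HasDerivWithinAt H (H' y) (Icc α β) y := by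
  intro y hy
  refine e2_hasDerivWithinAt_of_sq (K := K) ?_
  intro z hz
  have hlim : Tendsto (fun n => |h n z - h n y - h' n y * (z - y)|) atTop
      (𝓝 |H z - H y - H' y * (z - y)|) :=
    (((hl z hz).sub (hl y hy)).sub ((hl' y hy).mul_const _)).abs
  exact le_of_tendsto hlim (Eventually.of_forall fun n => e2_taylor2 (h1 n) (h2 n) (hK n) y hy z hz)

end Claimed.Agent.R324
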