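import Claimed.Agent.R324.E2.PdB
import Claimed.Agent.R324.E2.Lan
import Claimed.Agent.R324.E2.CD

/-
Row 324, module E2 (copy of the row 325 engine): a sequence of smooth functions on `(-∞,T) × ℝ`, all of whose derivatives are bounded on the rectangles `[s₀,s₂] × [0,1]`
uniformly in `N`, and which is uniformly Cauchy on these rectangles, converges to a function which is smooth on the strip
`(s₀,T) × [0,1]` (up to the boundary `x = 0, 1`).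
-/

set_option autoImplicit false

namespace Claimed.Agent.R324

open Set Filter Topology
open scoped ContDiff

/-- uniformly Cauchy on `[s₀,s₂] × [0,1]`. -/
def E2UC (s₀ s₂ : ℝ) (w : ℕ → ℝ × ℝ → ℝ) : Prop :=
  ∀ ε > 0, ∃ N₀ : ℕ, ∀ N ≥ N₀, ∀ M ≥ N, ∀ t ∈ Icc s₀ s₂, ∀ x ∈ Icc (0 : ℝ) 1,
    |w M (t, x) - w N (t, x)| ≤ ε

variable {T s₀ s₂ : ℝ} {u : ℕ → ℝ × ℝ → ℝ}

/-- `ε`-`η` form of `e2_landau`. -/
theorem e2_lim_landau_eps {α β K ε : ℝ} (hαβ : α < β) (hε : 0 < ε) (hK : 0 ≤ K) :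
    ∃ η > 0, ∀ h h' h'' : ℝ → ℝ, (∀ y ∈ Icc α β, HasDerivAt h (h' y) y) →
      (∀ y ∈ Icc α β, HasDerivAt h' (h'' y) y) → (∀ y ∈ Icc α β, |h y| ≤ η) →
      (∀ y ∈ Icc α β, |h'' y| ≤ K) → ∀ y ∈ Icc α β, |h' y| ≤ ε := by
  have h2K : 0 < 2 * K + 1 := by linarith
  have hδ : 0 < min ((β - α) / 2) (ε / (2 * K + 1)) :=
    lt_min (by linarith) (div_pos hε h2K)
  set δ := min ((β - α) / 2) (ε / (2 * K + 1)) with hδdef
  refine ⟨ε * δ / 4, by positivity, fun h h' h'' h1 h2 hη hKb y hy => ?_⟩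
  have hδ1 : 2 * δ ≤ β - α := by
    have : δ ≤ (β - α) / 2 := min_le_left _ _
    linarith
  have hδ2 : δ ≤ ε / (2 * K + 1) := min_le_right _ _
  have hL := e2_landau hδ hδ1 h1 h2 hη hKb y hy
  have e1 : 2 * (ε * δ / 4) / δ = ε / 2 := by
    field_simp
    ring
  have e2 : K * δ ≤ ε / 2 := by
    have h3 : K * δ ≤ K * (ε / (2 * K + 1)) := mul_le_mul_of_nonneg_left hδ2 hK
    have h4 : K * (ε / (2 * K + 1)) ≤ ε / 2 := by
      rw [mul_div_assoc', div_le_div_iff₀ h2K (by norm_num)]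
      nlinarith
    linarith
  rw [e1] at hL
  linarith

/-- one more `x`-derivative.  Let `K` bound `|e2Pd i (j+2) (u N)|` (so `2K` bounds the difference).  Given `ε`, take `δ = min (1/2) (ε/(4K+1))`
and `N₀` such that `|e2Pd i j (u M) - e2Pd i j (u N)| ≤ ε δ / 4`; `e2_landau` on `[0,1]` for
`h = fun y => e2Pd i j (u M) (t,y) - e2Pd i j (u N) (t,y)` (derivatives: `E2Sm.pd_hasDerivAt_x`, `HasDerivAt.sub`). -/
theorem e2_uc_x (h₂ : s₂ < T) (hsm : ∀ N, E2Sm T (u N)) (i j : ℕ) (hub : E2UB s₀ s₂ i u)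
    (h : E2UC s₀ s₂ (fun N => e2Pd i j (u N))) : E2UC s₀ s₂ (fun N => e2Pd i (j + 1) (u N)) := by
  obtain ⟨K, hK⟩ := hub i le_rfl (j + 2)
  intro ε hε
  obtain ⟨η, hη, hL⟩ := e2_lim_landau_eps (α := (0 : ℝ)) (β := 1) (K := 2 * |K|) zero_lt_one hε
    (by positivity)
  obtain ⟨N₀, hN₀⟩ := h η hη
  refine ⟨N₀, fun N hN M hM t ht x hx => ?_⟩
  have htT : t < T := lt_of_le_of_lt ht.2 h₂
  exact hL (fun y => e2Pd i j (u M) (t, y) - e2Pd i j (u N) (t, y))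
    (fun y => e2Pd i (j + 1) (u M) (t, y) - e2Pd i (j + 1) (u N) (t, y))
    (fun y => e2Pd i (j + 2) (u M) (t, y) - e2Pd i (j + 2) (u N) (t, y))
    (fun y _ => ((hsm M).pd_hasDerivAt_x i j htT y).sub ((hsm N).pd_hasDerivAt_x i j htT y))
    (fun y _ => ((hsm M).pd_hasDerivAt_x i (j + 1) htT y).sub
      ((hsm N).pd_hasDerivAt_x i (j + 1) htT y))
    (fun y hy => hN₀ N hN M hM t ht y hy)
    (fun y hy => by
      have h1 := hK M t ht y hy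
      have h2 := hK N t ht y hy
      have h3 := le_abs_self K
      have h4 := abs_sub (e2Pd i (j + 2) (u M) (t, y)) (e2Pd i (j + 2) (u N) (t, y))
      linarith) x hx

/-- one more `t`-derivative: the same with `e2_landau` on `[s₀,s₂]` (`δ ≤ (s₂-s₀)/2`), `E2Sm.pd_hasDerivAt_t`. -/
theorem e2_uc_t (h₀ : s₀ < s₂) (h₂ : s₂ < T) (hsm : ∀ N, E2Sm T (u N)) (i j : ℕ)
    (hub : E2UB s₀ s₂ (i + 2) u) (h : E2UC s₀ s₂ (fun N => e2Pd i j (u N))) :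
    E2UC s₀ s₂ (fun N => e2Pd (i + 1) j (u N)) := by
  obtain ⟨K, hK⟩ := hub (i + 2) le_rfl j
  intro ε hε
  obtain ⟨η, hη, hL⟩ := e2_lim_landau_eps (α := s₀) (β := s₂) (K := 2 * |K|) h₀ hε
    (by positivity)
  obtain ⟨N₀, hN₀⟩ := h η hη
  refine ⟨N₀, fun N hN M hM t ht x hx => ?_⟩
  have hT : ∀ s ∈ Icc s₀ s₂, s < T := fun s hs => lt_of_le_of_lt hs.2 h₂
  exact hL (fun s => e2Pd i j (u M) (s, x) - e2Pd i j (u N) (s, x))
    (fun s => e2Pd (i + 1) j (u M) (s, x) - e2Pd (i + 1) j (u N) (s, x))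
    (fun s => e2Pd (i + 2) j (u M) (s, x) - e2Pd (i + 2) j (u N) (s, x))
    (fun s hs => ((hsm M).pd_hasDerivAt_t i j (hT s hs) x).sub
      ((hsm N).pd_hasDerivAt_t i j (hT s hs) x))
    (fun s hs => ((hsm M).pd_hasDerivAt_t (i + 1) j (hT s hs) x).sub
      ((hsm N).pd_hasDerivAt_t (i + 1) j (hT s hs) x))
    (fun s hs => hN₀ N hN M hM s hs x hx)
    (fun s hs => by
      have h1 := hK M s hs x hx
      have h2 := hK N s hs x hx
      have h3 := le_abs_self K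
      have h4 := abs_sub (e2Pd (i + 2) j (u M) (s, x)) (e2Pd (i + 2) j (u N) (s, x))
      linarith) t ht

theorem e2_uc_all (h₀ : s₀ < s₂) (h₂ : s₂ < T) (hsm : ∀ N, E2Sm T (u N))
    (hub : ∀ I, E2UB s₀ s₂ I u) (h : E2UC s₀ s₂ u) (i j : ℕ) :
    E2UC s₀ s₂ (fun N => e2Pd i j (u N)) := by
  have hi : ∀ i : ℕ, E2UC s₀ s₂ (fun N => e2Pd i 0 (u N)) := by
    intro i
    induction i with
    | zero => exact h
    | succ i ih => exact e2_uc_t h₀ h₂ hsm i 0 (hub (i + 2)) ih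
  induction j with
  | zero => exact hi i
  | succ j ih => exact e2_uc_x h₂ hsm i j (hub i) ih

/-- pointwise convergence of all derivatives on `[s₀,T) × [0,1]`. -/
theorem e2_lim_tendsto (h₀ : s₀ < T) (hsm : ∀ N, E2Sm T (u N))
    (hub : ∀ s₂ < T, ∀ I, E2UB s₀ s₂ I u) (hc : ∀ s₂ < T, E2UC s₀ s₂ u) (i j : ℕ)
    {t x : ℝ} (ht₀ : s₀ ≤ t) (ht : t < T) (hx : x ∈ Icc (0 : ℝ) 1) :
    Tendsto (fun N => e2Pd i j (u N) (t, x)) atTop
      (𝓝 (limUnder atTop (fun N => e2Pd i j (u N) (t, x)))) := by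
  obtain ⟨s₂, hs₂, hs₂T⟩ := exists_between (max_lt ht h₀)
  have h1 : t < s₂ := lt_of_le_of_lt (le_max_left _ _) hs₂
  have h2 : s₀ < s₂ := lt_of_le_of_lt (le_max_right _ _) hs₂
  have huc := e2_uc_all h2 hs₂T hsm (hub s₂ hs₂T) (hc s₂ hs₂T) i j
  have hcau : CauchySeq (fun N => e2Pd i j (u N) (t, x)) := by
    rw [Metric.cauchySeq_iff']
    intro ε hε
    obtain ⟨N₀, hN₀⟩ := huc (ε / 2) (by positivity)
    refine ⟨N₀, fun n hn => ?_⟩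
    rw [Real.dist_eq]
    have := hN₀ N₀ le_rfl n hn t ⟨ht₀, h1.le⟩ x hx
    linarith
  obtain ⟨a, ha⟩ := cauchySeq_tendsto_of_complete hcau
  rw [ha.limUnder_eq]
  exact ha

/-- **The limit family.**  `G i j q = limUnder atTop (fun N => e2Pd i j (u N) q)`.  For `q ∈ [s₀,T) × [0,1]` the sequence is Cauchy
(`e2_uc_all` on `[s₀,s₂]` with `max q.1 ((s₀+T)/2) < s₂ < T`), so it converges (`cauchySeq_tendsto_of_complete`, `Tendsto.limUnder_eq`).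
* `dt`: `e2_limit_deriv` on `[s₀,s₂]`, `t < s₂ < T`, for `h N = fun s => e2Pd i j (u N) (s,x)`; `t` is interior, so
  `HasDerivWithinAt.hasDerivAt (Icc_mem_nhds ..)`.
* `dx`: `e2_limit_deriv` on `[0,1]`.
* `bdd`: limits of bounded sequences (`le_of_tendsto`).
* uniform convergence of `u N` to `G 0 0`: let `M → ∞` in the Cauchy estimate. -/
theorem e2_limit_fam (h₀ : s₀ < T) (hsm : ∀ N, E2Sm T (u N))
    (hub : ∀ s₂ < T, ∀ I, E2UB s₀ s₂ I u) (hc : ∀ s₂ < T, E2UC s₀ s₂ u) :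
    ∃ G : ℕ → ℕ → ℝ × ℝ → ℝ, E2Fam s₀ T G ∧
      ∀ s₂ < T, ∀ ε > 0, ∃ N₀ : ℕ, ∀ N ≥ N₀, ∀ t ∈ Icc s₀ s₂, ∀ x ∈ Icc (0 : ℝ) 1,
        |u N (t, x) - G 0 0 (t, x)| ≤ ε := by
  refine ⟨fun i j q => limUnder atTop (fun N => e2Pd i j (u N) q), ⟨?_, ?_, ?_⟩, ?_⟩
  · intro i j t ht x hx
    obtain ⟨s₂, hs₂, hs₂T⟩ := exists_between ht.2
    obtain ⟨K, hK⟩ := hub s₂ hs₂T (i + 2) (i + 2) le_rfl j
    have := e2_limit_deriv (h := fun N s => e2Pd i j (u N) (s, x))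
      (h' := fun N s => e2Pd (i + 1) j (u N) (s, x))
      (h'' := fun N s => e2Pd (i + 2) j (u N) (s, x))
      (H := fun s => limUnder atTop (fun N => e2Pd i j (u N) (s, x)))
      (H' := fun s => limUnder atTop (fun N => e2Pd (i + 1) j (u N) (s, x)))
      (α := s₀) (β := s₂) (K := K)
      (fun n y hy => (hsm n).pd_hasDerivAt_t i j (lt_of_le_of_lt hy.2 hs₂T) x)
      (fun n y hy => (hsm n).pd_hasDerivAt_t (i + 1) j (lt_of_le_of_lt hy.2 hs₂T) x)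
      (fun n y hy => hK n y hy x hx)
      (fun y hy => e2_lim_tendsto h₀ hsm hub hc i j hy.1 (lt_of_le_of_lt hy.2 hs₂T) hx)
      (fun y hy => e2_lim_tendsto h₀ hsm hub hc (i + 1) j hy.1 (lt_of_le_of_lt hy.2 hs₂T) hx)
      t ⟨ht.1.le, hs₂.le⟩
    exact this.hasDerivAt (Icc_mem_nhds ht.1 hs₂)
  · intro i j t ht x hx
    obtain ⟨K, hK⟩ := hub t ht.2 i i le_rfl (j + 2)
    exact e2_limit_deriv (h := fun N y => e2Pd i j (u N) (t, y))
      (h' := fun N y => e2Pd i (j + 1) (u N) (t, y))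
      (h'' := fun N y => e2Pd i (j + 2) (u N) (t, y))
      (H := fun y => limUnder atTop (fun N => e2Pd i j (u N) (t, y)))
      (H' := fun y => limUnder atTop (fun N => e2Pd i (j + 1) (u N) (t, y)))
      (α := 0) (β := 1) (K := K)
      (fun n y _ => (hsm n).pd_hasDerivAt_x i j ht.2 y)
      (fun n y _ => (hsm n).pd_hasDerivAt_x i (j + 1) ht.2 y)
      (fun n y hy => hK n t ⟨ht.1.le, le_rfl⟩ y hy)
      (fun y hy => e2_lim_tendsto h₀ hsm hub hc i j ht.1.le ht.2 hy)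
      (fun y hy => e2_lim_tendsto h₀ hsm hub hc i (j + 1) ht.1.le ht.2 hy)
      x hx
  · intro i j s₁ s₂ hs₁ hs₂
    obtain ⟨C, hC⟩ := hub s₂ hs₂ i i le_rfl j
    refine ⟨C, fun t ht x hx => ?_⟩
    have hlim := e2_lim_tendsto h₀ hsm hub hc i j (hs₁.le.trans ht.1) (lt_of_le_of_lt ht.2 hs₂) hx
    exact le_of_tendsto hlim.abs
      (Eventually.of_forall fun N => hC N t ⟨hs₁.le.trans ht.1, ht.2⟩ x hx)
  · intro s₂ hs₂ ε hε
    obtain ⟨N₀, hN₀⟩ := hc s₂ hs₂ ε hε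
    refine ⟨N₀, fun N hN t ht x hx => ?_⟩
    have hlim := e2_lim_tendsto h₀ hsm hub hc 0 0 ht.1 (lt_of_le_of_lt ht.2 hs₂) hx
    have hlim2 : Tendsto (fun M => |u M (t, x) - u N (t, x)|) atTop
        (𝓝 |limUnder atTop (fun N => e2Pd 0 0 (u N) (t, x)) - u N (t, x)|) :=
      (hlim.sub_const _).abs
    rw [abs_sub_comm]
    exact le_of_tendsto hlim2 ((eventually_ge_atTop N).mono fun M hM => hN₀ N hN M hM t ht x hx)

theorem e2_limit_smooth (h₀ : s₀ < T) (hsm : ∀ N, E2Sm T (u N))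
    (hub : ∀ s₂ < T, ∀ I, E2UB s₀ s₂ I u) (hc : ∀ s₂ < T, E2UC s₀ s₂ u) :
    ∃ g : ℝ × ℝ → ℝ, ContDiffOn ℝ ∞ g (Ioo s₀ T ×ˢ Icc (0 : ℝ) 1) ∧
      ∀ s₂ < T, ∀ ε > 0, ∃ N₀ : ℕ, ∀ N ≥ N₀, ∀ t ∈ Icc s₀ s₂, ∀ x ∈ Icc (0 : ℝ) 1,
        |u N (t, x) - g (t, x)| ≤ ε := by
  obtain ⟨G, hG, hconv⟩ := e2_limit_fam h₀ hsm hub hc
  exact ⟨G 0 0, hG.contDiffOn, hconv⟩

end Claimed.Agent.R324
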