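import Claimed.Agent.R324.E2.Defs

/-
Row 324, module E2 (copy of the row 325 engine): polynomial functions of degree `≤ N`; `T_j` preserves them.
-/

set_option autoImplicit false

namespace Claimed.Agent.R324

open Set Polynomial
open scoped ContDiff

theorem E2Poly.contDiff {N : ℕ} {v : ℝ → ℝ} (h : E2Poly N v) : ContDiff ℝ ∞ v := by
  obtain ⟨p, -, hp⟩ := h
  have : v = fun x => p.eval x := funext hp
  rw [this]
  simpa using (Polynomial.contDiff_aeval (R := ℝ) (𝕜 := ℝ) p ∞)

theorem E2Poly.mono {N M : ℕ} {v : ℝ → ℝ} (h : E2Poly N v) (hNM : N ≤ M) : E2Poly M v := by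
  obtain ⟨p, hd, hp⟩ := h
  exact ⟨p, hd.trans hNM, hp⟩

theorem e2Poly_zero (N : ℕ) : E2Poly N (fun _ => 0) := by
  exact ⟨0, by simp, by simp⟩

theorem e2Poly_pow {N k : ℕ} (hk : k ≤ N) : E2Poly N (fun x => x ^ k) := by
  exact ⟨X ^ k, by simpa using hk, by simp⟩

theorem E2Poly.add {N : ℕ} {v w : ℝ → ℝ} (hv : E2Poly N v) (hw : E2Poly N w) :
    E2Poly N (fun x => v x + w x) := by
  obtain ⟨p, hpd, hp⟩ := hv
  obtain ⟨q, hqd, hq⟩ := hw
  exact ⟨p + q, natDegree_add_le_of_degree_le hpd hqd, fun x => by simp [hp, hq]⟩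

theorem E2Poly.sub {N : ℕ} {v w : ℝ → ℝ} (hv : E2Poly N v) (hw : E2Poly N w) :
    E2Poly N (fun x => v x - w x) := by
  obtain ⟨p, hpd, hp⟩ := hv
  obtain ⟨q, hqd, hq⟩ := hw
  exact ⟨p - q, by simpa using natDegree_sub_le_of_le hpd hqd, fun x => by simp [hp, hq]⟩

theorem E2Poly.smul {N : ℕ} {v : ℝ → ℝ} (hv : E2Poly N v) (c : ℝ) :
    E2Poly N (fun x => c * v x) := by
  obtain ⟨p, hpd, hp⟩ := hv
  exact ⟨C c * p, (natDegree_C_mul_le c p).trans hpd, fun x => by simp [hp]⟩

theorem e2Poly_sum {N : ℕ} {ι : Type} (s : Finset ι) {v : ι → ℝ → ℝ}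
    (hv : ∀ k ∈ s, E2Poly N (v k)) : E2Poly N (fun x => ∑ k ∈ s, v k x) := by
  classical
  induction s using Finset.induction_on with
  | empty => simpa using e2Poly_zero N
  | insert a s ha ih =>
    have h1 : E2Poly N (v a) := hv a (Finset.mem_insert_self a s)
    have h2 : E2Poly N (fun x => ∑ k ∈ s, v k x) :=
      ih (fun k hk => hv k (Finset.mem_insert_of_mem hk))
    have := h1.add h2
    simpa [Finset.sum_insert ha] using this

/-- `Σ_{k ≤ N} c_k x^k`. -/
theorem e2Poly_of_coef (N : ℕ) (c : ℕ → ℝ) :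
    E2Poly N (fun x => ∑ k ∈ Finset.range (N + 1), c k * x ^ k) := by
  apply e2Poly_sum
  intro k hk
  exact (e2Poly_pow (Nat.lt_succ_iff.mp (Finset.mem_range.mp hk))).smul (c k)

/-- conversely every element is such a sum (`Polynomial.eval_eq_sum_range'` / `as_sum_range'`). -/
theorem E2Poly.exists_coef {N : ℕ} {v : ℝ → ℝ} (h : E2Poly N v) :
    ∃ c : ℕ → ℝ, ∀ x, v x = ∑ k ∈ Finset.range (N + 1), c k * x ^ k := by
  obtain ⟨p, hpd, hp⟩ := h
  exact ⟨p.coeff, fun x => by rw [hp, eval_eq_sum_range' (Nat.lt_succ_of_le hpd)]⟩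

/-- the function `∂^j v` of a polynomial function is the function of `derivative^[j] p`
(`Polynomial.iterate_derivative...`, `Polynomial.deriv`, `iteratedDeriv_succ`). -/
theorem e2_iteratedDeriv_eval (p : ℝ[X]) (j : ℕ) :
    iteratedDeriv j (fun x => p.eval x) = fun x => (derivative^[j] p).eval x := by
  induction j with
  | zero => simp
  | succ j ih =>
    rw [iteratedDeriv_succ, ih]
    funext x
    rw [Polynomial.deriv, Function.iterate_succ_apply']

/-- `D_i^*` on polynomial functions. -/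
theorem e2Dst_eval (i : ℕ) (p : ℝ[X]) :
    e2Dst i (fun x => p.eval x) = fun x =>
      (-(X * (1 - X)) * derivative p - (C ((i : ℝ) + 1) - C (2 * (i : ℝ) + 2) * X) * p).eval x := by
  funext x
  simp only [e2Dst, Polynomial.deriv]
  simp

/-- `D_i^*` raises the degree by at most one. -/
theorem E2Poly.dst {N : ℕ} {v : ℝ → ℝ} (h : E2Poly N v) (i : ℕ) : E2Poly (N + 1) (e2Dst i v) := by
  obtain ⟨p, hpd, hp⟩ := h
  have hv : v = fun x => p.eval x := funext hp
  rw [hv, e2Dst_eval]
  refine ⟨_, ?_, fun x => rfl⟩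
  have key : ∀ a b : ℝ[X], a.natDegree ≤ N + 1 → b.natDegree ≤ N + 1 → (a - b).natDegree ≤ N + 1 :=
    fun a b ha hb => by simpa using natDegree_sub_le_of_le ha hb
  apply key
  · by_cases hp0 : derivative p = 0
    · simp [hp0]
    have hN : 1 ≤ p.natDegree := by
      by_contra hcon
      have : p.natDegree = 0 := by omega
      exact hp0 (derivative_of_natDegree_zero this)
    have h1 : (-(X * (1 - X)) : ℝ[X]).natDegree ≤ 2 := by
      rw [natDegree_neg]
      refine (natDegree_mul_le).trans ?_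
      have h3 : ((1 : ℝ[X]) - X).natDegree ≤ 1 := by
        simpa using natDegree_sub_le_of_le (p := (1 : ℝ[X])) (q := X) (m := 0) (n := 1)
          (by simp) (by simp)
      have h4 := natDegree_X_le (R := ℝ)
      omega
    have h2 : (derivative p).natDegree ≤ p.natDegree - 1 := natDegree_derivative_le p
    refine (natDegree_mul_le).trans ?_
    omega
  · have h1 : (C ((i : ℝ) + 1) - C (2 * (i : ℝ) + 2) * X : ℝ[X]).natDegree ≤ 1 := by
      simpa using natDegree_sub_le_of_le (p := C ((i : ℝ) + 1)) (q := C (2 * (i : ℝ) + 2) * X)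
        (m := 0) (n := 1) (natDegree_C _).le ((natDegree_C_mul_le _ _).trans natDegree_X_le)
    refine (natDegree_mul_le).trans ?_
    omega

theorem E2Poly.dpow {N : ℕ} {v : ℝ → ℝ} (h : E2Poly N v) (m j : ℕ) :
    E2Poly (N + j) (e2Dpow m j v) := by
  induction j generalizing N v with
  | zero => simpa [e2Dpow] using h
  | succ j ih =>
    have := ih (h.dst (m + j))
    simp only [e2Dpow]
    have e : N + 1 + j = N + (j + 1) := by omega
    rwa [e] at this

/-- `e2Dpow j 0 = 0`. -/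
theorem e2Dpow_zero_fun (m j : ℕ) : e2Dpow m j (fun _ => 0) = fun _ => 0 := by
  induction j with
  | zero => rfl
  | succ j ih =>
    simp only [e2Dpow]
    have : e2Dst (m + j) (fun _ => (0 : ℝ)) = fun _ => 0 := by
      funext x
      simp [e2Dst]
    rw [this, ih]

/-- `∂^j` lowers the degree by `j`: if `j ≤ N` then `∂^j v` has degree `≤ N - j`; if `N < j` it vanishes. -/
theorem E2Poly.iteratedDeriv_le {N : ℕ} {v : ℝ → ℝ} (h : E2Poly N v) {j : ℕ} (hj : j ≤ N) :
    E2Poly (N - j) (iteratedDeriv j v) := by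
  obtain ⟨p, hpd, hp⟩ := h
  have hv : v = fun x => p.eval x := funext hp
  rw [hv, e2_iteratedDeriv_eval]
  refine ⟨_, ?_, fun x => rfl⟩
  have := natDegree_iterate_derivative p j
  omega

theorem E2Poly.iteratedDeriv_eq_zero {N : ℕ} {v : ℝ → ℝ} (h : E2Poly N v) {j : ℕ} (hj : N < j) :
    iteratedDeriv j v = fun _ => 0 := by
  obtain ⟨p, hpd, hp⟩ := h
  have hv : v = fun x => p.eval x := funext hp
  rw [hv, e2_iteratedDeriv_eval]
  have : derivative^[j] p = 0 := iterate_derivative_eq_zero (lt_of_le_of_lt hpd hj)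
  simp [this]

/-- **`T_j` preserves the Galerkin space.** -/
theorem E2Poly.T {N : ℕ} {v : ℝ → ℝ} (h : E2Poly N v) (m j : ℕ) : E2Poly N (e2T m j v) := by
  unfold e2T
  rcases le_or_gt j N with hj | hj
  · have := (h.iteratedDeriv_le hj).dpow m j
    have e : N - j + j = N := by omega
    rwa [e] at this
  · rw [h.iteratedDeriv_eq_zero hj, e2Dpow_zero_fun]
    exact e2Poly_zero N

end Claimed.Agent.R324
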