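import Claimed.Agent.R324.E2.Op
import Claimed.Agent.R324.E2.Poly

/-
Row 324, module E2 (port of R325/EngGalP): first properties of the Galerkin solutions.
-/

set_option autoImplicit false

namespace Claimed.Agent.R324

open Set
open scoped ContDiff

variable {D : E2Data} {N : ℕ} {u : Fin 3 → ℝ × ℝ → ℝ}

theorem E2Gal.sm (h : E2Gal D N u) (j : Fin 3) : E2Sm D.T (u j) := by
  obtain ⟨c, hc, hu⟩ := h.coef
  have h1 : E2Sm D.T (fun q : ℝ × ℝ => ∑ k ∈ Finset.range (N + 1), c j k q.1 * q.2 ^ k) :=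
    e2Sm_sum _ fun k _ => (e2Sm_of_t (hc j k)).mul (e2Sm_of_x D.T (contDiff_id.pow k))
  exact h1.congr fun t _ x => hu j (t, x)

/-- `∂_t^i u_j (t,x) = Σ_k c_jk^{(i)}(t) x^k` on `U`, hence a polynomial of degree `≤ N` in `x`. -/
theorem E2Gal.poly (h : E2Gal D N u) (j : Fin 3) (i : ℕ) {t : ℝ} (ht : t < D.T) :
    E2Poly N (fun x => e2Pdt^[i] (u j) (t, x)) := by
  obtain ⟨c, hc, hu⟩ := h.coef
  have key : (fun x => e2Pdt^[i] (u j) (t, x))
      = fun x => ∑ k ∈ Finset.range (N + 1), iteratedDeriv i (c j k) t * x ^ k := by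
    funext x
    rw [e2Pdt_iter_eq_iteratedDeriv]
    have e : (fun s => u j (s, x)) = fun s => ∑ k ∈ Finset.range (N + 1), c j k s * x ^ k := by
      funext s
      exact hu j (s, x)
    rw [e, iteratedDeriv_fun_sum]
    · refine Finset.sum_congr rfl fun k _ => ?_
      exact iteratedDeriv_mul_const_field (c j k) (x ^ k)
    · intro k _
      have h1 : ContDiffAt ℝ ∞ (c j k) t := (hc j k).contDiffAt (Iio_mem_nhds ht)
      exact (h1.mul contDiffAt_const).of_le (by exact_mod_cast le_top)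
  rw [key]
  exact e2Poly_of_coef N (fun k => iteratedDeriv i (c j k) t)

theorem E2Gal.poly0 (h : E2Gal D N u) (j : Fin 3) {t : ℝ} (ht : t < D.T) :
    E2Poly N (fun x => u j (t, x)) :=
  h.poly j 0 ht

/-- the Galerkin equation differentiated `i` times in time: for every `v ∈ V_N`
`<∂_t^{i+1} u_j - ∂_t^i (S u)_j, v>_{m_j} = 0`. -/
theorem E2Gal.weak_iter (h : E2Gal D N u) (j : Fin 3) (i : ℕ) : ∀ t < D.T, ∀ v : ℝ → ℝ, E2Poly N v →
    e2Ip (D.m j) (fun x => e2Pdt^[i + 1] (u j) (t, x) - e2Pdt^[i] (e2S D u j) (t, x)) v = 0 := by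
  induction i with
  | zero => exact fun t ht v hv => h.weak j t ht v hv
  | succ i ih =>
    intro t ht v hv
    have hf1 : E2Sm D.T (e2Pdt^[i + 1] (u j)) := (h.sm j).pdt_iter (i + 1)
    have hf2 : E2Sm D.T (e2Pdt^[i] (e2S D u j)) := (e2Sm_S D h.sm j).pdt_iter i
    have hd := e2_hasDerivAt_ip_left (D.m j) (hf1.sub hf2) hv.contDiff ht
    have hz : (fun s => e2Ip (D.m j)
        (fun x => e2Pdt^[i + 1] (u j) (s, x) - e2Pdt^[i] (e2S D u j) (s, x)) v)
        =ᶠ[nhds t] fun _ => (0 : ℝ) := by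
      filter_upwards [Iio_mem_nhds ht] with s hs
      exact ih s hs v hv
    have h0 : e2Ip (D.m j) (fun x => e2Pdt
        (fun q => e2Pdt^[i + 1] (u j) q - e2Pdt^[i] (e2S D u j) q) (t, x)) v = 0 :=
      hd.unique ((hasDerivAt_const t (0 : ℝ)).congr_of_eventuallyEq hz)
    rw [← h0]
    refine e2Ip_congr (D.m j) (fun x _ => ?_) (fun _ _ => rfl)
    have hs := e2Pd_sub hf1 hf2 1 0 t ht x
    have e1 : e2Pdt^[i + 1 + 1] (u j) = e2Pdt (e2Pdt^[i + 1] (u j)) :=
      Function.iterate_succ_apply' e2Pdt (i + 1) (u j)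
    have e2 : e2Pdt^[i + 1] (e2S D u j) = e2Pdt (e2Pdt^[i] (e2S D u j)) :=
      Function.iterate_succ_apply' e2Pdt i _
    rw [e1, e2]
    exact hs.symm

end Claimed.Agent.R324
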