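import Claimed.Agent.R324.E2.Op

/-
Row 324, module E2: closure of the uniformly bounded families under `S`.
-/

set_option autoImplicit false

namespace Claimed.Agent.R324

open Set
open scoped ContDiff

variable {s₀ s₂ : ℝ}

/-- closure of the uniformly bounded families under `S`  (same decomposition as in `e2Sm_S0`, with `E2UB.add`, `E2UB.mul`, `E2UB.pdx`, `e2UB_sum`,
`E2UB.integral`, `e2UB_const`; model: `EngUB.Lop`, `EngUB.Rop`, `EngUB.S` at the end of R325/EngUB.lean). -/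
theorem e2UB_S (D : E2Data) {ι : Type} {𝓕 : ι → Fin 3 → ℝ × ℝ → ℝ} {I : ℕ} (h₂ : s₂ < D.T)
    (hf : ∀ n j, E2Sm D.T (𝓕 n j)) (h : ∀ j, E2UB s₀ s₂ I (fun n => 𝓕 n j)) (j : Fin 3) :
    E2UB s₀ s₂ I (fun n => e2S D (𝓕 n) j) := by
  have cst : ∀ {g : ℝ × ℝ → ℝ}, E2Sm D.T g → E2UB s₀ s₂ I (fun _ : ι => g) :=
    fun hg => e2UB_const ι hg s₀ h₂ I
  have e : (fun n => e2S D (𝓕 n) j) = fun n q => e2S0 D (𝓕 n) j q + D.F j q := rfl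
  rw [e]
  simp only [e2S0_eq_pd]
  -- smoothness of the pieces
  have s1 : ∀ n, E2Sm D.T (fun q : ℝ × ℝ => q.2 * (1 - q.2)
      * e2Pdx (fun p => D.a p * e2Pdx (𝓕 n j) p) q) :=
    fun n => (e2Sm_phi D.T).mul (D.ha.mul (hf n j).pdx).pdx
  have s2 : ∀ n, E2Sm D.T (fun q : ℝ × ℝ =>
      (((D.m j : ℕ) : ℝ) + 1 - (2 * ((D.m j : ℕ) : ℝ) + 2) * q.2) * (D.a q * e2Pdx (𝓕 n j) q)) :=
    fun n => (e2Sm_lin D.T _ _).mul (D.ha.mul (hf n j).pdx)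
  have s3 : ∀ n, E2Sm D.T (fun q : ℝ × ℝ => q.2 * (1 - q.2) * D.b j q * e2Pdx (𝓕 n j) q) :=
    fun n => ((e2Sm_phi D.T).mul (D.hb j)).mul (hf n j).pdx
  have s4 : ∀ n, E2Sm D.T (fun q : ℝ × ℝ => ∑ k, e2s j k q.2 * D.c j k q * 𝓕 n k q) :=
    fun n => e2Sm_sum Finset.univ fun k _ => ((e2Sm_s D.T j k).mul (D.hc j k)).mul (hf n k)
  have s5i : ∀ i n, E2Sm D.T (fun q : ℝ × ℝ => ∑ l, D.k i l q * 𝓕 n l q) :=
    fun i n => e2Sm_sum Finset.univ fun l _ => (D.hk i l).mul (hf n l)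
  have s5j : ∀ i n, E2Sm D.T (fun q : ℝ × ℝ =>
      ∫ ξ in (0 : ℝ)..1, ∑ l, D.k i l (q.1, ξ) * 𝓕 n l (q.1, ξ)) :=
    fun i n => e2Sm_integral (f := fun q => ∑ l, D.k i l q * 𝓕 n l q) (s5i i n)
  have s5 : ∀ n, E2Sm D.T (fun q : ℝ × ℝ => ∑ i, D.e i j q
      * ∫ ξ in (0 : ℝ)..1, ∑ l, D.k i l (q.1, ξ) * 𝓕 n l (q.1, ξ)) :=
    fun n => e2Sm_sum Finset.univ fun i _ => (D.he i j).mul (s5j i n)
  -- bounds of the pieces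
  have b0 : E2UB s₀ s₂ I (fun n => e2Pdx (𝓕 n j)) := E2UB.pdx h₂ (fun n => hf n j) (h j)
  have b0' : E2UB s₀ s₂ I (fun n q => D.a q * e2Pdx (𝓕 n j) q) :=
    E2UB.mul h₂ (fun _ => D.ha) (fun n => (hf n j).pdx) (cst D.ha) b0
  have b1 : E2UB s₀ s₂ I (fun n (q : ℝ × ℝ) => q.2 * (1 - q.2)
      * e2Pdx (fun p => D.a p * e2Pdx (𝓕 n j) p) q) :=
    E2UB.mul h₂ (fun _ => e2Sm_phi D.T) (fun n => (D.ha.mul (hf n j).pdx).pdx) (cst (e2Sm_phi D.T))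
      (E2UB.pdx h₂ (fun n => D.ha.mul (hf n j).pdx) b0')
  have b2 : E2UB s₀ s₂ I (fun n (q : ℝ × ℝ) =>
      (((D.m j : ℕ) : ℝ) + 1 - (2 * ((D.m j : ℕ) : ℝ) + 2) * q.2) * (D.a q * e2Pdx (𝓕 n j) q)) :=
    E2UB.mul h₂ (fun _ => e2Sm_lin D.T _ _) (fun n => D.ha.mul (hf n j).pdx)
      (cst (e2Sm_lin D.T _ _)) b0'
  have b3 : E2UB s₀ s₂ I (fun n (q : ℝ × ℝ) => q.2 * (1 - q.2) * D.b j q * e2Pdx (𝓕 n j) q) :=
    E2UB.mul h₂ (fun _ => (e2Sm_phi D.T).mul (D.hb j)) (fun n => (hf n j).pdx)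
      (cst ((e2Sm_phi D.T).mul (D.hb j))) b0
  have b4 : E2UB s₀ s₂ I (fun n (q : ℝ × ℝ) => ∑ k, e2s j k q.2 * D.c j k q * 𝓕 n k q) :=
    e2UB_sum h₂ Finset.univ (𝓗 := fun k n (q : ℝ × ℝ) => e2s j k q.2 * D.c j k q * 𝓕 n k q)
      (fun k _ n => ((e2Sm_s D.T j k).mul (D.hc j k)).mul (hf n k))
      (fun k _ => E2UB.mul h₂ (fun _ => (e2Sm_s D.T j k).mul (D.hc j k)) (fun n => hf n k)
        (cst ((e2Sm_s D.T j k).mul (D.hc j k))) (h k))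
  have b5i : ∀ i, E2UB s₀ s₂ I (fun n (q : ℝ × ℝ) => ∑ l, D.k i l q * 𝓕 n l q) := fun i =>
    e2UB_sum h₂ Finset.univ (𝓗 := fun l n (q : ℝ × ℝ) => D.k i l q * 𝓕 n l q)
      (fun l _ n => (D.hk i l).mul (hf n l))
      (fun l _ => E2UB.mul h₂ (fun _ => D.hk i l) (fun n => hf n l) (cst (D.hk i l)) (h l))
  have b5j : ∀ i, E2UB s₀ s₂ I (fun n (q : ℝ × ℝ) =>
      ∫ ξ in (0 : ℝ)..1, ∑ l, D.k i l (q.1, ξ) * 𝓕 n l (q.1, ξ)) := fun i =>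
    E2UB.integral (𝓕 := fun n (q : ℝ × ℝ) => ∑ l, D.k i l q * 𝓕 n l q) h₂ (s5i i) (b5i i)
  have b5 : E2UB s₀ s₂ I (fun n (q : ℝ × ℝ) => ∑ i, D.e i j q
      * ∫ ξ in (0 : ℝ)..1, ∑ l, D.k i l (q.1, ξ) * 𝓕 n l (q.1, ξ)) :=
    e2UB_sum h₂ Finset.univ (𝓗 := fun i n (q : ℝ × ℝ) => D.e i j q
      * ∫ ξ in (0 : ℝ)..1, ∑ l, D.k i l (q.1, ξ) * 𝓕 n l (q.1, ξ))
      (fun i _ n => (D.he i j).mul (s5j i n))
      (fun i _ => E2UB.mul h₂ (fun _ => D.he i j) (s5j i) (cst (D.he i j)) (b5j i))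
  have s12 := fun n => (s1 n).add (s2 n)
  have s123 := fun n => (s12 n).add (s3 n)
  have s1234 := fun n => (s123 n).add (s4 n)
  have s12345 := fun n => (s1234 n).add (s5 n)
  exact E2UB.add h₂ s12345 (fun _ => D.hF j)
    (E2UB.add h₂ s1234 s5 (E2UB.add h₂ s123 s4 (E2UB.add h₂ s12 s3 (E2UB.add h₂ s1 s2 b1 b2) b3) b4)
      b5) (cst (D.hF j))

end Claimed.Agent.R324
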