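import Claimed.Agent.R324.E2.Energy
import Claimed.Agent.R324.E2.GalP
import Claimed.Agent.R324.E2.UBS

/-
Row 324, module E2 (port of R325/EngBd): bounds for all derivatives of the Galerkin solutions, uniform in `N`.
-/

set_option autoImplicit false

namespace Claimed.Agent.R324

open Set
open scoped ContDiff

/-- The `<,>_m`-orthogonal projection onto `V_N` does not increase `N_l`. -/
theorem e2_proj_Nsq_le (m : ℕ) {N : ℕ} {z G : ℝ → ℝ} (hz : E2Poly N z) (hG : ContDiff ℝ ∞ G)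
    (h : ∀ v, E2Poly N v → e2Ip m (fun x => z x - G x) v = 0) (l : ℕ) :
    e2Nsq m l z ≤ e2Nsq m l G := by
  have hzc : ContDiff ℝ ∞ z := hz.contDiff
  have hT : ContDiff ℝ ∞ (e2T m l z) := e2T_contDiff m l hzc
  have h1 : e2Ip m z (e2T m l z) = e2Ip m G (e2T m l z) := by
    have h2 := h (e2T m l z) (hz.T m l)
    rw [e2Ip_sub_left m hzc.continuous hG.continuous hT.continuous] at h2
    linarith
  rw [e2_ip_T_self m l hzc, e2_ip_T m l hG hzc] at h1
  have hcs := e2Ip_cs (m + l) (e2_iteratedDeriv_contDiff l hG).continuous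
    (e2_iteratedDeriv_contDiff l hzc).continuous
  rw [← h1] at hcs
  have ha : 0 ≤ e2Nsq m l z := e2Nsq_nonneg m l z
  have hb : 0 ≤ e2Nsq m l G := e2Nsq_nonneg m l G
  have hcs' : e2Nsq m l z ^ 2 ≤ e2Nsq m l G * e2Nsq m l z := hcs
  rcases ha.eq_or_lt with h0 | h0
  · rw [← h0]; exact hb
  · have : e2Nsq m l z * e2Nsq m l z ≤ e2Nsq m l G * e2Nsq m l z := by
      rw [← sq]; exact hcs'
    exact le_of_mul_le_mul_right this h0

/-- From bounds on all `N_l` to sup bounds (`e2_sobolev`). -/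
theorem e2_sup_of_Nsq (m j : ℕ) : ∃ C : ℝ, 0 ≤ C ∧ ∀ (z : ℝ → ℝ) (K : ℝ), ContDiff ℝ ∞ z →
    (∀ l < 2 * j + m + 3, e2Nsq m l z ≤ K) →
    ∀ x ∈ Icc (0 : ℝ) 1, |iteratedDeriv j z x| ≤ Real.sqrt (C * K) := by
  obtain ⟨C₀, hC₀, hS⟩ := e2_sobolev m j
  refine ⟨C₀ * ((2 * j + m + 3 : ℕ) : ℝ), by positivity, fun z K hz hK x hx => ?_⟩
  apply Real.abs_le_sqrt
  refine (hS z hz x hx).trans ?_
  rw [mul_assoc]
  apply mul_le_mul_of_nonneg_left _ hC₀
  calc ∑ l ∈ Finset.range (2 * j + m + 3), e2Nsq m l z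
      ≤ ∑ _l ∈ Finset.range (2 * j + m + 3), K :=
        Finset.sum_le_sum fun l hl => hK l (Finset.mem_range.1 hl)
    _ = ((2 * j + m + 3 : ℕ) : ℝ) * K := by
        rw [Finset.sum_const, Finset.card_range, nsmul_eq_mul]

theorem e2m_le (μ : ℕ) (j : Fin 3) : e2m μ j ≤ μ + 2 := by
  unfold e2m
  split_ifs <;> omega

variable {D : E2Data} {u : ℕ → Fin 3 → ℝ × ℝ → ℝ}

/-- **Level 0** (no time derivative). -/
theorem e2_bd0 (hu : ∀ N, E2Gal D N (u N)) {s₂ : ℝ} (h₂ : s₂ < D.T) (p : Fin 3) :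
    E2UB (D.t₁ - 1) s₂ 0 (fun N => u N p) := by
  intro i hi j
  obtain rfl : i = 0 := Nat.le_zero.mp hi
  set J : ℕ := 2 * j + D.μ + 4 with hJdef
  have hJ12 : D.μ + 4 ≤ J := by omega
  obtain ⟨C, hC0, hC⟩ := e2_energy D (D.t₁ - 1) h₂ J hJ12
  have hFb : ∀ (k : Fin 3) (l : ℕ), ∃ c : ℝ, 0 ≤ c ∧ ∀ t ∈ Icc (D.t₁ - 1) s₂, ∀ x ∈ Icc (0 : ℝ) 1,
      |e2Pd 0 l (D.F k) (t, x)| ≤ c := fun k l => ((D.hF k).pd 0 l).bdd (D.t₁ - 1) h₂
  choose c hc0 hc using hFb
  set ρ : ℝ := ∑ k, ∑ l ∈ Finset.range (J + 1), (c k l) ^ 2 with hρdef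
  have hρ0 : 0 ≤ ρ := Finset.sum_nonneg fun k _ => Finset.sum_nonneg (fun l _ => sq_nonneg _)
  have hcρ : ∀ k, ∀ l ≤ J, (c k l) ^ 2 ≤ ρ := by
    intro k l hl
    have h1 : (c k l) ^ 2 ≤ ∑ l ∈ Finset.range (J + 1), (c k l) ^ 2 :=
      Finset.single_le_sum (f := fun l => (c k l) ^ 2) (fun l _ => sq_nonneg _)
        (Finset.mem_range.mpr (Nat.lt_succ_of_le hl))
    refine h1.trans ?_
    exact Finset.single_le_sum (f := fun k => ∑ l ∈ Finset.range (J + 1), (c k l) ^ 2)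
      (fun k _ => Finset.sum_nonneg (fun l _ => sq_nonneg _)) (Finset.mem_univ k)
  obtain ⟨CS, hCS0, hCS⟩ := e2_sup_of_Nsq (D.m p) j
  refine ⟨Real.sqrt (CS * (C * ρ)), ?_⟩
  intro N t ht x hx
  have hsm : ∀ k, E2Sm D.T (u N k) := (hu N).sm
  have htT : t < D.T := lt_of_le_of_lt ht.2 h₂
  have hzero : ∀ k y, u N k (D.t₁ - 1, y) = 0 := fun k y => (hu N).zero k _ (by linarith) y
  have hyp : ∀ s ∈ Icc (D.t₁ - 1) s₂, ∀ k, ∀ l ≤ J,
      e2Ip (D.m k) (fun y => e2Pdt (u N k) (s, y) - e2S0 D (u N) k (s, y))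
          (e2T (D.m k) l (fun y => u N k (s, y)))
        ≤ e2Nsq (D.m k) l (fun y => u N k (s, y)) + ρ := by
    intro s hs k l hl
    have hsT : s < D.T := lt_of_le_of_lt hs.2 h₂
    have husl : ContDiff ℝ ∞ (fun y => u N k (s, y)) := (hsm k).slice_x hsT
    have hFsl : ContDiff ℝ ∞ (fun y => D.F k (s, y)) := (D.hF k).slice_x hsT
    have hv : E2Poly N (e2T (D.m k) l (fun y => u N k (s, y))) := ((hu N).poly0 k hsT).T (D.m k) l
    have hw := (hu N).weak k s hsT _ hv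
    have hc1 : Continuous (fun y => e2Pdt (u N k) (s, y) - e2S D (u N) k (s, y)) :=
      (((hsm k).pdt.sub (e2Sm_S D hsm k)).slice_x hsT).continuous
    have hsplit : e2Ip (D.m k) (fun y => e2Pdt (u N k) (s, y) - e2S0 D (u N) k (s, y))
          (e2T (D.m k) l (fun y => u N k (s, y)))
        = e2Ip (D.m k) (fun y => e2Pdt (u N k) (s, y) - e2S D (u N) k (s, y))
            (e2T (D.m k) l (fun y => u N k (s, y)))
          + e2Ip (D.m k) (fun y => D.F k (s, y)) (e2T (D.m k) l (fun y => u N k (s, y))) := by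
      rw [← e2Ip_add_left (D.m k) hc1 hFsl.continuous hv.contDiff.continuous]
      congr 1
      funext y
      simp only [e2S]
      ring
    rw [hsplit, hw, zero_add, e2_ip_T (D.m k) l hFsl husl]
    have hy := e2Ip_young (D.m k + l) (e2_iteratedDeriv_contDiff l hFsl).continuous
      (e2_iteratedDeriv_contDiff l husl).continuous (δ := 1 / 2) (by norm_num)
    have hFN : e2Nsq (D.m k) l (fun y => D.F k (s, y)) ≤ (c k l) ^ 2 := by
      apply e2Nsq_le_sup (D.m k) l hFsl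
      intro y hy
      have := hc k l s hs y hy
      rwa [e2Pd_eq_iteratedDeriv] at this
    have hFN' : e2Ip (D.m k + l) (iteratedDeriv l (fun y => D.F k (s, y)))
        (iteratedDeriv l (fun y => D.F k (s, y))) ≤ ρ := le_trans hFN (hcρ k l hl)
    have hun : 0 ≤ e2Nsq (D.m k) l (fun y => u N k (s, y)) := e2Nsq_nonneg _ _ _
    have hdef : e2Nsq (D.m k) l (fun y => u N k (s, y))
        = e2Ip (D.m k + l) (iteratedDeriv l (fun y => u N k (s, y)))
        (iteratedDeriv l (fun y => u N k (s, y))) := rfl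
    have h3 := le_trans (le_abs_self _) hy
    rw [← hdef] at h3
    norm_num at h3
    linarith
  have hsum := hC (u N) ρ hsm hρ0 hzero hyp t ht
  have hmp : D.m p ≤ D.μ + 2 := e2m_le D.μ p
  have hl : ∀ l < 2 * j + D.m p + 3, e2Nsq (D.m p) l (fun y => u N p (t, y)) ≤ C * ρ := by
    intro l hl
    refine le_trans ?_ hsum
    exact e2Nsq_le_E D.μ J (fun k y => u N k (t, y)) p (by omega)
  have := hCS (fun y => u N p (t, y)) (C * ρ) ((hsm p).slice_x htT) hl x hx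
  rw [e2Pd_eq_iteratedDeriv]
  exact this

/-- **Induction step in the number of time derivatives.** -/
theorem e2_bd_step (hu : ∀ N, E2Gal D N (u N)) {s₂ : ℝ} (h₂ : s₂ < D.T) (I : ℕ)
    (h : ∀ p, E2UB (D.t₁ - 1) s₂ I (fun N => u N p)) (p : Fin 3) :
    E2UB (D.t₁ - 1) s₂ (I + 1) (fun N => u N p) := by
  intro i hi j
  rcases Nat.lt_or_ge i (I + 1) with hlt | hge
  · exact h p i (Nat.lt_succ_iff.1 hlt) j
  obtain rfl : i = I + 1 := le_antisymm hi hge
  have hS : E2UB (D.t₁ - 1) s₂ I (fun n => e2S D (u n) p) :=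
    e2UB_S D h₂ (fun n => (hu n).sm) h p
  choose Cl hCl using fun l => hS I le_rfl l
  obtain ⟨C, _, hC⟩ := e2_sup_of_Nsq (D.m p) j
  refine ⟨Real.sqrt (C * ∑ l ∈ Finset.range (2 * j + D.m p + 3), Cl l ^ 2),
    fun n t ht x hx => ?_⟩
  have htT : t < D.T := lt_of_le_of_lt ht.2 h₂
  have hz : E2Poly n (fun y => e2Pdt^[I + 1] (u n p) (t, y)) := (hu n).poly p (I + 1) htT
  have hG : ContDiff ℝ ∞ (fun y => e2Pdt^[I] (e2S D (u n) p) (t, y)) :=
    ((e2Sm_S D (hu n).sm p).pdt_iter I).slice_x htT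
  rw [e2Pd_eq_iteratedDeriv]
  refine hC _ _ hz.contDiff (fun l hl => ?_) x hx
  refine (e2_proj_Nsq_le (D.m p) hz hG ((hu n).weak_iter p I t htT) l).trans ?_
  refine (e2Nsq_le_sup (D.m p) l hG (A := Cl l) fun y hy => ?_).trans ?_
  · rw [← e2Pd_eq_iteratedDeriv]
    exact hCl l n t ht y hy
  · exact Finset.single_le_sum (f := fun l => Cl l ^ 2) (fun l _ => sq_nonneg _)
      (Finset.mem_range.2 hl)

theorem e2_bd_all (hu : ∀ N, E2Gal D N (u N)) {s₂ : ℝ} (h₂ : s₂ < D.T) (I : ℕ) :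
    ∀ p, E2UB (D.t₁ - 1) s₂ I (fun N => u N p) := by
  induction I with
  | zero => exact e2_bd0 hu h₂
  | succ I ih => exact e2_bd_step hu h₂ I ih

end Claimed.Agent.R324
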