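import Claimed.Agent.R324.E2.Defs

/-
Row 324, module E2 (copy of the row 325 engine): elementary properties of the weighted pairing `e2Ip i f g = ∫_0^1 f g φ^i`.
All functions are continuous on `ℝ`, so every integrand is interval integrable
(`Continuous.intervalIntegrable`).  Everything here is routine.
-/

set_option autoImplicit false

namespace Claimed.Agent.R324

open Set
open scoped ContDiff

theorem e2W_continuous (i : ℕ) : Continuous (e2W i) := by
  unfold e2W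
  fun_prop

theorem e2W_nonneg (i : ℕ) {x : ℝ} (hx : x ∈ Icc (0 : ℝ) 1) : 0 ≤ e2W i x := by
  unfold e2W
  exact pow_nonneg (mul_nonneg hx.1 (by linarith [hx.2])) _

theorem e2W_base_le_one {x : ℝ} (hx : x ∈ Icc (0 : ℝ) 1) : x * (1 - x) ≤ 1 := by
  nlinarith [hx.1, hx.2]

theorem e2W_le_one (i : ℕ) {x : ℝ} (hx : x ∈ Icc (0 : ℝ) 1) : e2W i x ≤ 1 := by
  unfold e2W
  exact pow_le_one₀ (mul_nonneg hx.1 (by linarith [hx.2])) (e2W_base_le_one hx)

/-- `φ^(i+l) ≤ φ^i` on `[0,1]`. -/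
theorem e2W_add_le (i l : ℕ) {x : ℝ} (hx : x ∈ Icc (0 : ℝ) 1) : e2W (i + l) x ≤ e2W i x := by
  unfold e2W
  exact pow_le_pow_of_le_one (mul_nonneg hx.1 (by linarith [hx.2])) (e2W_base_le_one hx) (by omega)

theorem e2Ip_comm (i : ℕ) (f g : ℝ → ℝ) : e2Ip i f g = e2Ip i g f := by
  unfold e2Ip
  congr 1
  funext x
  ring

/-- only the values on `[0,1]` matter. -/
theorem e2Ip_congr (i : ℕ) {f f' g g' : ℝ → ℝ} (hf : ∀ x ∈ Icc (0 : ℝ) 1, f x = f' x)
    (hg : ∀ x ∈ Icc (0 : ℝ) 1, g x = g' x) : e2Ip i f g = e2Ip i f' g' := by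
  unfold e2Ip
  apply intervalIntegral.integral_congr
  intro x hx
  rw [uIcc_of_le zero_le_one] at hx
  simp only [hf x hx, hg x hx]

theorem e2Ip_add_left (i : ℕ) {f g h : ℝ → ℝ} (hf : Continuous f) (hg : Continuous g)
    (hh : Continuous h) : e2Ip i (fun x => f x + g x) h = e2Ip i f h + e2Ip i g h := by
  unfold e2Ip
  have hw := e2W_continuous i
  have h1 : IntervalIntegrable (fun x => f x * h x * e2W i x) MeasureTheory.volume 0 1 :=
    ((hf.mul hh).mul hw).intervalIntegrable _ _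
  have h2 : IntervalIntegrable (fun x => g x * h x * e2W i x) MeasureTheory.volume 0 1 :=
    ((hg.mul hh).mul hw).intervalIntegrable _ _
  rw [← intervalIntegral.integral_add h1 h2]
  congr 1
  funext x
  ring

theorem e2Ip_sub_left (i : ℕ) {f g h : ℝ → ℝ} (hf : Continuous f) (hg : Continuous g)
    (hh : Continuous h) : e2Ip i (fun x => f x - g x) h = e2Ip i f h - e2Ip i g h := by
  unfold e2Ip
  have hw := e2W_continuous i
  have h1 : IntervalIntegrable (fun x => f x * h x * e2W i x) MeasureTheory.volume 0 1 :=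
    ((hf.mul hh).mul hw).intervalIntegrable _ _
  have h2 : IntervalIntegrable (fun x => g x * h x * e2W i x) MeasureTheory.volume 0 1 :=
    ((hg.mul hh).mul hw).intervalIntegrable _ _
  rw [← intervalIntegral.integral_sub h1 h2]
  congr 1
  funext x
  ring

theorem e2Ip_add_right (i : ℕ) {f g h : ℝ → ℝ} (hf : Continuous f) (hg : Continuous g)
    (hh : Continuous h) : e2Ip i h (fun x => f x + g x) = e2Ip i h f + e2Ip i h g := by
  rw [e2Ip_comm, e2Ip_add_left i hf hg hh, e2Ip_comm i f h, e2Ip_comm i g h]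

theorem e2Ip_sub_right (i : ℕ) {f g h : ℝ → ℝ} (hf : Continuous f) (hg : Continuous g)
    (hh : Continuous h) : e2Ip i h (fun x => f x - g x) = e2Ip i h f - e2Ip i h g := by
  rw [e2Ip_comm, e2Ip_sub_left i hf hg hh, e2Ip_comm i f h, e2Ip_comm i g h]

theorem e2Ip_smul_left (i : ℕ) (c : ℝ) (f h : ℝ → ℝ) :
    e2Ip i (fun x => c * f x) h = c * e2Ip i f h := by
  unfold e2Ip
  rw [← intervalIntegral.integral_const_mul]
  congr 1
  funext x
  ring

theorem e2Ip_smul_right (i : ℕ) (c : ℝ) (f h : ℝ → ℝ) :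
    e2Ip i h (fun x => c * f x) = c * e2Ip i h f := by
  rw [e2Ip_comm, e2Ip_smul_left, e2Ip_comm i f h]

theorem e2Ip_neg_left (i : ℕ) (f h : ℝ → ℝ) : e2Ip i (fun x => - f x) h = - e2Ip i f h := by
  have := e2Ip_smul_left i (-1) f h
  simpa using this

theorem e2Ip_zero_left (i : ℕ) (h : ℝ → ℝ) : e2Ip i (fun _ => 0) h = 0 := by
  unfold e2Ip
  simp

theorem e2Ip_sum_left (i : ℕ) {ι : Type} (s : Finset ι) {f : ι → ℝ → ℝ} {h : ℝ → ℝ}
    (hf : ∀ k ∈ s, Continuous (f k)) (hh : Continuous h) :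
    e2Ip i (fun x => ∑ k ∈ s, f k x) h = ∑ k ∈ s, e2Ip i (f k) h := by
  unfold e2Ip
  have hw := e2W_continuous i
  have h1 : ∀ k ∈ s, IntervalIntegrable (fun x => f k x * h x * e2W i x)
      MeasureTheory.volume 0 1 :=
    fun k hk => (((hf k hk).mul hh).mul hw).intervalIntegrable _ _
  rw [← intervalIntegral.integral_finsetSum h1]
  congr 1
  funext x
  rw [Finset.sum_mul, Finset.sum_mul]

theorem e2Ip_sum_right (i : ℕ) {ι : Type} (s : Finset ι) {f : ι → ℝ → ℝ} {h : ℝ → ℝ}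
    (hf : ∀ k ∈ s, Continuous (f k)) (hh : Continuous h) :
    e2Ip i h (fun x => ∑ k ∈ s, f k x) = ∑ k ∈ s, e2Ip i h (f k) := by
  rw [e2Ip_comm, e2Ip_sum_left i s hf hh]
  exact Finset.sum_congr rfl (fun k _ => e2Ip_comm i (f k) h)

theorem e2Ip_self_nonneg (i : ℕ) (f : ℝ → ℝ) : 0 ≤ e2Ip i f f := by
  unfold e2Ip
  refine intervalIntegral.integral_nonneg zero_le_one fun x hx => ?_
  exact mul_nonneg (mul_self_nonneg _) (e2W_nonneg i hx)

/-- the integrand of `e2Ip` is interval integrable. -/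
theorem e2_ip_aux_ii (i : ℕ) {f g : ℝ → ℝ} (hf : Continuous f) (hg : Continuous g) :
    IntervalIntegrable (fun x => f x * g x * e2W i x) MeasureTheory.volume 0 1 :=
  ((hf.mul hg).mul (e2W_continuous i)).intervalIntegrable _ _

/-- expansion of the square. -/
theorem e2_ip_aux_expand (i : ℕ) {f g : ℝ → ℝ} (hf : Continuous f) (hg : Continuous g) (c : ℝ) :
    e2Ip i (fun x => f x + c * g x) (fun x => f x + c * g x)
      = e2Ip i f f + 2 * c * e2Ip i f g + c ^ 2 * e2Ip i g g := by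
  have hcg : Continuous (fun x => c * g x) := continuous_const.mul hg
  have hs : Continuous (fun x => f x + c * g x) := hf.add hcg
  rw [e2Ip_add_left i hf hcg hs, e2Ip_add_right i hf hcg hf,
    e2Ip_add_right i hf hcg hcg, e2Ip_smul_right, e2Ip_smul_left, e2Ip_smul_left,
    e2Ip_smul_right, e2Ip_comm i g f]
  ring

/-- Cauchy-Schwarz.  (Discriminant of `λ ↦ <f + λ g, f + λ g>_i ≥ 0`, or
`MeasureTheory.integral_mul_le_Lp_mul_Lq`-type lemmas.) -/
theorem e2Ip_cs (i : ℕ) {f g : ℝ → ℝ} (hf : Continuous f) (hg : Continuous g) :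
    (e2Ip i f g) ^ 2 ≤ e2Ip i f f * e2Ip i g g := by
  have h : ∀ c : ℝ, 0 ≤ e2Ip i g g * (c * c) + 2 * e2Ip i f g * c + e2Ip i f f := by
    intro c
    have h1 := e2Ip_self_nonneg i (fun x => f x + c * g x)
    rw [e2_ip_aux_expand i hf hg c] at h1
    nlinarith
  have h2 := discrim_le_zero h
  unfold discrim at h2
  nlinarith

theorem e2Ip_abs_le_sqrt (i : ℕ) {f g : ℝ → ℝ} (hf : Continuous f) (hg : Continuous g) :
    |e2Ip i f g| ≤ Real.sqrt (e2Ip i f f) * Real.sqrt (e2Ip i g g) := by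
  rw [← Real.sqrt_mul (e2Ip_self_nonneg i f)]
  exact Real.abs_le_sqrt (e2Ip_cs i hf hg)

/-- Young: `|<f,g>| ≤ δ <f,f> + <g,g>/(4δ)`. -/
theorem e2Ip_young (i : ℕ) {f g : ℝ → ℝ} (hf : Continuous f) (hg : Continuous g) {δ : ℝ}
    (hδ : 0 < δ) : |e2Ip i f g| ≤ δ * e2Ip i f f + (1 / (4 * δ)) * e2Ip i g g := by
  have hcs := e2Ip_cs i hf hg
  have hA := e2Ip_self_nonneg i f
  have hB := e2Ip_self_nonneg i g
  have hc : 0 < 1 / (4 * δ) := by positivity
  have hδc : δ * (1 / (4 * δ)) = 1 / 4 := by field_simp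
  refine abs_le_of_sq_le_sq ?_ (by positivity)
  nlinarith [sq_nonneg (δ * e2Ip i f f - (1 / (4 * δ)) * e2Ip i g g),
    mul_nonneg hA hB]

/-- `<f+g,f+g> ≤ 2<f,f> + 2<g,g>`. -/
theorem e2Ip_add_self_le (i : ℕ) {f g : ℝ → ℝ} (hf : Continuous f) (hg : Continuous g) :
    e2Ip i (fun x => f x + g x) (fun x => f x + g x) ≤ 2 * e2Ip i f f + 2 * e2Ip i g g := by
  have h1 := e2_ip_aux_expand i hf hg 1
  have h2 := e2_ip_aux_expand i hf hg (-1)
  have h3 := e2Ip_self_nonneg i (fun x => f x + -1 * g x)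
  simp only [one_mul] at h1
  rw [h1]
  rw [h2] at h3
  nlinarith

/-- `<Σ_k f_k, Σ_k f_k> ≤ card * Σ_k <f_k,f_k>`. -/
theorem e2Ip_sum_self_le (i : ℕ) {ι : Type} (s : Finset ι) {f : ι → ℝ → ℝ}
    (hf : ∀ k ∈ s, Continuous (f k)) :
    e2Ip i (fun x => ∑ k ∈ s, f k x) (fun x => ∑ k ∈ s, f k x)
      ≤ (s.card : ℝ) * ∑ k ∈ s, e2Ip i (f k) (f k) := by
  have hsum : Continuous (fun x => ∑ k ∈ s, f k x) := continuous_finsetSum s hf
  have hR : (s.card : ℝ) * ∑ k ∈ s, e2Ip i (f k) (f k)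
      = ∫ x in (0 : ℝ)..1, (s.card : ℝ) * ∑ k ∈ s, f k x * f k x * e2W i x := by
    rw [intervalIntegral.integral_const_mul,
      intervalIntegral.integral_finsetSum (fun k hk => e2_ip_aux_ii i (hf k hk) (hf k hk))]
    rfl
  rw [hR]
  unfold e2Ip
  refine intervalIntegral.integral_mono_on zero_le_one (e2_ip_aux_ii i hsum hsum) ?_ ?_
  · refine Continuous.intervalIntegrable ?_ _ _
    exact continuous_const.mul (continuous_finsetSum s fun k hk =>
      ((hf k hk).mul (hf k hk)).mul (e2W_continuous i))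
  · intro x hx
    have hw := e2W_nonneg i hx
    have h1 := sq_sum_le_card_mul_sum_sq (s := s) (f := fun k => f k x)
    have h2 : ∑ k ∈ s, f k x * f k x * e2W i x = (∑ k ∈ s, f k x ^ 2) * e2W i x := by
      rw [Finset.sum_mul]
      exact Finset.sum_congr rfl fun k _ => by ring
    rw [h2, ← mul_assoc, ← pow_two]
    exact mul_le_mul_of_nonneg_right h1 hw

/-- heavier weight, smaller norm. -/
theorem e2Ip_self_weight_le (i l : ℕ) {f : ℝ → ℝ} (hf : Continuous f) :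
    e2Ip (i + l) f f ≤ e2Ip i f f := by
  unfold e2Ip
  refine intervalIntegral.integral_mono_on zero_le_one (e2_ip_aux_ii _ hf hf)
    (e2_ip_aux_ii _ hf hf) fun x hx => ?_
  exact mul_le_mul_of_nonneg_left (e2W_add_le i l hx) (mul_self_nonneg _)

/-- pointwise domination. -/
theorem e2Ip_self_mono (i : ℕ) {f g : ℝ → ℝ} (hf : Continuous f) (hg : Continuous g)
    (h : ∀ x ∈ Icc (0 : ℝ) 1, |f x| ≤ |g x|) : e2Ip i f f ≤ e2Ip i g g := by
  unfold e2Ip
  refine intervalIntegral.integral_mono_on zero_le_one (e2_ip_aux_ii _ hf hf)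
    (e2_ip_aux_ii _ hg hg) fun x hx => ?_
  refine mul_le_mul_of_nonneg_right ?_ (e2W_nonneg i hx)
  have := sq_le_sq.2 (h x hx)
  nlinarith

/-- plain integral bound used for the nonlocal term. -/
theorem e2_ip_aux_abs_integral {F : ℝ → ℝ} {C : ℝ} (h : ∀ x ∈ Icc (0 : ℝ) 1, |F x| ≤ C) :
    |∫ x in (0 : ℝ)..1, F x| ≤ C := by
  have h1 := intervalIntegral.norm_integral_le_of_norm_le_const (a := 0) (b := 1) (f := F) (C := C)
    (fun x hx => by
      rw [uIoc_of_le zero_le_one] at hx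
      exact h x ⟨hx.1.le, hx.2⟩)
  simpa using h1

theorem e2Ip_abs_le_sup (i : ℕ) {f g : ℝ → ℝ} (hf : Continuous f) (hg : Continuous g) {A B : ℝ}
    (hA : ∀ x ∈ Icc (0 : ℝ) 1, |f x| ≤ A) (hB : ∀ x ∈ Icc (0 : ℝ) 1, |g x| ≤ B) :
    |e2Ip i f g| ≤ A * B := by
  unfold e2Ip
  refine e2_ip_aux_abs_integral fun x hx => ?_
  have hA0 : 0 ≤ A := (abs_nonneg _).trans (hA x hx)
  have hB0 : 0 ≤ B := (abs_nonneg _).trans (hB x hx)
  rw [abs_mul, abs_mul, abs_of_nonneg (e2W_nonneg i hx)]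
  calc |f x| * |g x| * e2W i x ≤ (A * B) * 1 :=
        mul_le_mul (mul_le_mul (hA x hx) (hB x hx) (abs_nonneg _) hA0) (e2W_le_one i hx)
          (e2W_nonneg i hx) (mul_nonneg hA0 hB0)
    _ = A * B := mul_one _

/-- `m ≤ b` on `[0,1]` implies `m <f,f> ≤ <b f, f>`. -/
theorem e2Ip_mul_ge (i : ℕ) {b f : ℝ → ℝ} (hb : Continuous b) (hf : Continuous f) {m : ℝ}
    (hm : ∀ x ∈ Icc (0 : ℝ) 1, m ≤ b x) :
    m * e2Ip i f f ≤ e2Ip i (fun x => b x * f x) f := by
  unfold e2Ip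
  rw [← intervalIntegral.integral_const_mul]
  refine intervalIntegral.integral_mono_on zero_le_one
    ((e2_ip_aux_ii _ hf hf).const_mul m) (e2_ip_aux_ii _ (hb.mul hf) hf) fun x hx => ?_
  have h1 : 0 ≤ f x * f x * e2W i x := mul_nonneg (mul_self_nonneg _) (e2W_nonneg i hx)
  have h2 := mul_le_mul_of_nonneg_right (hm x hx) h1
  calc m * (f x * f x * e2W i x) ≤ b x * (f x * f x * e2W i x) := h2
    _ = b x * f x * f x * e2W i x := by ring

/-- `|b| ≤ A` on `[0,1]` implies `<b f, b f> ≤ A^2 <f,f>`. -/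
theorem e2Ip_mul_self_le (i : ℕ) {b f : ℝ → ℝ} (hb : Continuous b) (hf : Continuous f) {A : ℝ}
    (hA : ∀ x ∈ Icc (0 : ℝ) 1, |b x| ≤ A) :
    e2Ip i (fun x => b x * f x) (fun x => b x * f x) ≤ A ^ 2 * e2Ip i f f := by
  unfold e2Ip
  rw [← intervalIntegral.integral_const_mul]
  refine intervalIntegral.integral_mono_on zero_le_one (e2_ip_aux_ii _ (hb.mul hf) (hb.mul hf))
    ((e2_ip_aux_ii _ hf hf).const_mul (A ^ 2)) fun x hx => ?_
  have h1 : 0 ≤ f x * f x * e2W i x := mul_nonneg (mul_self_nonneg _) (e2W_nonneg i hx)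
  have h0 : b x ^ 2 ≤ A ^ 2 := by
    have hA0 : 0 ≤ A := (abs_nonneg _).trans (hA x hx)
    exact sq_le_sq.2 (by rw [abs_of_nonneg hA0]; exact hA x hx)
  have h2 := mul_le_mul_of_nonneg_right h0 h1
  calc b x * f x * (b x * f x) * e2W i x = b x ^ 2 * (f x * f x * e2W i x) := by ring
    _ ≤ A ^ 2 * (f x * f x * e2W i x) := h2

theorem e2Nsq_nonneg (m j : ℕ) (u : ℝ → ℝ) : 0 ≤ e2Nsq m j u := e2Ip_self_nonneg _ _

/-- `N_j(u)^2 ≤ sup |∂^j u|^2`. -/
theorem e2Nsq_le_sup (m j : ℕ) {u : ℝ → ℝ} (hu : ContDiff ℝ ∞ u) {A : ℝ}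
    (hA : ∀ x ∈ Icc (0 : ℝ) 1, |iteratedDeriv j u x| ≤ A) : e2Nsq m j u ≤ A ^ 2 := by
  have hc : Continuous (iteratedDeriv j u) :=
    hu.continuous_iteratedDeriv j (by exact_mod_cast le_top)
  have h := e2Ip_abs_le_sup (m + j) hc hc hA hA
  unfold e2Nsq
  rw [pow_two]
  exact (le_abs_self _).trans h

/-- plain integral bound used for the nonlocal term. -/
theorem e2_abs_integral_mul_le {κ u : ℝ → ℝ} (hκ : Continuous κ) (hu : Continuous u) {A B : ℝ}
    (hA : ∀ x ∈ Icc (0 : ℝ) 1, |κ x| ≤ A) (hB : ∀ x ∈ Icc (0 : ℝ) 1, |u x| ≤ B) :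
    |∫ ξ in (0 : ℝ)..1, κ ξ * u ξ| ≤ A * B := by
  refine e2_ip_aux_abs_integral fun x hx => ?_
  have hA0 : 0 ≤ A := (abs_nonneg _).trans (hA x hx)
  rw [abs_mul]
  exact mul_le_mul (hA x hx) (hB x hx) (abs_nonneg _) hA0

/-- `<f,f>_α = H_α(f)`. -/
theorem e2Ip_self_eq_H (α : ℕ) (f : ℝ → ℝ) : e2Ip α f f = e2H α f := by
  unfold e2Ip e2H e2W
  congr 1
  funext x
  ring

/-- a factor `φ` raises the exponent. -/
theorem e2Ip_phi_left (α : ℕ) (f g : ℝ → ℝ) :
    e2Ip α (fun x => x * (1 - x) * f x) g = e2Ip (α + 1) f g := by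
  unfold e2Ip e2W
  congr 1
  funext x
  ring

/-- heavier weight, smaller norm (form with `≤`). -/
theorem e2Ip_self_weight_le' {α β : ℕ} (h : α ≤ β) {f : ℝ → ℝ} (hf : Continuous f) :
    e2Ip β f f ≤ e2Ip α f f := by
  obtain ⟨l, rfl⟩ := Nat.exists_eq_add_of_le h
  exact e2Ip_self_weight_le α l hf

end Claimed.Agent.R324
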