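import Claimed.Agent.R324.E2.Poly
import Claimed.Agent.R324.E2.Ip

/-
Row 324, module E2 (copy of the row 325 engine): quantitative Bernstein approximation and density of the polynomials.
-/

set_option autoImplicit false

namespace Claimed.Agent.R324

open Set Polynomial
open scoped ContDiff

theorem e2_bern_eval (N k : ℕ) (x : ℝ) : (bernsteinPolynomial ℝ N k).eval x
    = (N.choose k : ℝ) * x ^ k * (1 - x) ^ (N - k) := by
  simp [bernsteinPolynomial]

theorem e2_bern_nonneg (N k : ℕ) {x : ℝ} (hx : x ∈ Icc (0 : ℝ) 1) :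
    0 ≤ (bernsteinPolynomial ℝ N k).eval x := by
  rw [e2_bern_eval]
  have h1 : 0 ≤ 1 - x := by linarith [hx.2]
  have h0 := hx.1
  positivity

theorem e2_bern_sum (N : ℕ) (x : ℝ) :
    ∑ k ∈ Finset.range (N + 1), (bernsteinPolynomial ℝ N k).eval x = 1 := by
  have h := congrArg (eval x) (bernsteinPolynomial.sum ℝ N)
  simpa [eval_finsetSum] using h

theorem e2_bern_var (N : ℕ) (x : ℝ) :
    ∑ k ∈ Finset.range (N + 1), ((N : ℝ) * x - k) ^ 2 * (bernsteinPolynomial ℝ N k).eval x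
      = N * x * (1 - x) := by
  have h := congrArg (eval x) (bernsteinPolynomial.variance ℝ N)
  simpa [eval_finsetSum] using h

theorem e2_bern_natDegree (N k : ℕ) (hk : k ≤ N) : (bernsteinPolynomial ℝ N k).natDegree ≤ N := by
  unfold bernsteinPolynomial
  have h1 : ((N.choose k : ℝ[X]) * X ^ k * (1 - X) ^ (N - k)).natDegree ≤ 0 + k + (N - k) := by
    refine (natDegree_mul_le).trans (add_le_add ((natDegree_mul_le).trans (add_le_add ?_ ?_)) ?_)
    · exact (natDegree_natCast _).le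
    · exact natDegree_X_pow_le k
    · refine (natDegree_pow_le).trans ?_
      have h2 : ((1 : ℝ[X]) - X).natDegree ≤ 1 := by
        refine (natDegree_sub_le _ _).trans ?_
        simp
      calc (N - k) * ((1 : ℝ[X]) - X).natDegree ≤ (N - k) * 1 := Nat.mul_le_mul_left _ h2
        _ = N - k := Nat.mul_one _
  omega

/-- **Bernstein approximation with rate.**  `p(x) = Σ_{k ≤ N} z(k/N) C(N,k) x^k (1-x)^(N-k)`
(`bernsteinPolynomial ℝ N k`, degree `≤ N`).  For `x ∈ [0,1]`: `Σ_k b_k(x) = 1`, `b_k(x) ≥ 0`,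
`|z(k/N) - z(x)| ≤ L |k/N - x|` (mean value inequality on `[0,1]`),
`Σ_k |k/N - x| b_k(x) ≤ (Σ_k (k/N-x)^2 b_k(x))^(1/2) = (x(1-x)/N)^(1/2) ≤ 1/√N`
(Cauchy-Schwarz; the variance identity is `bernsteinPolynomial.variance` / `bernstein.variance`). -/
theorem e2_bernstein (N : ℕ) (hN : 0 < N) {z : ℝ → ℝ} (hz : ContDiff ℝ ∞ z) {L : ℝ}
    (hL : ∀ x ∈ Icc (0 : ℝ) 1, |deriv z x| ≤ L) :
    ∃ p : ℝ → ℝ, E2Poly N p ∧ ∀ x ∈ Icc (0 : ℝ) 1, |z x - p x| ≤ L / Real.sqrt N := by
  have hNr : (0 : ℝ) < N := by exact_mod_cast hN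
  have hL0 : 0 ≤ L := (abs_nonneg _).trans (hL 0 ⟨le_rfl, zero_le_one⟩)
  have hlip : ∀ x ∈ Icc (0 : ℝ) 1, ∀ y ∈ Icc (0 : ℝ) 1, |z x - z y| ≤ L * |x - y| := by
    intro x hx y hy
    have h := Convex.norm_image_sub_le_of_norm_deriv_le (f := z) (C := L) (s := Icc (0 : ℝ) 1)
      (fun t _ => (hz.differentiable (by simp)).differentiableAt)
      (fun t ht => by rw [Real.norm_eq_abs]; exact hL t ht) (convex_Icc 0 1) hy hx
    simpa [Real.norm_eq_abs] using h
  refine ⟨fun x => ∑ k ∈ Finset.range (N + 1),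
    z ((k : ℝ) / N) * (bernsteinPolynomial ℝ N k).eval x, ?_, ?_⟩
  · refine ⟨∑ k ∈ Finset.range (N + 1), C (z ((k : ℝ) / N)) * bernsteinPolynomial ℝ N k, ?_, ?_⟩
    · refine natDegree_sum_le_of_forall_le _ _ fun k hk => ?_
      refine (natDegree_C_mul_le _ _).trans (e2_bern_natDegree N k ?_)
      exact Nat.lt_succ_iff.mp (Finset.mem_range.mp hk)
    · intro x
      simp [eval_finsetSum]
  · intro x hx
    obtain ⟨δ, hδ⟩ : ∃ δ : ℝ, δ = 1 / Real.sqrt N := ⟨_, rfl⟩
    have hsq : 0 < Real.sqrt N := Real.sqrt_pos.mpr hNr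
    have hδ0 : 0 < δ := by rw [hδ]; positivity
    have hδ2 : δ * δ = 1 / N := by
      rw [hδ, div_mul_div_comm, Real.mul_self_sqrt hNr.le, one_mul]
    have h1 : z x - ∑ k ∈ Finset.range (N + 1), z ((k : ℝ) / N) * (bernsteinPolynomial ℝ N k).eval x
        = ∑ k ∈ Finset.range (N + 1), (z x - z ((k : ℝ) / N)) * (bernsteinPolynomial ℝ N k).eval x := by
      simp only [sub_mul, Finset.sum_sub_distrib, ← Finset.mul_sum, e2_bern_sum, mul_one]
    have hkmem : ∀ k ∈ Finset.range (N + 1), ((k : ℝ) / N) ∈ Icc (0 : ℝ) 1 := by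
      intro k hk
      have hk' : (k : ℝ) ≤ N := by exact_mod_cast Nat.lt_succ_iff.mp (Finset.mem_range.mp hk)
      exact ⟨by positivity, (div_le_one hNr).mpr hk'⟩
    have hterm : ∀ k ∈ Finset.range (N + 1),
        |(z x - z ((k : ℝ) / N)) * (bernsteinPolynomial ℝ N k).eval x|
          ≤ L * (((x - (k : ℝ) / N) ^ 2 / δ + δ) / 2 * (bernsteinPolynomial ℝ N k).eval x) := by
      intro k hk
      have hb := e2_bern_nonneg N k hx
      rw [abs_mul, abs_of_nonneg hb, ← mul_assoc]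
      refine mul_le_mul_of_nonneg_right ?_ hb
      refine (hlip x hx _ (hkmem k hk)).trans (mul_le_mul_of_nonneg_left ?_ hL0)
      rw [le_div_iff₀ (by norm_num : (0 : ℝ) < 2), div_add' _ _ _ hδ0.ne', le_div_iff₀ hδ0]
      nlinarith [sq_nonneg (|x - (k : ℝ) / N| - δ), sq_abs (x - (k : ℝ) / N)]
    have hvar : ∑ k ∈ Finset.range (N + 1),
        (x - (k : ℝ) / N) ^ 2 * (bernsteinPolynomial ℝ N k).eval x = x * (1 - x) / N := by
      have h2 := e2_bern_var N x
      have h3 : ∀ k : ℕ, (x - (k : ℝ) / N) ^ 2 * (bernsteinPolynomial ℝ N k).eval x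
          = (1 / (N : ℝ) ^ 2) * (((N : ℝ) * x - k) ^ 2 * (bernsteinPolynomial ℝ N k).eval x) := by
        intro k
        field_simp
      simp only [h3, ← Finset.mul_sum, h2]
      field_simp
    have hsum : ∑ k ∈ Finset.range (N + 1),
        (((x - (k : ℝ) / N) ^ 2 / δ + δ) / 2 * (bernsteinPolynomial ℝ N k).eval x)
          = (x * (1 - x) / N / δ + δ) / 2 := by
      have h4 : ∀ k : ℕ, ((x - (k : ℝ) / N) ^ 2 / δ + δ) / 2 * (bernsteinPolynomial ℝ N k).eval x
          = (1 / (2 * δ)) * ((x - (k : ℝ) / N) ^ 2 * (bernsteinPolynomial ℝ N k).eval x)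
            + (δ / 2) * (bernsteinPolynomial ℝ N k).eval x := by
        intro k
        field_simp
      simp only [h4, Finset.sum_add_distrib, ← Finset.mul_sum, hvar, e2_bern_sum]
      field_simp
    have hx1 : x * (1 - x) ≤ 1 := by nlinarith [hx.1, hx.2]
    have hfin : (x * (1 - x) / N / δ + δ) / 2 ≤ δ := by
      have h5 : x * (1 - x) / N ≤ δ * δ := by
        rw [hδ2]
        exact div_le_div_of_nonneg_right hx1 hNr.le
      have h6 : x * (1 - x) / N / δ ≤ δ := by
        rw [div_le_iff₀ hδ0]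
        exact h5
      linarith
    show |z x - ∑ k ∈ Finset.range (N + 1),
      z ((k : ℝ) / N) * (bernsteinPolynomial ℝ N k).eval x| ≤ L / Real.sqrt N
    rw [h1]
    calc |∑ k ∈ Finset.range (N + 1), (z x - z ((k : ℝ) / N)) * (bernsteinPolynomial ℝ N k).eval x|
        ≤ ∑ k ∈ Finset.range (N + 1),
          |(z x - z ((k : ℝ) / N)) * (bernsteinPolynomial ℝ N k).eval x| :=
          Finset.abs_sum_le_sum_abs _ _
      _ ≤ ∑ k ∈ Finset.range (N + 1),
          L * (((x - (k : ℝ) / N) ^ 2 / δ + δ) / 2 * (bernsteinPolynomial ℝ N k).eval x) :=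
          Finset.sum_le_sum hterm
      _ = L * ((x * (1 - x) / N / δ + δ) / 2) := by rw [← Finset.mul_sum, hsum]
      _ ≤ L * δ := mul_le_mul_of_nonneg_left hfin hL0
      _ = L / Real.sqrt N := by rw [hδ, mul_one_div]

/-- Weierstrass on `[0,1]` in the form we need (from Mathlib's
`exists_polynomial_near_of_continuousOn`). -/
theorem e2_weierstrass {h : ℝ → ℝ} (hc : Continuous h) {ε : ℝ} (hε : 0 < ε) :
    ∃ (N : ℕ) (p : ℝ → ℝ), E2Poly N p ∧ ∀ x ∈ Icc (0 : ℝ) 1, |h x - p x| ≤ ε := by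
  obtain ⟨p, hp⟩ := exists_polynomial_near_of_continuousOn 0 1 h hc.continuousOn ε hε
  refine ⟨p.natDegree, fun x => p.eval x, ⟨p, le_rfl, fun _ => rfl⟩, fun x hx => ?_⟩
  rw [abs_sub_comm]
  exact (hp x hx).le

/-- definiteness of `<,>_m` on continuous functions. -/
theorem e2_bern_zero_of_ip (m : ℕ) {h : ℝ → ℝ} (hc : Continuous h) (H : e2Ip m h h = 0) :
    ∀ x ∈ Icc (0 : ℝ) 1, h x = 0 := by
  have hg : Continuous (fun x => h x * h x * e2W m x) := (hc.mul hc).mul (e2W_continuous m)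
  have hnn : ∀ x ∈ Ioc (0 : ℝ) 1, 0 ≤ h x * h x * e2W m x := fun x hx =>
    mul_nonneg (mul_self_nonneg _) (e2W_nonneg m ⟨hx.1.le, hx.2⟩)
  have h1 := (intervalIntegral.integral_eq_zero_iff_of_le_of_nonneg_ae (μ := MeasureTheory.volume)
    zero_le_one
    ((MeasureTheory.ae_restrict_iff' measurableSet_Ioc).mpr (Filter.Eventually.of_forall hnn))
    (hg.intervalIntegrable 0 1)).mp H
  have h2 := MeasureTheory.Measure.eqOn_Ioc_of_ae_eq MeasureTheory.volume h1 hg.continuousOn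
    continuousOn_const
  have h3 : EqOn h (fun _ => 0) (Ioo (0 : ℝ) 1) := by
    intro x hx
    have h4 : h x * h x * e2W m x = 0 := h2 ⟨hx.1, hx.2.le⟩
    have h5 : e2W m x ≠ 0 := by
      unfold e2W
      have h51 := hx.1
      have h52 : 0 < 1 - x := by linarith [hx.2]
      positivity
    have h6 : h x * h x = 0 := (mul_eq_zero.mp h4).resolve_right h5
    exact mul_self_eq_zero.mp h6
  have h7 := h3.closure hc continuous_const
  rw [closure_Ioo (zero_ne_one' ℝ)] at h7
  exact fun x hx => h7 hx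

/-- **Density.**  A continuous function which is `<,>_m`-orthogonal to all polynomials vanishes on `[0,1]`.
`<h,h>_m = <h, h - p>_m ≤ sup|h| ε` for every `ε`, so `∫_0^1 h^2 φ^m = 0`; the integrand is continuous and nonnegative, so it
vanishes on `[0,1]`, hence `h = 0` on `(0,1]` and at `0` by continuity. -/
theorem e2_density (m : ℕ) {h : ℝ → ℝ} (hc : Continuous h)
    (H : ∀ (N : ℕ) (v : ℝ → ℝ), E2Poly N v → e2Ip m h v = 0) : ∀ x ∈ Icc (0 : ℝ) 1, h x = 0 := by
  apply e2_bern_zero_of_ip m hc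
  obtain ⟨A, hA⟩ := isCompact_Icc.exists_bound_of_continuousOn (s := Icc (0 : ℝ) 1) hc.continuousOn
  have hA' : ∀ x ∈ Icc (0 : ℝ) 1, |h x| ≤ A := fun x hx => by
    simpa [Real.norm_eq_abs] using hA x hx
  have hA0 : 0 ≤ A := (abs_nonneg _).trans (hA' 0 ⟨le_rfl, zero_le_one⟩)
  have hle : ∀ ε : ℝ, 0 < ε → e2Ip m h h ≤ A * ε := by
    intro ε hε
    obtain ⟨N, p, hp, hpε⟩ := e2_weierstrass hc hε
    have hpc : Continuous p := hp.contDiff.continuous
    have h1 : e2Ip m h (fun x => h x - p x) = e2Ip m h h - e2Ip m h p :=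
      e2Ip_sub_right m hc hpc hc
    rw [H N p hp, sub_zero] at h1
    rw [← h1]
    exact (le_abs_self _).trans (e2Ip_abs_le_sup m hc (hc.sub hpc) hA' hpε)
  have h0 := e2Ip_self_nonneg m h
  apply le_antisymm _ h0
  by_contra hcon
  rw [not_le] at hcon
  have h2 := hle (e2Ip m h h / (2 * (A + 1))) (by positivity)
  have h3 : A * (e2Ip m h h / (2 * (A + 1))) ≤ e2Ip m h h / 2 := by
    rw [mul_div_assoc', div_le_div_iff₀ (by positivity) (by norm_num)]
    nlinarith
  linarith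

/-- positivity of the norm on polynomials: `<v,v>_m = 0` and `v` polynomial imply `v = 0`
(`v = 0` on `(0,1]` as above, and a polynomial with infinitely many roots is zero). -/
theorem e2_poly_eq_zero (m : ℕ) {N : ℕ} {v : ℝ → ℝ} (hv : E2Poly N v) (h : e2Ip m v v = 0) :
    ∀ x, v x = 0 := by
  have hz := e2_bern_zero_of_ip m hv.contDiff.continuous h
  obtain ⟨p, _, hp⟩ := hv
  have hp0 : p = 0 := by
    apply eq_zero_of_infinite_isRoot
    refine (Icc_infinite (zero_lt_one' ℝ)).mono fun x hx => ?_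
    show p.eval x = 0
    rw [← hp, hz x hx]
  intro x
  rw [hp, hp0, eval_zero]

end Claimed.Agent.R324
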