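import Claimed.Agent.R324.E2.Bd
import Claimed.Agent.R324.E2.Bern

/-
Row 324, module E2 (port of R325/EngCauchy): the Galerkin solutions form a Cauchy sequence in `sup_{[s₀,s₂] × [0,1]}`.
-/

set_option autoImplicit false

namespace Claimed.Agent.R324

open Set
open scoped ContDiff

variable {D : E2Data} {u : ℕ → Fin 3 → ℝ × ℝ → ℝ}

/-- the residual `r_N = ∂_t u_N - S u_N` is bounded uniformly in `N` on the rectangle. -/
theorem e2_resid_bdd (hu : ∀ N, E2Gal D N (u N)) {s₂ : ℝ} (h₂ : s₂ < D.T) (p : Fin 3) :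
    ∃ C : ℝ, 0 ≤ C ∧ ∀ N, ∀ t ∈ Icc (D.t₁ - 1) s₂, ∀ x ∈ Icc (0 : ℝ) 1,
      |e2Pdt (u N p) (t, x) - e2S D (u N) p (t, x)| ≤ C := by
  have h1 := e2_bd_all hu h₂ 1
  have hsm : ∀ N k, E2Sm D.T (u N k) := fun N => (hu N).sm
  have hpdt : E2UB (D.t₁ - 1) s₂ 0 (fun n => e2Pdt (u n p)) := E2UB.pdt (h1 p)
  have hS : E2UB (D.t₁ - 1) s₂ 0 (fun n => e2S D (u n) p) :=
    e2UB_S D h₂ hsm (fun k => (h1 k).mono (Nat.zero_le _)) p
  have hsub := E2UB.sub h₂ (fun n => (hsm n p).pdt) (fun n => e2Sm_S D (hsm n) p) hpdt hS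
  obtain ⟨C, hC⟩ := hsub 0 le_rfl 0
  refine ⟨max C 0, le_max_right _ _, ?_⟩
  intro N t ht x hx
  exact (hC N t ht x hx).trans (le_max_left _ _)

/-- `|(T_j u_M,p(t,·))'| ≤ L` on `[0,1]`, uniformly in `M`, `t`. -/
theorem e2_T_lip (hu : ∀ N, E2Gal D N (u N)) {s₂ : ℝ} (h₂ : s₂ < D.T) (p : Fin 3) (j : ℕ) :
    ∃ L : ℝ, 0 ≤ L ∧ ∀ M, ∀ t ∈ Icc (D.t₁ - 1) s₂, ∀ x ∈ Icc (0 : ℝ) 1,
      |deriv (e2T (D.m p) j (fun y => u M p (t, y))) x| ≤ L := by
  obtain ⟨C, hC0, hC⟩ := e2_T_bound (D.m p) j 1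
  have h0 := e2_bd_all hu h₂ 0 p
  have hsm : ∀ N, E2Sm D.T (u N p) := fun N => (hu N).sm p
  choose Cf hCf using (fun l' => h0 0 le_rfl l')
  have hK0 : 0 ≤ ∑ l' ∈ Finset.range (1 + 2 * j + 1), |Cf l'| :=
    Finset.sum_nonneg fun _ _ => abs_nonneg _
  refine ⟨C * ∑ l' ∈ Finset.range (1 + 2 * j + 1), |Cf l'|, mul_nonneg hC0 hK0, ?_⟩
  intro M t ht x hx
  have htT : t < D.T := lt_of_le_of_lt ht.2 h₂
  have key := hC (fun y => u M p (t, y)) (∑ l' ∈ Finset.range (1 + 2 * j + 1), |Cf l'|)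
    ((hsm M).slice_x htT) (by
      intro l' hl' y hy
      have h1 := hCf l' M t ht y hy
      rw [e2Pd_eq_iteratedDeriv] at h1
      have h2 : |Cf l'| ≤ ∑ l' ∈ Finset.range (1 + 2 * j + 1), |Cf l'| :=
        Finset.single_le_sum (f := fun l' => |Cf l'|) (fun _ _ => abs_nonneg _)
          (Finset.mem_range.2 (by omega))
      exact (h1.trans (le_abs_self _)).trans h2) x hx
  rwa [iteratedDeriv_one] at key

/-- The consistency error. -/
theorem e2_consistency (hu : ∀ N, E2Gal D N (u N)) {s₂ : ℝ} (h₂ : s₂ < D.T) (p : Fin 3) (j : ℕ) :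
    ∃ K : ℝ, 0 ≤ K ∧ ∀ N M, 0 < N → N ≤ M → ∀ t ∈ Icc (D.t₁ - 1) s₂,
      e2Ip (D.m p) (fun x => e2Pdt (fun q => u M p q - u N p q) (t, x)
            - e2S0 D (fun k q => u M k q - u N k q) p (t, x))
          (e2T (D.m p) j (fun x => u M p (t, x) - u N p (t, x))) ≤ K / Real.sqrt N := by
  obtain ⟨C, hC0, hC⟩ := e2_resid_bdd hu h₂ p
  obtain ⟨L, hL0, hL⟩ := e2_T_lip hu h₂ p j
  have hsm : ∀ N k, E2Sm D.T (u N k) := fun N => (hu N).sm
  refine ⟨C * L, mul_nonneg hC0 hL0, ?_⟩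
  intro N M hN hNM t ht
  have htT : t < D.T := lt_of_le_of_lt ht.2 h₂
  -- slices
  have hpM : E2Poly M (fun y => u M p (t, y)) := (hu M).poly0 p htT
  have hpN : E2Poly N (fun y => u N p (t, y)) := (hu N).poly0 p htT
  have hcM : ContDiff ℝ ∞ (fun y => u M p (t, y)) := hpM.contDiff
  have hcN : ContDiff ℝ ∞ (fun y => u N p (t, y)) := hpN.contDiff
  have hpd : E2Poly M (fun y => u M p (t, y) - u N p (t, y)) := hpM.sub (hpN.mono hNM)
  -- residuals
  have hrM : ContDiff ℝ ∞ (fun x => e2Pdt (u M p) (t, x) - e2S D (u M) p (t, x)) :=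
    (((hsm M p).pdt).sub (e2Sm_S D (hsm M) p)).slice_x htT
  have hrN : ContDiff ℝ ∞ (fun x => e2Pdt (u N p) (t, x) - e2S D (u N) p (t, x)) :=
    (((hsm N p).pdt).sub (e2Sm_S D (hsm N) p)).slice_x htT
  have hTd : ContDiff ℝ ∞ (e2T (D.m p) j (fun x => u M p (t, x) - u N p (t, x))) :=
    (hpd.T (D.m p) j).contDiff
  have e1 : (fun x => e2Pdt (fun q => u M p q - u N p q) (t, x)
        - e2S0 D (fun k q => u M k q - u N k q) p (t, x))
      = fun x => (e2Pdt (u M p) (t, x) - e2S D (u M) p (t, x))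
        - (e2Pdt (u N p) (t, x) - e2S D (u N) p (t, x)) := by
    funext x
    have a1 : e2Pdt (fun q => u M p q - u N p q) (t, x)
        = e2Pdt (u M p) (t, x) - e2Pdt (u N p) (t, x) :=
      e2Pd_sub (hsm M p) (hsm N p) 1 0 t htT x
    have a2 := e2S0_sub D (hsm M) (hsm N) p t htT x
    rw [a1, a2]
    simp only [e2S]
    ring
  rw [e1, e2Ip_sub_left (D.m p) hrM.continuous hrN.continuous hTd.continuous,
    (hu M).weak p t htT _ (hpd.T (D.m p) j), zero_sub]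
  -- split T_j d
  have e2 : e2Ip (D.m p) (fun x => e2Pdt (u N p) (t, x) - e2S D (u N) p (t, x))
        (e2T (D.m p) j (fun x => u M p (t, x) - u N p (t, x)))
      = e2Ip (D.m p) (fun x => e2Pdt (u N p) (t, x) - e2S D (u N) p (t, x))
          (e2T (D.m p) j (fun x => u M p (t, x))) := by
    rw [e2_ip_T (D.m p) j hrN hpd.contDiff, e2_ip_T (D.m p) j hrN hcM]
    have e3 : iteratedDeriv j (fun x => u M p (t, x) - u N p (t, x))
        = fun x => iteratedDeriv j (fun x => u M p (t, x)) x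
            - iteratedDeriv j (fun x => u N p (t, x)) x := by
      funext x
      exact iteratedDeriv_sub (hcM.contDiffAt.of_le (by exact_mod_cast le_top))
        (hcN.contDiffAt.of_le (by exact_mod_cast le_top))
    rw [e3, e2Ip_sub_right (D.m p + j) (e2_iteratedDeriv_contDiff j hcM).continuous
      (e2_iteratedDeriv_contDiff j hcN).continuous (e2_iteratedDeriv_contDiff j hrN).continuous,
      ← e2_ip_T (D.m p) j hrN hcN, (hu N).weak p t htT _ (hpN.T (D.m p) j), sub_zero]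
  rw [e2]
  -- Bernstein
  have hTM : ContDiff ℝ ∞ (e2T (D.m p) j (fun x => u M p (t, x))) := (hpM.T (D.m p) j).contDiff
  obtain ⟨P, hp, hpz⟩ := e2_bernstein N hN hTM (L := L) (fun x hx => hL M t ht x hx)
  have e4 : e2Ip (D.m p) (fun x => e2Pdt (u N p) (t, x) - e2S D (u N) p (t, x))
        (e2T (D.m p) j (fun x => u M p (t, x)))
      = e2Ip (D.m p) (fun x => e2Pdt (u N p) (t, x) - e2S D (u N) p (t, x))
          (fun x => e2T (D.m p) j (fun x => u M p (t, x)) x - P x) := by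
    rw [e2Ip_sub_right (D.m p) hTM.continuous hp.contDiff.continuous hrN.continuous,
      (hu N).weak p t htT _ hp, sub_zero]
  rw [e4]
  have hb := e2Ip_abs_le_sup (D.m p) hrN.continuous (hTM.continuous.sub hp.contDiff.continuous)
    (fun x hx => hC N t ht x hx) hpz
  have : -e2Ip (D.m p) (fun x => e2Pdt (u N p) (t, x) - e2S D (u N) p (t, x))
      (fun x => e2T (D.m p) j (fun x => u M p (t, x)) x - P x) ≤ C * (L / Real.sqrt N) :=
    (neg_le_abs _).trans hb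
  calc _ ≤ C * (L / Real.sqrt N) := this
    _ = C * L / Real.sqrt N := by ring

/-- **Cauchy property.**  `e2_energy` with `J = μ+4` applied to `d = u_M - u_N` and `ρ = K/√N`; then `e2_sobolev _ 0`. -/
theorem e2_cauchy (hu : ∀ N, E2Gal D N (u N)) {s₂ : ℝ} (h₂ : s₂ < D.T) (p : Fin 3) :
    ∀ ε > 0, ∃ N₀ : ℕ, ∀ N ≥ N₀, ∀ M ≥ N, ∀ t ∈ Icc (D.t₁ - 1) s₂, ∀ x ∈ Icc (0 : ℝ) 1,
      |u M p (t, x) - u N p (t, x)| ≤ ε := by
  intro ε hε
  obtain ⟨C, hC0, hE⟩ := e2_energy D (D.t₁ - 1) h₂ (D.μ + 4) le_rfl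
  choose Kf hKf0 hKf using (fun (k : Fin 3) j => e2_consistency hu h₂ k j)
  obtain ⟨CS, hCS0, hS⟩ := e2_sobolev (D.m p) 0
  have hsm : ∀ N k, E2Sm D.T (u N k) := fun N => (hu N).sm
  set K : ℝ := ∑ k, ∑ j ∈ Finset.range (D.μ + 5), Kf k j with hKdef
  have hK0 : 0 ≤ K := Finset.sum_nonneg fun k _ => Finset.sum_nonneg fun j _ => hKf0 k j
  set B : ℝ := CS * (C * K) with hBdef
  have hB0 : 0 ≤ B := mul_nonneg hCS0 (mul_nonneg hC0 hK0)
  refine ⟨⌈(B / ε ^ 2) ^ 2⌉₊ + 1, ?_⟩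
  intro N hN M hM t ht x hx
  have hNpos : 0 < N := by omega
  have hNR : (0 : ℝ) < N := by exact_mod_cast hNpos
  have hsq : 0 < Real.sqrt N := Real.sqrt_pos.2 hNR
  have htT : t < D.T := lt_of_le_of_lt ht.2 h₂
  have hA : B / ε ^ 2 ≤ Real.sqrt N := by
    have h1 : (B / ε ^ 2) ^ 2 ≤ (N : ℝ) := by
      have h2 : (B / ε ^ 2) ^ 2 ≤ (⌈(B / ε ^ 2) ^ 2⌉₊ : ℝ) := Nat.le_ceil _
      have h3 : ((⌈(B / ε ^ 2) ^ 2⌉₊ : ℕ) : ℝ) ≤ (N : ℝ) := by
        exact_mod_cast (by omega : ⌈(B / ε ^ 2) ^ 2⌉₊ ≤ N)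
      exact h2.trans h3
    exact Real.le_sqrt_of_sq_le h1
  have hρ0 : 0 ≤ K / Real.sqrt N := div_nonneg hK0 hsq.le
  have hen := hE (fun k q => u M k q - u N k q) (K / Real.sqrt N)
    (fun k => (hsm M k).sub (hsm N k)) hρ0
    (by
      intro k y
      have h1 := (hu M).zero k (D.t₁ - 1) (by linarith) y
      have h2 := (hu N).zero k (D.t₁ - 1) (by linarith) y
      simp only [h1, h2, sub_self])
    (by
      intro t' ht' k j hj
      have h1 := hKf k j N M hNpos hM t' ht'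
      have h2 : Kf k j ≤ K := by
        have h21 : Kf k j ≤ ∑ j ∈ Finset.range (D.μ + 5), Kf k j :=
          Finset.single_le_sum (f := Kf k) (fun a _ => hKf0 k a) (Finset.mem_range.2 (by omega))
        refine h21.trans ?_
        exact Finset.single_le_sum (f := fun k => ∑ j ∈ Finset.range (D.μ + 5), Kf k j)
          (fun k _ => Finset.sum_nonneg fun j _ => hKf0 k j) (Finset.mem_univ k)
      have h3 : Kf k j / Real.sqrt N ≤ K / Real.sqrt N := div_le_div_of_nonneg_right h2 hsq.le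
      have h4 := e2Nsq_nonneg (D.m k) j (fun x => u M k (t', x) - u N k (t', x))
      exact (h1.trans h3).trans (le_add_of_nonneg_left h4)) t ht
  have hsob := hS (fun y => u M p (t, y) - u N p (t, y))
    (((hsm M p).sub (hsm N p)).slice_x htT) x hx
  rw [iteratedDeriv_zero] at hsob
  have hmp : D.m p ≤ D.μ + 2 := e2m_le D.μ p
  have hsum : ∑ j ∈ Finset.range (2 * 0 + D.m p + 3),
        e2Nsq (D.m p) j (fun y => u M p (t, y) - u N p (t, y))
      ≤ e2E D.μ (D.μ + 4) (fun k y => u M k (t, y) - u N k (t, y)) :=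
    e2_sum_Nsq_le_E D.μ (D.μ + 4) (fun k y => u M k (t, y) - u N k (t, y)) p (by omega)
  have h5 : (u M p (t, x) - u N p (t, x)) ^ 2 ≤ B / Real.sqrt N := by
    calc (u M p (t, x) - u N p (t, x)) ^ 2
        ≤ CS * ∑ j ∈ Finset.range (2 * 0 + D.m p + 3),
            e2Nsq (D.m p) j (fun y => u M p (t, y) - u N p (t, y)) := hsob
      _ ≤ CS * (C * (K / Real.sqrt N)) :=
          mul_le_mul_of_nonneg_left (hsum.trans hen) hCS0
      _ = B / Real.sqrt N := by rw [hBdef]; ring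
  have h6 : B / Real.sqrt N ≤ ε ^ 2 := by
    rw [div_le_iff₀ hsq]
    have h7 : B ≤ Real.sqrt N * ε ^ 2 := (div_le_iff₀ (by positivity)).1 hA
    linarith
  exact abs_le_of_sq_le_sq (h5.trans h6) hε.le

end Claimed.Agent.R324
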