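import Claimed.Agent.R324.E2.Ibp

/-
Row 324, module E2 (port of R325/EngComm): the commutation relation `∂ D_α^* = D_{α+1}^* ∂ + 2(α+1)` and the exact
identity for `<∂^j D_m^* g, ∂^j u>_{m+j}`.
-/

set_option autoImplicit false

namespace Claimed.Agent.R324

open Set
open scoped ContDiff

/-- `∂ D_i^* g = D_{i+1}^* g' + (2i+2) g`.  Pure calculus (product rule + `ring`). -/
theorem e2_deriv_Dst (i : ℕ) {g : ℝ → ℝ} (hg : ContDiff ℝ ∞ g) (x : ℝ) :
    deriv (e2Dst i g) x = e2Dst (i + 1) (deriv g) x + (2 * (i : ℝ) + 2) * g x := by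
  obtain ⟨hd, hg'⟩ := contDiff_infty_iff_deriv.1 hg
  obtain ⟨hd', -⟩ := contDiff_infty_iff_deriv.1 hg'
  have h1 : HasDerivAt g (deriv g x) x := (hd x).hasDerivAt
  have h2 : HasDerivAt (deriv g) (deriv (deriv g) x) x := (hd' x).hasDerivAt
  have hp : HasDerivAt (fun y : ℝ => -(y * (1 - y))) (-(1 * (1 - x) + x * (0 - 1))) x :=
    ((hasDerivAt_id' x).mul ((hasDerivAt_const x (1 : ℝ)).sub (hasDerivAt_id' x))).neg
  have hq : HasDerivAt (fun y : ℝ => ((i : ℝ) + 1) - (2 * (i : ℝ) + 2) * y)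
      (0 - (2 * (i : ℝ) + 2) * 1) x :=
    (hasDerivAt_const x ((i : ℝ) + 1)).sub ((hasDerivAt_id' x).const_mul (2 * (i : ℝ) + 2))
  have h3 := ((hp.mul h2).sub (hq.mul h1)).deriv
  have h4 : e2Dst i g = fun y => -(y * (1 - y)) * deriv g y
      - (((i : ℝ) + 1) - (2 * (i : ℝ) + 2) * y) * g y := rfl
  rw [h4]
  refine h3.trans ?_
  unfold e2Dst
  push_cast
  ring

theorem e2_comm_diff {g : ℝ → ℝ} (hg : ContDiff ℝ ∞ g) : Differentiable ℝ g :=
  (contDiff_infty_iff_deriv.1 hg).1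

/-- function-level form of `e2_iter_Dst` -/
theorem e2_comm_iter_fun (i j : ℕ) {g : ℝ → ℝ} (hg : ContDiff ℝ ∞ g) :
    iteratedDeriv j (e2Dst i g) = fun x => e2Dst (i + j) (iteratedDeriv j g) x
      + ((j : ℝ) * (2 * i + j + 1)) * iteratedDeriv (j - 1) g x := by
  induction j with
  | zero =>
    funext x
    simp [iteratedDeriv_zero]
  | succ j ih =>
    funext x
    rw [iteratedDeriv_succ, ih]
    have hG := e2_iteratedDeriv_contDiff j hg
    have hG1 := e2_iteratedDeriv_contDiff (j - 1) hg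
    have hd1 : DifferentiableAt ℝ (e2Dst (i + j) (iteratedDeriv j g)) x :=
      e2_comm_diff (e2Dst_contDiff (i + j) hG) x
    have hd0 : DifferentiableAt ℝ (iteratedDeriv (j - 1) g) x := e2_comm_diff hG1 x
    have hd2 : DifferentiableAt ℝ
        (fun x => ((j : ℝ) * (2 * i + j + 1)) * iteratedDeriv (j - 1) g x) x :=
      hd0.const_mul _
    have key : ((j : ℝ) * (2 * i + j + 1)) * deriv (iteratedDeriv (j - 1) g) x
        = ((j : ℝ) * (2 * i + j + 1)) * iteratedDeriv j g x := by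
      cases j with
      | zero => simp
      | succ n =>
        rw [Nat.add_sub_cancel, ← iteratedDeriv_succ]
    rw [deriv_fun_add hd1 hd2, deriv_const_mul_field, key, e2_deriv_Dst (i + j) hG x,
      ← iteratedDeriv_succ, Nat.add_sub_cancel]
    show e2Dst (i + j + 1) (iteratedDeriv (j + 1) g) x + _ + _
      = e2Dst (i + j + 1) (iteratedDeriv (j + 1) g) x + _
    push_cast
    ring

/-- `∂^j D_i^* g = D_{i+j}^* ∂^j g + j (2i+j+1) ∂^{j-1} g`  (for `j = 0` the last coefficient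
vanishes, so the truncated subtraction is harmless). -/
theorem e2_iter_Dst (i j : ℕ) {g : ℝ → ℝ} (hg : ContDiff ℝ ∞ g) (x : ℝ) :
    iteratedDeriv j (e2Dst i g) x = e2Dst (i + j) (iteratedDeriv j g) x
      + ((j : ℝ) * (2 * i + j + 1)) * iteratedDeriv (j - 1) g x :=
  congrFun (e2_comm_iter_fun i j hg) x

/-- `D_i^*` is linear -/
theorem e2_comm_Dst_lin (i : ℕ) (c : ℝ) {a b : ℝ → ℝ} (ha : Differentiable ℝ a)
    (hb : Differentiable ℝ b) (x : ℝ) :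
    e2Dst i (fun y => a y + c * b y) x = e2Dst i a x + c * e2Dst i b x := by
  unfold e2Dst
  rw [deriv_fun_add (ha x) ((hb x).const_mul c), deriv_const_mul_field]
  ring

theorem e2_comm_ibp' (i : ℕ) {H f : ℝ → ℝ} (hH : ContDiff ℝ ∞ H) (hf : ContDiff ℝ ∞ f) :
    e2Ip i (e2Dst i H) f = e2Ip (i + 1) H (deriv f) := by
  rw [e2Ip_comm, ← e2_ibp i hf hH, e2Ip_comm]

/-- The key identity.  From `e2_iter_Dst`, linearity of `e2Ip` and `e2_ibp`
(`<D_α^* h, f>_α = <h, f'>_{α+1}`), with `f = ∂^j u`. -/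
theorem e2_key_identity (m j : ℕ) {g u : ℝ → ℝ} (hg : ContDiff ℝ ∞ g) (hu : ContDiff ℝ ∞ u) :
    e2Ip (m + j) (iteratedDeriv j (e2Dst m g)) (iteratedDeriv j u)
      = e2Ip (m + j + 1) (iteratedDeriv j g) (iteratedDeriv (j + 1) u)
        + ((j : ℝ) * (2 * m + j + 1)) * e2Ip (m + j) (iteratedDeriv (j - 1) g) (iteratedDeriv j u) := by
  have hG := e2_iteratedDeriv_contDiff j hg
  have hG1 := e2_iteratedDeriv_contDiff (j - 1) hg
  have hU := e2_iteratedDeriv_contDiff j hu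
  have hA := e2Dst_contDiff (m + j) hG
  rw [e2_comm_iter_fun m j hg]
  have hcB : Continuous fun x => ((j : ℝ) * (2 * m + j + 1)) * iteratedDeriv (j - 1) g x :=
    continuous_const.mul hG1.continuous
  rw [e2Ip_add_left (m + j) hA.continuous hcB hU.continuous, e2Ip_smul_left,
    e2_comm_ibp' (m + j) hG hU, ← iteratedDeriv_succ]

/-- sup bound: `|∂^l D_i^* g| ≤ C max_{l' ≤ l+1} sup |∂^{l'} g|` on `[0,1]`.  Immediate from
`e2_iter_Dst`: `|x(1-x)| ≤ 1`, `|(i+l+1) - (2(i+l)+2) x| ≤ 3 + 3 (i+l)`. -/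
theorem e2_Dst_bound (i l : ℕ) : ∃ C : ℝ, 0 ≤ C ∧ ∀ (g : ℝ → ℝ) (K : ℝ), ContDiff ℝ ∞ g →
    (∀ l' ≤ l + 1, ∀ x ∈ Icc (0 : ℝ) 1, |iteratedDeriv l' g x| ≤ K) →
    ∀ x ∈ Icc (0 : ℝ) 1, |iteratedDeriv l (e2Dst i g) x| ≤ C * K := by
  refine ⟨1 + (3 + 3 * ((i : ℝ) + l)) + (l : ℝ) * (2 * i + l + 1), by positivity, ?_⟩
  intro g K hg hK x hx
  have hK0 : 0 ≤ K := le_trans (abs_nonneg _) (hK 0 (Nat.zero_le _) x hx)
  rw [e2_iter_Dst i l hg x]
  have h1 : |iteratedDeriv (l + 1) g x| ≤ K := hK (l + 1) le_rfl x hx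
  have h2 : |iteratedDeriv l g x| ≤ K := hK l (Nat.le_succ l) x hx
  have h3 : |iteratedDeriv (l - 1) g x| ≤ K := hK (l - 1) (by omega) x hx
  have hd : deriv (iteratedDeriv l g) x = iteratedDeriv (l + 1) g x := by
    rw [iteratedDeriv_succ]
  simp only [e2Dst, hd]
  obtain ⟨hx0, hx1⟩ := hx
  have ha : |-(x * (1 - x))| ≤ 1 := by
    rw [abs_neg, abs_of_nonneg (mul_nonneg hx0 (by linarith))]
    nlinarith
  have hi0 : (0 : ℝ) ≤ i := Nat.cast_nonneg i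
  have hl0 : (0 : ℝ) ≤ l := Nat.cast_nonneg l
  have hb : |(((i + l : ℕ) : ℝ) + 1) - (2 * ((i + l : ℕ) : ℝ) + 2) * x|
      ≤ 3 + 3 * ((i : ℝ) + l) := by
    push_cast
    rw [abs_le]
    constructor <;> nlinarith
  have hc : |(l : ℝ) * (2 * i + l + 1)| = (l : ℝ) * (2 * i + l + 1) :=
    abs_of_nonneg (by positivity)
  calc |-(x * (1 - x)) * iteratedDeriv (l + 1) g x
        - ((((i + l : ℕ) : ℝ) + 1) - (2 * ((i + l : ℕ) : ℝ) + 2) * x) * iteratedDeriv l g x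
        + (l : ℝ) * (2 * i + l + 1) * iteratedDeriv (l - 1) g x|
      ≤ |-(x * (1 - x)) * iteratedDeriv (l + 1) g x|
        + |((((i + l : ℕ) : ℝ) + 1) - (2 * ((i + l : ℕ) : ℝ) + 2) * x) * iteratedDeriv l g x|
        + |(l : ℝ) * (2 * i + l + 1) * iteratedDeriv (l - 1) g x| :=
        (abs_add_le _ _).trans (add_le_add (abs_sub _ _) le_rfl)
    _ ≤ 1 * K + (3 + 3 * ((i : ℝ) + l)) * K + (l : ℝ) * (2 * i + l + 1) * K := by
        rw [abs_mul, abs_mul, abs_mul, hc]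
        gcongr
    _ = (1 + (3 + 3 * ((i : ℝ) + l)) + (l : ℝ) * (2 * i + l + 1)) * K := by ring

/-- `|∂^l (D_m^* ... D_{m+j-1}^* g)| ≤ C max_{l' ≤ l+j} sup |∂^{l'} g|`.  Induction on `j`
(generalising `g` and `l`) from `e2_Dst_bound`. -/
theorem e2_Dpow_bound (m j l : ℕ) : ∃ C : ℝ, 0 ≤ C ∧ ∀ (g : ℝ → ℝ) (K : ℝ), ContDiff ℝ ∞ g →
    (∀ l' ≤ l + j, ∀ x ∈ Icc (0 : ℝ) 1, |iteratedDeriv l' g x| ≤ K) →
    ∀ x ∈ Icc (0 : ℝ) 1, |iteratedDeriv l (e2Dpow m j g) x| ≤ C * K := by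
  induction j generalizing l with
  | zero =>
    refine ⟨1, zero_le_one, ?_⟩
    intro g K _ hK x hx
    simpa [e2Dpow] using hK l le_rfl x hx
  | succ j ih =>
    obtain ⟨C1, hC1, h1⟩ := ih l
    choose Cf hCf0 hCf using fun l' => e2_Dst_bound (m + j) l'
    refine ⟨C1 * ∑ l' ∈ Finset.range (l + j + 1), Cf l',
      mul_nonneg hC1 (Finset.sum_nonneg fun l' _ => hCf0 l'), ?_⟩
    intro g K hg hK x hx
    have hK0 : 0 ≤ K := le_trans (abs_nonneg _) (hK 0 (Nat.zero_le _) x hx)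
    have key := h1 (e2Dst (m + j) g) ((∑ l' ∈ Finset.range (l + j + 1), Cf l') * K)
      (e2Dst_contDiff (m + j) hg) (by
        intro l' hl' y hy
        have h2 := hCf l' g K hg (fun l'' hl'' z hz => hK l'' (by omega) z hz) y hy
        refine h2.trans (mul_le_mul_of_nonneg_right ?_ hK0)
        exact Finset.single_le_sum (f := Cf) (fun a _ => hCf0 a)
          (Finset.mem_range.2 (by omega))) x hx
    simpa [e2Dpow, mul_assoc] using key

/-- `|∂^l T_j u| ≤ C max_{l' ≤ l+2j} sup |∂^{l'} u|`. -/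
theorem e2_T_bound (m j l : ℕ) : ∃ C : ℝ, 0 ≤ C ∧ ∀ (u : ℝ → ℝ) (K : ℝ), ContDiff ℝ ∞ u →
    (∀ l' ≤ l + 2 * j, ∀ x ∈ Icc (0 : ℝ) 1, |iteratedDeriv l' u x| ≤ K) →
    ∀ x ∈ Icc (0 : ℝ) 1, |iteratedDeriv l (e2T m j u) x| ≤ C * K := by
  obtain ⟨C, hC, h⟩ := e2_Dpow_bound m j l
  refine ⟨C, hC, ?_⟩
  intro u K hu hK x hx
  refine h (iteratedDeriv j u) K (e2_iteratedDeriv_contDiff j hu) ?_ x hx
  intro l' hl' y hy
  have : iteratedDeriv l' (iteratedDeriv j u) = iteratedDeriv (l' + j) u := by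
    simp only [iteratedDeriv_eq_iterate, Function.iterate_add_apply]
  rw [this]
  exact hK (l' + j) (by omega) y hy

end Claimed.Agent.R324
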