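import Claimed.Agent.R324.E2.Gard

/-
Row 324, module E2: fixed time estimates, tested with `T_j` (scalar lemmas): zeroth order coupling, case A.
Model: R325/EngGard.lean (section "R325/EngGard.lean" of Claimed/Agent/R325/Pk27.lean) and `eng_Rfix_bound` in R325/EngFix.lean (same pack).
Everywhere: `<f, T_j v>_m = <∂^j f, ∂^j v>_{m+j}` (`e2_ip_T`), `iteratedDeriv l (deriv u) = iteratedDeriv (l+1) u` (`e2_gard_aux_iter`).
-/

set_option autoImplicit false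

namespace Claimed.Agent.R324

open Set
open scoped ContDiff

/-- **Zeroth order coupling, lighter source weight** (`m ≤ m'`).
`<c u, T_j v>_{m'} = <∂^j (c u), ∂^j v>_{m'+j}`, `≤ (|∂^j (c u)|_{m'+j}^2 + N^{m'}_j(v)^2)/2`, and
`|∂^j (c u)|_{m'+j}^2 ≤ c Σ_{l ≤ j} |∂^l u|_{m'+j}^2 ≤ c Σ_{l ≤ j} N^m_l(u)^2` (`e2_leibniz_bound_ip`, `e2Ip_self_weight_le'`, `m + l ≤ m' + j`). -/
theorem e2_coup_A (m m' j : ℕ) (h : m ≤ m') (A : ℝ) : ∃ C : ℝ, 0 ≤ C ∧ ∀ (c u v : ℝ → ℝ),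
    ContDiff ℝ ∞ c → ContDiff ℝ ∞ u → ContDiff ℝ ∞ v →
    (∀ l ≤ j, ∀ x ∈ Icc (0 : ℝ) 1, |iteratedDeriv l c x| ≤ A) →
    |e2Ip m' (fun x => c x * u x) (e2T m' j v)|
      ≤ C * (∑ i ∈ Finset.range (j + 1), e2Nsq m i u + e2Nsq m' j v) := by
  set K : ℝ := (2 ^ j * A) ^ 2 * (j + 1) with hK
  have hK0 : 0 ≤ K := by positivity
  refine ⟨K + 1, by positivity, fun c u v hc hu hv hA => ?_⟩
  have hcu : ContDiff ℝ ∞ (fun x => c x * u x) := hc.mul hu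
  have hcont : ∀ {f : ℝ → ℝ}, ContDiff ℝ ∞ f → ∀ l : ℕ, Continuous (iteratedDeriv l f) :=
    fun hf l => hf.continuous_iteratedDeriv l (by exact_mod_cast le_top)
  rw [e2_ip_T m' j hcu hv]
  have h1 := e2Ip_young (m' + j) (hcont hcu j) (hcont hv j) (δ := 1 / 2) (by norm_num)
  have h2 := e2_leibniz_bound_ip (m' + j) j hc hu hA
  have h3 : ∑ l ∈ Finset.range (j + 1), e2Ip (m' + j) (iteratedDeriv l u) (iteratedDeriv l u)
      ≤ ∑ i ∈ Finset.range (j + 1), e2Nsq m i u := by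
    refine Finset.sum_le_sum fun l hl => ?_
    rw [Finset.mem_range] at hl
    exact e2Ip_self_weight_le' (by omega) (hcont hu l)
  have hS0 : 0 ≤ ∑ i ∈ Finset.range (j + 1), e2Nsq m i u :=
    Finset.sum_nonneg fun i _ => e2Nsq_nonneg m i u
  have hN0 : 0 ≤ e2Nsq m' j v := e2Nsq_nonneg m' j v
  have h4 : e2Ip (m' + j) (iteratedDeriv j v) (iteratedDeriv j v) = e2Nsq m' j v := rfl
  rw [h4] at h1
  have h5 := h2.trans (mul_le_mul_of_nonneg_left h3 hK0)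
  refine h1.trans ?_
  norm_num
  nlinarith [mul_nonneg hK0 hS0, mul_nonneg hK0 hN0]

end Claimed.Agent.R324
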