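import Claimed.Agent.R324.E2.First

/-
Row 324, module E2: fixed time estimates, tested with `T_j` (scalar lemmas): zeroth order coupling, case B (Hardy).
Model: R325/EngGard.lean (section "R325/EngGard.lean" of Claimed/Agent/R325/Pk27.lean) and `eng_Rfix_bound` in R325/EngFix.lean (same pack).
Everywhere: `<f, T_j v>_m = <∂^j f, ∂^j v>_{m+j}` (`e2_ip_T`), `iteratedDeriv l (deriv u) = iteratedDeriv (l+1) u` (`e2_gard_aux_iter`).
-/

set_option autoImplicit false

namespace Claimed.Agent.R324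

open Set
open scoped ContDiff

/-- **Zeroth order coupling, heavier source weight** (`u` is measured with the base exponent `m+2`, the factor `φ` compensates).
`<φ c u, T_j v>_m = <∂^j (B u), ∂^j v>_{m+j}`, `B = φ c` (`e2_phi_mul_bound`), `∂^j (B u) = B ∂^j u + Rem`.
* `|φ c ∂^j u|_{m+j}^2 ≤ A^2 |∂^j u|_{m+j+2}^2 = A^2 N^{m+2}_j(u)^2`  (`φ^2 φ^(m+j) = φ^(m+2+j)`).
* `|Rem|_{m+j}^2 ≤ c Σ_{l<j} |∂^l u|_{m+j}^2` (`e2_leibniz_rem_ip`), `|∂^l u|_{m+j}^2 = H_{m+j}(∂^l u)` (`e2Ip_self_eq_H`)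
  `≤ 16 Σ_{i ≤ l+1} N^{m+2}_i(u)^2` by **Hardy**: `e2H_bound (m+2) 1 l (m+j)` (needs `m+2+l ≤ m+j+1`, i.e. `l < j`), and `l+1 ≤ j`. -/
theorem e2_coup_B (m j : ℕ) (A : ℝ) : ∃ C : ℝ, 0 ≤ C ∧ ∀ (c u v : ℝ → ℝ),
    ContDiff ℝ ∞ c → ContDiff ℝ ∞ u → ContDiff ℝ ∞ v →
    (∀ l ≤ j, ∀ x ∈ Icc (0 : ℝ) 1, |iteratedDeriv l c x| ≤ A) →
    |e2Ip m (fun x => x * (1 - x) * c x * u x) (e2T m j v)|
      ≤ C * (∑ i ∈ Finset.range (j + 1), e2Nsq (m + 2) i u + e2Nsq m j v) := by
  refine ⟨A ^ 2 + 16 * (2 ^ j * (2 ^ (j + 1) * (j + 1) * A)) ^ 2 * j ^ 2 + 1 / 2, by positivity, ?_⟩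
  intro c u v hc hu hv hA
  have hφ : ContDiff ℝ ∞ (fun y : ℝ => y * (1 - y)) := by fun_prop
  have hB : ContDiff ℝ ∞ (fun y : ℝ => y * (1 - y) * c y) := hφ.mul hc
  have hA' := e2_phi_mul_bound j hc hA
  have hf : ContDiff ℝ ∞ (fun x : ℝ => x * (1 - x) * c x * u x) := hB.mul hu
  rw [e2_ip_T m j hf hv]
  have hcF := e2_leib_aux_cont j hf
  have hcG := e2_leib_aux_cont j hv
  have hcU := e2_leib_aux_cont j hu
  have hY := e2Ip_young (m + j) hcF hcG (δ := 1 / 2) (by norm_num)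
  obtain ⟨S, hS⟩ : ∃ S : ℝ, S = ∑ i ∈ Finset.range (j + 1), e2Nsq (m + 2) i u := ⟨_, rfl⟩
  rw [← hS]
  have hS0 : 0 ≤ S := by
    rw [hS]
    exact Finset.sum_nonneg fun i _ => e2Nsq_nonneg _ _ _
  -- main term
  have hmain : e2Ip (m + j) (fun x => x * (1 - x) * c x * iteratedDeriv j u x)
      (fun x => x * (1 - x) * c x * iteratedDeriv j u x) ≤ A ^ 2 * S := by
    have e1 : e2Ip (m + j) (fun x => x * (1 - x) * c x * iteratedDeriv j u x)
        (fun x => x * (1 - x) * c x * iteratedDeriv j u x)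
        = e2Ip (m + 2 + j) (fun x => c x * iteratedDeriv j u x)
          (fun x => c x * iteratedDeriv j u x) := by
      unfold e2Ip e2W
      congr 1
      funext x
      rw [show m + 2 + j = m + j + 2 by omega, pow_add]
      ring
    rw [e1]
    have h0 : ∀ x ∈ Icc (0 : ℝ) 1, |c x| ≤ A := fun x hx => by
      simpa using hA 0 (Nat.zero_le _) x hx
    have h1 := e2Ip_mul_self_le (m + 2 + j) hc.continuous hcU h0
    have h2 : e2Nsq (m + 2) j u ≤ S := by
      rw [hS]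
      exact Finset.single_le_sum (f := fun i => e2Nsq (m + 2) i u)
        (fun i _ => e2Nsq_nonneg _ _ _) (Finset.mem_range.2 (Nat.lt_succ_self j))
    exact le_trans h1 (mul_le_mul_of_nonneg_left h2 (sq_nonneg A))
  -- remainder
  have hrem := e2_leibniz_rem_ip (m + j) j hB hu hA'
  have hsum : ∑ l ∈ Finset.range j, e2Ip (m + j) (iteratedDeriv l u) (iteratedDeriv l u)
      ≤ j * (16 * S) := by
    have h4 : ∀ l ∈ Finset.range j,
        e2Ip (m + j) (iteratedDeriv l u) (iteratedDeriv l u) ≤ 16 * S := by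
      intro l hl
      have hl' := Finset.mem_range.1 hl
      rw [e2Ip_self_eq_H]
      have h1 := e2H_bound (m + 2) 1 l (m + j) (by omega) hu
      have h2 : ∑ i ∈ Finset.range (l + 1 + 1), e2Nsq (m + 2) i u ≤ S := by
        rw [hS]
        exact Finset.sum_le_sum_of_subset_of_nonneg (Finset.range_subset_range.2 (by omega))
          (fun i _ _ => e2Nsq_nonneg _ _ _)
      rw [pow_one] at h1
      exact le_trans h1 (mul_le_mul_of_nonneg_left h2 (by norm_num))
    have h3 := Finset.sum_le_card_nsmul (Finset.range j) _ (16 * S) h4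
    simpa using h3
  have hc1 : Continuous (fun x => x * (1 - x) * c x * iteratedDeriv j u x) :=
    hB.continuous.mul hcU
  have hc2 : Continuous (fun x => iteratedDeriv j (fun y => y * (1 - y) * c y * u y) x
      - x * (1 - x) * c x * iteratedDeriv j u x) := hcF.sub hc1
  have hadd := e2Ip_add_self_le (m + j) hc1 hc2
  have hdec : (fun x => x * (1 - x) * c x * iteratedDeriv j u x
      + (iteratedDeriv j (fun y => y * (1 - y) * c y * u y) x
        - x * (1 - x) * c x * iteratedDeriv j u x))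
      = iteratedDeriv j (fun x => x * (1 - x) * c x * u x) := by
    funext x
    ring
  rw [hdec] at hadd
  have hrem2 : e2Ip (m + j) (fun x => iteratedDeriv j (fun y => y * (1 - y) * c y * u y) x
      - x * (1 - x) * c x * iteratedDeriv j u x)
      (fun x => iteratedDeriv j (fun y => y * (1 - y) * c y * u y) x
      - x * (1 - x) * c x * iteratedDeriv j u x)
      ≤ (2 ^ j * (2 ^ (j + 1) * (j + 1) * A)) ^ 2 * j * (j * (16 * S)) :=
    le_trans hrem (mul_le_mul_of_nonneg_left hsum (by positivity))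
  have hNv : 0 ≤ e2Nsq m j v := e2Nsq_nonneg _ _ _
  have hGG : e2Ip (m + j) (iteratedDeriv j v) (iteratedDeriv j v) = e2Nsq m j v := rfl
  rw [hGG] at hY
  have hpos : 0 ≤ (A ^ 2 + 16 * (2 ^ j * (2 ^ (j + 1) * (j + 1) * A)) ^ 2 * j ^ 2) * e2Nsq m j v :=
    mul_nonneg (by positivity) hNv
  refine le_trans hY ?_
  nlinarith [hadd, hmain, hrem2, hpos, hS0, hNv]

end Claimed.Agent.R324
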