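/-
Row 324, module E2 (linear engine for second order degenerate parabolic systems): definitions.

PLAN (architect helper104).  `engine2` (R324/Engine2.lean) is stated in the variable `y ∈ [-1,1]`.  We work in `x = (1+y)/2 ∈ [0,1]`,
`φ = x(1-x) = (1-y^2)/4`, so that the generic part of the engine of row 325 (files R325/Eng*.lean, now inside R325/Pk*.lean) can be
copied verbatim (prefix `eng`/`Eng` renamed to `e2`/`E2`, namespace `Claimed.Agent.R324`).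
Notation: `<f,g>_α = ∫_0^1 f g φ^α` (`e2Ip α`),  `N^m_j(u)^2 = <∂^j u, ∂^j u>_{m+j}` (`e2Nsq m j`),
`D_α^* g = - φ^{-α} (φ^{α+1} g)' = -φ g' - (α+1)(1-2x) g` (`e2Dst α`), so that `<f', g>_{α+1} = <f, D_α^* g>_α` (no boundary terms),
`L_b u = D_m^* (b u')` (`e2Lfix m`), `T_j u = D_m^* ... D_{m+j-1}^* ∂^j u` (`e2T m j`), `<f, T_j u>_m = <∂^j f, ∂^j u>_{m+j}`.
The three components have the base exponents `m = μ, μ, μ+2` (`e2m μ`), `q = 2μ+1`.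
The system in the variable `x` (`e2S0`, `e2S`):
   `∂_t u_j = - D_{m_j}^* (a ∂_x u_j) + φ b_j ∂_x u_j + Σ_k s_jk c_jk u_k + Σ_i e_ij ∫_0^1 Σ_l k_il u_l dξ + F_j`,
`s_jk = φ` if `k = 2`, `j ≠ 2`, and `1` otherwise.
Galerkin approximation in the polynomials of degree `≤ N` (each component); `T_j` preserves that space, so the Galerkin equation can be
tested with `T_j u`: energy estimates at every level `j`, uniformly in `N`.
-/
import Mathlib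

set_option autoImplicit false

namespace Claimed.Agent.R324

open Set
open scoped ContDiff

/-! ### one-dimensional objects -/

/-- the weight `φ^α`, `φ(x) = x (1-x)`. -/
noncomputable def e2W (α : ℕ) (x : ℝ) : ℝ := (x * (1 - x)) ^ α

/-- the weighted pairing `<f,g>_α = ∫_0^1 f g φ^α`. -/
noncomputable def e2Ip (α : ℕ) (f g : ℝ → ℝ) : ℝ :=
  ∫ x in (0 : ℝ)..1, f x * g x * e2W α x

/-- `N^m_j(u)^2 = ∫_0^1 (∂^j u)^2 φ^(m+j)`. -/
noncomputable def e2Nsq (m j : ℕ) (u : ℝ → ℝ) : ℝ :=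
  e2Ip (m + j) (iteratedDeriv j u) (iteratedDeriv j u)

/-- `D_α^* g = -x(1-x) g' - ((α+1) - (2α+2) x) g`, the formal adjoint of
`d/dx : L^2(φ^α) → L^2(φ^(α+1))`. -/
noncomputable def e2Dst (α : ℕ) (g : ℝ → ℝ) : ℝ → ℝ := fun x =>
  -(x * (1 - x)) * deriv g x - (((α : ℝ) + 1) - (2 * (α : ℝ) + 2) * x) * g x

/-- `e2Dpow m j g = D_m^* D_{m+1}^* ... D_{m+j-1}^* g`. -/
noncomputable def e2Dpow (m : ℕ) : ℕ → (ℝ → ℝ) → ℝ → ℝ
  | 0, g => g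
  | (j + 1), g => e2Dpow m j (e2Dst (m + j) g)

/-- `T_j u = D_m^* ... D_{m+j-1}^* ∂^j u`. -/
noncomputable def e2T (m j : ℕ) (u : ℝ → ℝ) : ℝ → ℝ := e2Dpow m j (iteratedDeriv j u)

/-- the principal part at a fixed time: `L_b u = D_m^* (b u') = - φ^{-m} (φ^{m+1} b u')'`. -/
noncomputable def e2Lfix (m : ℕ) (b u : ℝ → ℝ) : ℝ → ℝ :=
  e2Dst m (fun x => b x * deriv u x)

/-- `v` is (the function of) a real polynomial of degree `≤ N`. -/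
def E2Poly (N : ℕ) (v : ℝ → ℝ) : Prop :=
  ∃ p : Polynomial ℝ, p.natDegree ≤ N ∧ ∀ x, v x = p.eval x

/-- `∫_0^1 (x(1-x))^α f^2  ( = e2Ip α f f)`  (for the Hardy/Sobolev chain). -/
noncomputable def e2H (α : ℕ) (f : ℝ → ℝ) : ℝ :=
  ∫ x in (0 : ℝ)..1, (x * (1 - x)) ^ α * (f x) ^ 2

/-! ### functions of `(t,x)` -/

/-- smooth on `(-∞,T) × ℝ`. -/
def E2Sm (T : ℝ) (f : ℝ × ℝ → ℝ) : Prop := ContDiffOn ℝ ∞ f (Iio T ×ˢ (univ : Set ℝ))

/-- partial derivative in `t`. -/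
noncomputable def e2Pdt (f : ℝ × ℝ → ℝ) : ℝ × ℝ → ℝ := fun q => deriv (fun s => f (s, q.2)) q.1

/-- partial derivative in `x`. -/
noncomputable def e2Pdx (f : ℝ × ℝ → ℝ) : ℝ × ℝ → ℝ := fun q => deriv (fun y => f (q.1, y)) q.2

/-- `∂_x^j ∂_t^i f`. -/
noncomputable def e2Pd (i j : ℕ) (f : ℝ × ℝ → ℝ) : ℝ × ℝ → ℝ := e2Pdx^[j] (e2Pdt^[i] f)

/-- A family of functions all of whose derivatives `∂_x^j ∂_t^i`, `i ≤ I`, `j` arbitrary, are bounded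
on `[s₀,s₂] × [0,1]`, uniformly in the family. -/
def E2UB (s₀ s₂ : ℝ) (I : ℕ) {ι : Type} (𝓕 : ι → ℝ × ℝ → ℝ) : Prop :=
  ∀ i ≤ I, ∀ j : ℕ, ∃ C : ℝ, ∀ n : ι, ∀ t ∈ Icc s₀ s₂, ∀ x ∈ Icc (0 : ℝ) 1,
    |e2Pd i j (𝓕 n) (t, x)| ≤ C

/-! ### the system -/

/-- exponent of the base weight of the component `j`: `μ, μ, μ+2`. -/
def e2m (μ : ℕ) (j : Fin 3) : ℕ := if j = 2 then μ + 2 else μ

/-- structural factor of the zeroth order coupling: the third component enters the first two only through `φ u_2`. -/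
noncomputable def e2s (j k : Fin 3) (x : ℝ) : ℝ := if k = 2 ∧ j ≠ 2 then x * (1 - x) else 1

/-- first order term at a fixed time: `φ b u'`. -/
noncomputable def e2Bfix (b u : ℝ → ℝ) : ℝ → ℝ := fun x => x * (1 - x) * b x * deriv u x

/-- zeroth order coupling at a fixed time: `Σ_k s_jk c_jk u_k`. -/
noncomputable def e2Cfix (c : Fin 3 → Fin 3 → ℝ → ℝ) (u : Fin 3 → ℝ → ℝ) (j : Fin 3) : ℝ → ℝ :=
  fun x => ∑ k, e2s j k x * c j k x * u k x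

/-- the nonlocal term at a fixed time: `Σ_i e_ij ∫_0^1 Σ_l κ_il u_l`. -/
noncomputable def e2Rfix {n : ℕ} (e κ : Fin n → Fin 3 → ℝ → ℝ) (u : Fin 3 → ℝ → ℝ) (j : Fin 3) :
    ℝ → ℝ := fun x => ∑ i, e i j x * ∫ ξ in (0 : ℝ)..1, ∑ l, κ i l ξ * u l ξ

/-- the linear operator at a fixed time. -/
noncomputable def e2Sfix (μ : ℕ) {n : ℕ} (a : ℝ → ℝ) (b : Fin 3 → ℝ → ℝ) (c : Fin 3 → Fin 3 → ℝ → ℝ)
    (e κ : Fin n → Fin 3 → ℝ → ℝ) (u : Fin 3 → ℝ → ℝ) (j : Fin 3) : ℝ → ℝ := fun x =>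
  - e2Lfix (e2m μ j) a (u j) x + e2Bfix (b j) (u j) x + e2Cfix c u j x + e2Rfix e κ u j x

/-- the energy `E_J(u) = Σ_j Σ_{i ≤ J} N^{m_j}_i(u_j)^2`. -/
noncomputable def e2E (μ J : ℕ) (u : Fin 3 → ℝ → ℝ) : ℝ :=
  ∑ j, ∑ i ∈ Finset.range (J + 1), e2Nsq (e2m μ j) i (u j)

/-- the data of the linear problem (variable `x ∈ [0,1]`, divergence form). -/
structure E2Data where
  μ : ℕ
  t₁ : ℝ
  T : ℝ
  a : ℝ × ℝ → ℝ
  b : Fin 3 → ℝ × ℝ → ℝ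
  c : Fin 3 → Fin 3 → ℝ × ℝ → ℝ
  F : Fin 3 → ℝ × ℝ → ℝ
  n : ℕ
  e : Fin n → Fin 3 → ℝ × ℝ → ℝ
  k : Fin n → Fin 3 → ℝ × ℝ → ℝ
  ht : t₁ < T
  ha : E2Sm T a
  hb : ∀ j, E2Sm T (b j)
  hc : ∀ j l, E2Sm T (c j l)
  hF : ∀ j, E2Sm T (F j)
  he : ∀ i j, E2Sm T (e i j)
  hk : ∀ i j, E2Sm T (k i j)
  hpos : ∀ t < T, ∀ x ∈ Icc (0 : ℝ) 1, 0 < a (t, x)
  hF0 : ∀ j, ∀ t ≤ t₁, ∀ x ∈ Icc (0 : ℝ) 1, F j (t, x) = 0

/-- base exponent of the component `j`. -/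
def E2Data.m (D : E2Data) (j : Fin 3) : ℕ := e2m D.μ j

/-- the linear part of the right hand side (the fixed time operator applied to the slices). -/
noncomputable def e2S0 (D : E2Data) (u : Fin 3 → ℝ × ℝ → ℝ) (j : Fin 3) : ℝ × ℝ → ℝ := fun q =>
  e2Sfix D.μ (fun y => D.a (q.1, y)) (fun j y => D.b j (q.1, y)) (fun j l y => D.c j l (q.1, y))
    (fun i j y => D.e i j (q.1, y)) (fun i j y => D.k i j (q.1, y)) (fun j y => u j (q.1, y)) j q.2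

/-- the right hand side of the equation. -/
noncomputable def e2S (D : E2Data) (u : Fin 3 → ℝ × ℝ → ℝ) (j : Fin 3) : ℝ × ℝ → ℝ := fun q =>
  e2S0 D u j q + D.F j q

/-- `u` is the Galerkin solution in the polynomials of degree `≤ N`. -/
structure E2Gal (D : E2Data) (N : ℕ) (u : Fin 3 → ℝ × ℝ → ℝ) : Prop where
  coef : ∃ c : Fin 3 → ℕ → ℝ → ℝ, (∀ j k, ContDiffOn ℝ ∞ (c j k) (Iio D.T)) ∧
    ∀ j, ∀ q : ℝ × ℝ, u j q = ∑ k ∈ Finset.range (N + 1), c j k q.1 * q.2 ^ k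
  zero : ∀ j, ∀ t ≤ D.t₁, ∀ x, u j (t, x) = 0
  weak : ∀ j, ∀ t < D.T, ∀ v : ℝ → ℝ, E2Poly N v →
    e2Ip (D.m j) (fun x => e2Pdt (u j) (t, x) - e2S D u j (t, x)) v = 0

/-- hygiene (rule 6): the on-demand equation lemmas that several files cite are generated here, once. -/
theorem e2Defs_hygiene : True := by
  have _h1 := @e2W.eq_1
  have _h2 := @e2Ip.eq_1
  have _h3 := @e2Nsq.eq_1
  have _h4 := @e2Dst.eq_1
  have _h5 := @e2Dpow.eq_1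
  have _h6 := @e2Dpow.eq_2
  have _h7 := @e2Dpow.eq_def
  have _h8 := @e2T.eq_1
  have _h9 := @e2Lfix.eq_1
  have _h10 := @E2Poly.eq_1
  have _h11 := @e2H.eq_1
  have _h12 := @E2Sm.eq_1
  have _h13 := @e2Pdt.eq_1
  have _h14 := @e2Pdx.eq_1
  have _h15 := @e2Pd.eq_1
  have _h16 := @E2UB.eq_1
  have _h17 := @e2m.eq_1
  have _h18 := @e2s.eq_1
  have _h19 := @e2Bfix.eq_1
  have _h20 := @e2Cfix.eq_1
  have _h21 := @e2Rfix.eq_1
  have _h22 := @e2Sfix.eq_1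
  have _h23 := @e2E.eq_1
  have _h24 := @E2Data.m.eq_1
  have _h25 := @e2S0.eq_1
  have _h26 := @e2S.eq_1
  trivial

end Claimed.Agent.R324
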