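import Claimed.Agent.R324.E2.PdB
import Claimed.Agent.R324.E2.Ip

/-
Row 324, module E2 (copy of the row 325 engine): differentiation under the integral sign `∫_0^1 f(t,x) dx`, `f` smooth on `(-∞,T) × ℝ`.
-/

set_option autoImplicit false

namespace Claimed.Agent.R324

open Set
open scoped ContDiff

variable {T : ℝ} {f g : ℝ × ℝ → ℝ}

/-- Differentiation under the integral.  `intervalIntegral.hasDerivAt_integral_of_dominated_loc_of_deriv_le`
(`Mathlib/Analysis/Calculus/ParametricIntervalIntegral.lean`) on a ball `(t-ε,t+ε)` with `t+ε < T`; the bound for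
`e2Pdt f` on the compact `[t-ε,t+ε] × [0,1]` is `E2Sm.bdd` applied to `E2Sm.pdt`. -/
theorem e2_hasDerivAt_integral (h : E2Sm T f) {t : ℝ} (ht : t < T) :
    HasDerivAt (fun s => ∫ x in (0 : ℝ)..1, f (s, x)) (∫ x in (0 : ℝ)..1, e2Pdt f (t, x)) t := by
  obtain ⟨s₂, hts, hsT⟩ := exists_between ht
  obtain ⟨C, _, hC⟩ := h.pdt.bdd (t - 1) hsT
  have hs : Ioo (t - 1) s₂ ∈ nhds t := Ioo_mem_nhds (by linarith) hts
  refine (intervalIntegral.hasDerivAt_integral_of_dominated_loc_of_deriv_le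
    (F := fun s x => f (s, x)) (F' := fun s x => e2Pdt f (s, x)) (bound := fun _ => C)
    hs ?_ ?_ ?_ ?_ ?_ ?_).2
  · filter_upwards [hs] with s hs
    exact (h.slice_x (hs.2.trans hsT)).continuous.aestronglyMeasurable
  · exact (h.slice_x ht).continuous.intervalIntegrable _ _
  · exact (h.pdt.slice_x ht).continuous.aestronglyMeasurable
  · refine Filter.Eventually.of_forall fun x hx s hs => ?_
    rw [uIoc_of_le zero_le_one] at hx
    exact hC s ⟨hs.1.le, hs.2.le⟩ x ⟨hx.1.le, hx.2⟩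
  · exact intervalIntegrable_const
  · exact Filter.Eventually.of_forall fun x _ s hs => h.hasDerivAt_t (hs.2.trans hsT) x

/-- Induction on the order (`contDiffOn_succ_iff_deriv_of_isOpen`), generalising `f`: the derivative is the same kind of
integral for `e2Pdt f`. -/
theorem e2_contDiffOn_integral (h : E2Sm T f) :
    ContDiffOn ℝ ∞ (fun t => ∫ x in (0 : ℝ)..1, f (t, x)) (Iio T) := by
  rw [contDiffOn_infty]
  intro n
  induction n generalizing f with
  | zero =>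
    rw [Nat.cast_zero, contDiffOn_zero]
    exact fun t ht => (e2_hasDerivAt_integral h ht).continuousAt.continuousWithinAt
  | succ n ih =>
    rw [Nat.cast_succ, contDiffOn_succ_iff_deriv_of_isOpen isOpen_Iio]
    refine ⟨fun t ht => (e2_hasDerivAt_integral h ht).differentiableAt.differentiableWithinAt,
      fun hn => absurd hn (by simp), ?_⟩
    exact (ih h.pdt).congr fun t ht => (e2_hasDerivAt_integral h ht).deriv

theorem e2Sm_integral (h : E2Sm T f) : E2Sm T (fun q => ∫ ξ in (0 : ℝ)..1, f (q.1, ξ)) :=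
  e2Sm_of_t (e2_contDiffOn_integral h)

theorem e2Pdt_integral (h : E2Sm T f) : ∀ t < T, ∀ x,
    e2Pdt (fun q => ∫ ξ in (0 : ℝ)..1, f (q.1, ξ)) (t, x) = ∫ ξ in (0 : ℝ)..1, e2Pdt f (t, ξ) := by
  intro t ht x
  exact (e2_hasDerivAt_integral h ht).deriv

theorem e2Pdt_iter_integral (h : E2Sm T f) (i : ℕ) : ∀ t < T, ∀ x,
    e2Pdt^[i] (fun q => ∫ ξ in (0 : ℝ)..1, f (q.1, ξ)) (t, x)
      = ∫ ξ in (0 : ℝ)..1, e2Pdt^[i] f (t, ξ) := by
  induction i generalizing f with
  | zero => intro t _ x; rfl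
  | succ i ih =>
    intro t ht x
    rw [Function.iterate_succ_apply,
      e2Pdt_iter_congr (g := fun q => ∫ ξ in (0 : ℝ)..1, e2Pdt f (q.1, ξ))
        (e2Pdt_integral h) i t ht x, ih h.pdt t ht x]
    rfl

theorem e2_dui_contDiff_engW (i : ℕ) : ContDiff ℝ ∞ (e2W i) := by
  unfold e2W
  fun_prop

theorem e2_dui_pdt_mul_x (f : ℝ × ℝ → ℝ) (φ : ℝ → ℝ) (q : ℝ × ℝ) :
    e2Pdt (fun q => f q * φ q.2) q = e2Pdt f q * φ q.2 := by
  unfold e2Pdt
  exact deriv_mul_const_field (u := fun s => f (s, q.2)) (φ q.2)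

/-- time derivative of `<f(t,·), v>_i` for a fixed smooth `v`. -/
theorem e2_hasDerivAt_ip_left (i : ℕ) (h : E2Sm T f) {v : ℝ → ℝ} (hv : ContDiff ℝ ∞ v) {t : ℝ}
    (ht : t < T) :
    HasDerivAt (fun s => e2Ip i (fun x => f (s, x)) v) (e2Ip i (fun x => e2Pdt f (t, x)) v) t := by
  have h1 : E2Sm T (fun q => f q * v q.2 * e2W i q.2) :=
    (h.mul (e2Sm_of_x T hv)).mul (e2Sm_of_x T (e2_dui_contDiff_engW i))
  have h2 := e2_hasDerivAt_integral h1 ht
  have h3 : ∀ x, e2Pdt (fun q => f q * v q.2 * e2W i q.2) (t, x)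
      = e2Pdt f (t, x) * v x * e2W i x := by
    intro x
    rw [e2_dui_pdt_mul_x (fun q => f q * v q.2) (e2W i), e2_dui_pdt_mul_x f v]
  simp only [h3] at h2
  exact h2

/-- time derivative of `<f(t,·), g(t,·)>_i`. -/
theorem e2_hasDerivAt_ip (i : ℕ) (hf : E2Sm T f) (hg : E2Sm T g) {t : ℝ} (ht : t < T) :
    HasDerivAt (fun s => e2Ip i (fun x => f (s, x)) (fun x => g (s, x)))
      (e2Ip i (fun x => e2Pdt f (t, x)) (fun x => g (t, x))
        + e2Ip i (fun x => f (t, x)) (fun x => e2Pdt g (t, x))) t := by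
  have h1 : E2Sm T (fun q => f q * g q * e2W i q.2) :=
    (hf.mul hg).mul (e2Sm_of_x T (e2_dui_contDiff_engW i))
  have h2 := e2_hasDerivAt_integral h1 ht
  have h3 : ∀ x, e2Pdt (fun q => f q * g q * e2W i q.2) (t, x)
      = e2Pdt f (t, x) * g (t, x) * e2W i x + f (t, x) * e2Pdt g (t, x) * e2W i x := by
    intro x
    rw [e2_dui_pdt_mul_x (fun q => f q * g q) (e2W i), e2Pdt_mul hf hg t ht x, add_mul]
  simp only [h3] at h2
  have cW := e2W_continuous i
  have c1 := (hf.slice_x ht).continuous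
  have c2 := (hg.slice_x ht).continuous
  have c3 := (hf.pdt.slice_x ht).continuous
  have c4 := (hg.pdt.slice_x ht).continuous
  have e := intervalIntegral.integral_add (μ := MeasureTheory.volume)
    (f := fun x => e2Pdt f (t, x) * g (t, x) * e2W i x)
    (g := fun x => f (t, x) * e2Pdt g (t, x) * e2W i x)
    (((c3.mul c2).mul cW).intervalIntegrable 0 1) (((c1.mul c4).mul cW).intervalIntegrable 0 1)
  rw [e] at h2
  exact h2

/-- smoothness in time of `<f(t,·), v>_i`. -/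
theorem e2_contDiffOn_ip_left (i : ℕ) (h : E2Sm T f) {v : ℝ → ℝ} (hv : ContDiff ℝ ∞ v) :
    ContDiffOn ℝ ∞ (fun s => e2Ip i (fun x => f (s, x)) v) (Iio T) := by
  have h1 : E2Sm T (fun q => f q * v q.2 * e2W i q.2) :=
    (h.mul (e2Sm_of_x T hv)).mul (e2Sm_of_x T (e2_dui_contDiff_engW i))
  exact e2_contDiffOn_integral h1

/-- **time derivative of the level-`j` energy.**
`N_j(u(s,·))^2 = ∫ (e2Pd 0 j u (s,x))^2 w_j(x) dx` (`e2Pd_eq_iteratedDeriv`), apply `e2_hasDerivAt_ip` to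
`f = g = e2Pd 0 j u`; `e2Pdt (e2Pd 0 j u) = e2Pd 1 j u` on `U` (`E2Sm.pdt_pd`) and
`e2Pd 1 j u (t,x) = iteratedDeriv j (fun y => e2Pdt u (t,y)) x`. -/
theorem e2_hasDerivAt_Nsq (m j : ℕ) {u : ℝ × ℝ → ℝ} (h : E2Sm T u) {t : ℝ} (ht : t < T) :
    HasDerivAt (fun s => e2Nsq m j (fun x => u (s, x)))
      (2 * e2Ip (m + j) (iteratedDeriv j (fun x => e2Pdt u (t, x))) (iteratedDeriv j (fun x => u (t, x)))) t := by
  have h0 : ∀ s, (fun x => e2Pd 0 j u (s, x)) = iteratedDeriv j (fun x => u (s, x)) := by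
    intro s
    funext x
    exact e2Pd_eq_iteratedDeriv 0 j u s x
  have h1 : (fun x => e2Pdt (e2Pd 0 j u) (t, x)) = iteratedDeriv j (fun x => e2Pdt u (t, x)) := by
    funext x
    rw [h.pdt_pd 0 j t ht x]
    exact e2Pd_eq_iteratedDeriv 1 j u t x
  have h2 := e2_hasDerivAt_ip (m + j) (h.pd 0 j) (h.pd 0 j) ht
  simp only [h0, h1] at h2
  rw [e2Ip_comm (m + j) (iteratedDeriv j (fun x => u (t, x))), ← two_mul] at h2
  exact h2

end Claimed.Agent.R324
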