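import Claimed.Agent.R324.E2.Gard

/-
Row 324, module E2: fixed time estimates, tested with `T_j` (scalar lemmas): the nonlocal term.
Model: R325/EngGard.lean (section "R325/EngGard.lean" of Claimed/Agent/R325/Pk27.lean) and `eng_Rfix_bound` in R325/EngFix.lean (same pack).
Everywhere: `<f, T_j v>_m = <∂^j f, ∂^j v>_{m+j}` (`e2_ip_T`), `iteratedDeriv l (deriv u) = iteratedDeriv (l+1) u` (`e2_gard_aux_iter`).
-/

set_option autoImplicit false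

namespace Claimed.Agent.R324

open Set
open scoped ContDiff

/-- **The nonlocal term** (port of `eng_Rfix_bound`).
`|∫ κ u| ≤ A sup|u|` (`e2_abs_integral_mul_le`), `sup |u|^2 ≤ C_S Σ_{l<m+3} N^m_l(u)^2` (`e2_sobolev m 0`),
`<e, T_j v>_{m'} = <∂^j e, ∂^j v>_{m'+j}`, `|.| ≤ A N^{m'}_j(v)` (Cauchy-Schwarz `e2Ip_abs_le_sqrt` + `e2Nsq_le_sup`).
So the product is `≤ A^2 C_S^{1/2} (Σ_{l<m+3} N_l(u)^2)^{1/2} N_j(v) ≤ C (Σ_{l<m+3} N_l(u)^2 + N_j(v)^2)`. -/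
theorem e2_nonloc_bound (m m' j : ℕ) (A : ℝ) : ∃ C : ℝ, 0 ≤ C ∧ ∀ (e κ u v : ℝ → ℝ),
    ContDiff ℝ ∞ e → ContDiff ℝ ∞ κ → ContDiff ℝ ∞ u → ContDiff ℝ ∞ v →
    (∀ x ∈ Icc (0 : ℝ) 1, |iteratedDeriv j e x| ≤ A) →
    (∀ x ∈ Icc (0 : ℝ) 1, |κ x| ≤ A) →
    |(∫ ξ in (0 : ℝ)..1, κ ξ * u ξ) * e2Ip m' e (e2T m' j v)|
      ≤ C * (∑ l ∈ Finset.range (m + 3), e2Nsq m l u + e2Nsq m' j v) := by
  obtain ⟨CS, hCS, hsob⟩ := e2_sobolev m 0
  refine ⟨A ^ 2 * (CS + 1), by positivity, ?_⟩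
  intro e κ u v he hκ hu hv hAe hAκ
  have hA0 : 0 ≤ A := (abs_nonneg _).trans (hAκ 0 ⟨le_rfl, zero_le_one⟩)
  set Su : ℝ := ∑ l ∈ Finset.range (m + 3), e2Nsq m l u with hSu
  have hS0 : 0 ≤ Su := Finset.sum_nonneg fun l _ => e2Nsq_nonneg m l u
  have hNv0 := e2Nsq_nonneg m' j v
  have hu_sup : ∀ x ∈ Icc (0 : ℝ) 1, |u x| ≤ Real.sqrt (CS * Su) := by
    intro x hx
    have h1 := hsob u hu x hx
    rw [iteratedDeriv_zero] at h1
    have h2 : 2 * 0 + m + 3 = m + 3 := by omega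
    rw [h2] at h1
    exact Real.abs_le_sqrt h1
  have h1 := e2_abs_integral_mul_le hκ.continuous hu.continuous hAκ hu_sup
  have hce : Continuous (iteratedDeriv j e) :=
    he.continuous_iteratedDeriv j (by exact_mod_cast le_top)
  have hcv : Continuous (iteratedDeriv j v) :=
    hv.continuous_iteratedDeriv j (by exact_mod_cast le_top)
  have h2 : |e2Ip m' e (e2T m' j v)| ≤ A * Real.sqrt (e2Nsq m' j v) := by
    rw [e2_ip_T m' j he hv]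
    refine (e2Ip_abs_le_sqrt (m' + j) hce hcv).trans ?_
    refine mul_le_mul_of_nonneg_right ?_ (Real.sqrt_nonneg _)
    have h3 : e2Ip (m' + j) (iteratedDeriv j e) (iteratedDeriv j e) ≤ A ^ 2 :=
      e2Nsq_le_sup m' j he hAe
    calc Real.sqrt _ ≤ Real.sqrt (A ^ 2) := Real.sqrt_le_sqrt h3
      _ = A := Real.sqrt_sq hA0
  rw [abs_mul]
  have ha2 : Real.sqrt (CS * Su) ^ 2 = CS * Su := Real.sq_sqrt (mul_nonneg hCS hS0)
  have hb2 : Real.sqrt (e2Nsq m' j v) ^ 2 = e2Nsq m' j v := Real.sq_sqrt hNv0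
  have ha0 := Real.sqrt_nonneg (CS * Su)
  have hb0 := Real.sqrt_nonneg (e2Nsq m' j v)
  set a : ℝ := Real.sqrt (CS * Su) with ha
  set b : ℝ := Real.sqrt (e2Nsq m' j v) with hb
  have hA2 : 0 ≤ A ^ 2 := sq_nonneg A
  calc |∫ ξ in (0 : ℝ)..1, κ ξ * u ξ| * |e2Ip m' e (e2T m' j v)| ≤ (A * a) * (A * b) :=
        mul_le_mul h1 h2 (abs_nonneg _) (mul_nonneg hA0 ha0)
    _ = A ^ 2 * (a * b) := by ring
    _ ≤ A ^ 2 * (a ^ 2 + b ^ 2) := by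
        refine mul_le_mul_of_nonneg_left ?_ hA2
        nlinarith [sq_nonneg (a - b), sq_nonneg a, sq_nonneg b]
    _ ≤ A ^ 2 * ((CS + 1) * (Su + e2Nsq m' j v)) := by
        refine mul_le_mul_of_nonneg_left ?_ hA2
        rw [ha2, hb2]
        nlinarith [mul_nonneg hCS hNv0]
    _ = A ^ 2 * (CS + 1) * (Su + e2Nsq m' j v) := by ring

end Claimed.Agent.R324
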