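import Claimed.Agent.R324.E2.Split
import Claimed.Agent.R324.E2.CoupA
import Claimed.Agent.R324.E2.CoupB
import Claimed.Agent.R324.E2.Nonloc

/-
Row 324, module E2: the fixed time inequality for the system:  `Σ_j Σ_{i ≤ J} <(S₀ u)_j, T_i u_j>_{m_j} ≤ C E_J(u)`.
Model: `eng_fixed` in R325/EngFix.lean (Claimed/Agent/R325/Pk27.lean); here the operator is of second order, the good term of level `i` is
`N_{i+1}^2` and the errors only involve the levels `≤ i`, so no `ε`-weight on the top level is needed.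
-/

set_option autoImplicit false

namespace Claimed.Agent.R324

open Set
open scoped ContDiff

/-- the two cases together, in the notation of the system. -/
theorem e2_coup_bound (μ j : ℕ) (A : ℝ) (p k : Fin 3) : ∃ C : ℝ, 0 ≤ C ∧ ∀ (c u v : ℝ → ℝ),
    ContDiff ℝ ∞ c → ContDiff ℝ ∞ u → ContDiff ℝ ∞ v →
    (∀ l ≤ j, ∀ x ∈ Icc (0 : ℝ) 1, |iteratedDeriv l c x| ≤ A) →
    |e2Ip (e2m μ p) (fun x => e2s p k x * c x * u x) (e2T (e2m μ p) j v)|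
      ≤ C * (∑ i ∈ Finset.range (j + 1), e2Nsq (e2m μ k) i u + e2Nsq (e2m μ p) j v) := by
  by_cases h : k = 2 ∧ p ≠ 2
  · obtain ⟨C, hC, H⟩ := e2_coup_B μ j A
    refine ⟨C, hC, fun c u v hc hu hv hA => ?_⟩
    have h1 : e2m μ p = μ := by simp [e2m, h.2]
    have h2 : e2m μ k = μ + 2 := by simp [e2m, h.1]
    have h3 : (fun x => e2s p k x * c x * u x) = fun x => x * (1 - x) * c x * u x := by
      funext x
      simp [e2s, h]
    rw [h1, h2, h3]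
    exact H c u v hc hu hv hA
  · have hle : e2m μ k ≤ e2m μ p := by
      unfold e2m
      by_cases hk : k = 2
      · have hp : p = 2 := by
          by_contra hp
          exact h ⟨hk, hp⟩
        simp [hk, hp]
      · simp only [hk, if_false]
        split_ifs <;> omega
    obtain ⟨C, hC, H⟩ := e2_coup_A (e2m μ k) (e2m μ p) j hle A
    refine ⟨C, hC, fun c u v hc hu hv hA => ?_⟩
    have h3 : (fun x => e2s p k x * c x * u x) = fun x => c x * u x := by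
      funext x
      simp [e2s, h]
    rw [h3]
    exact H c u v hc hu hv hA

/-- **One term of the fixed time inequality.**  Let `m = e2m μ j`, `w = T_i u_j`.  By `e2_ip_Sfix`:
* `-<L_a u_j, w>_m ≤ -(m₀/2) N_{i+1}^2 + C₁ Σ_{l ≤ i} N_l(u_j)^2`  (`e2_garding m i m₀ A`),
* `<φ b_j u_j', w>_m ≤ (m₀/2) N_{i+1}^2 + C₂ Σ_{l ≤ i} N_l(u_j)^2`  (`e2_first_bound m i A (m₀/2)`),
* `<s_jk c_jk u_k, w>_m ≤ C₃(k) (Σ_{l ≤ i} N_l(u_k)^2 + N_i(u_j)^2)`  (`e2_coup_bound μ i A j k`),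
* `(∫ κ_{i'l} u_l) <e_{i'j}, w>_m ≤ C₄(l) (Σ_{l' < m_l+3} N_{l'}(u_l)^2 + N_i(u_j)^2)`  (`e2_nonloc_bound (e2m μ l) m i A`).
All the sums are `≤ E_J(u)` (`e2_sum_Nsq_le_E`, `e2Nsq_le_E`; `i ≤ J`, `e2m μ l + 3 ≤ μ + 5 ≤ J + 1`).
The hypotheses `∀ l ≤ J` of `E2Coef` are used for `l ≤ i ≤ J`. -/
theorem e2_fixed_term (μ n J : ℕ) (hJ : μ + 4 ≤ J) (m₀ A : ℝ) (hm : 0 < m₀) (j : Fin 3) (i : ℕ)
    (hi : i ≤ J) : ∃ C : ℝ, 0 ≤ C ∧ ∀ (a : ℝ → ℝ) (b : Fin 3 → ℝ → ℝ) (c : Fin 3 → Fin 3 → ℝ → ℝ)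
      (e κ : Fin n → Fin 3 → ℝ → ℝ) (u : Fin 3 → ℝ → ℝ), E2Coef n J m₀ A a b c e κ →
      (∀ j, ContDiff ℝ ∞ (u j)) →
      e2Ip (e2m μ j) (e2Sfix μ a b c e κ u j) (e2T (e2m μ j) i (u j)) ≤ C * e2E μ J u := by
  classical
  obtain ⟨C1, hC1, H1⟩ := e2_garding (e2m μ j) i m₀ A hm
  obtain ⟨C2, hC2, H2⟩ := e2_first_bound (e2m μ j) i A (m₀ / 2) (by positivity)
  have H3 := fun k : Fin 3 => e2_coup_bound μ i A j k
  choose C3 hC3 H3 using H3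
  have H4 := fun l : Fin 3 => e2_nonloc_bound (e2m μ l) (e2m μ j) i A
  choose C4 hC4 H4 using H4
  refine ⟨C1 + C2 + ∑ k, 2 * C3 k + ∑ _i' : Fin n, ∑ l, 2 * C4 l,
    add_nonneg (add_nonneg (add_nonneg hC1 hC2)
      (Finset.sum_nonneg fun k _ => mul_nonneg (by norm_num) (hC3 k)))
      (Finset.sum_nonneg fun _ _ => Finset.sum_nonneg fun l _ => mul_nonneg (by norm_num) (hC4 l)), ?_⟩
  intro a b c e κ u hco hu
  have hE0 : 0 ≤ e2E μ J u := e2E_nonneg μ J u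
  have hw : ContDiff ℝ ∞ (e2T (e2m μ j) i (u j)) := e2T_contDiff _ _ (hu j)
  rw [e2_ip_Sfix μ (e2m μ j) hco.sa hco.sb hco.sc hco.se hco.sk hu j hw.continuous]
  have hS : ∀ k : Fin 3, ∑ l ∈ Finset.range (i + 1), e2Nsq (e2m μ k) l (u k) ≤ e2E μ J u :=
    fun k => e2_sum_Nsq_le_E μ J u k (by omega)
  have hS' : ∀ l : Fin 3, ∑ l' ∈ Finset.range (e2m μ l + 3), e2Nsq (e2m μ l) l' (u l) ≤ e2E μ J u := by
    intro l
    refine e2_sum_Nsq_le_E μ J u l ?_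
    unfold e2m
    split_ifs <;> omega
  have hN : e2Nsq (e2m μ j) i (u j) ≤ e2E μ J u := e2Nsq_le_E μ J u j hi
  have h1 := H1 a (u j) hco.sa (hu j) hco.pos (fun l hl => hco.ba l (hl.trans hi))
  have h2 := (le_abs_self _).trans
    (H2 (b j) (u j) (hco.sb j) (hu j) (fun l hl => hco.bb j l (hl.trans hi)))
  have h3 : ∑ k, e2Ip (e2m μ j) (fun x => e2s j k x * c j k x * u k x) (e2T (e2m μ j) i (u j))
      ≤ ∑ k, 2 * C3 k * e2E μ J u := by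
    refine Finset.sum_le_sum fun k _ => ?_
    refine ((le_abs_self _).trans (H3 k (c j k) (u k) (u j) (hco.sc j k) (hu k) (hu j)
      (fun l hl => hco.bc j k l (hl.trans hi)))).trans ?_
    have h : ∑ l ∈ Finset.range (i + 1), e2Nsq (e2m μ k) l (u k) + e2Nsq (e2m μ j) i (u j)
        ≤ 2 * e2E μ J u := by linarith [hS k, hN]
    calc C3 k * (∑ l ∈ Finset.range (i + 1), e2Nsq (e2m μ k) l (u k) + e2Nsq (e2m μ j) i (u j))
        ≤ C3 k * (2 * e2E μ J u) := mul_le_mul_of_nonneg_left h (hC3 k)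
      _ = 2 * C3 k * e2E μ J u := by ring
  have h4 : ∑ i', ∑ l, (∫ ξ in (0 : ℝ)..1, κ i' l ξ * u l ξ)
        * e2Ip (e2m μ j) (e i' j) (e2T (e2m μ j) i (u j))
      ≤ ∑ _i' : Fin n, ∑ l, 2 * C4 l * e2E μ J u := by
    refine Finset.sum_le_sum fun i' _ => Finset.sum_le_sum fun l _ => ?_
    refine ((le_abs_self _).trans (H4 l (e i' j) (κ i' l) (u l) (u j) (hco.se i' j) (hco.sk i' l)
      (hu l) (hu j) (hco.be i' j i hi) (hco.bk i' l))).trans ?_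
    have h : ∑ l' ∈ Finset.range (e2m μ l + 3), e2Nsq (e2m μ l) l' (u l) + e2Nsq (e2m μ j) i (u j)
        ≤ 2 * e2E μ J u := by linarith [hS' l, hN]
    calc C4 l * (∑ l' ∈ Finset.range (e2m μ l + 3), e2Nsq (e2m μ l) l' (u l)
          + e2Nsq (e2m μ j) i (u j))
        ≤ C4 l * (2 * e2E μ J u) := mul_le_mul_of_nonneg_left h (hC4 l)
      _ = 2 * C4 l * e2E μ J u := by ring
  have h5 := mul_le_mul_of_nonneg_left (hS j) hC1
  have h6 := mul_le_mul_of_nonneg_left (hS j) hC2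
  rw [add_mul, add_mul, add_mul, Finset.sum_mul, Finset.sum_mul]
  simp only [Finset.sum_mul]
  linarith

/-- **The fixed time inequality.** -/
theorem e2_fixed (μ n J : ℕ) (hJ : μ + 4 ≤ J) (m₀ A : ℝ) (hm : 0 < m₀) :
    ∃ C : ℝ, 0 ≤ C ∧ ∀ (a : ℝ → ℝ) (b : Fin 3 → ℝ → ℝ) (c : Fin 3 → Fin 3 → ℝ → ℝ)
      (e κ : Fin n → Fin 3 → ℝ → ℝ) (u : Fin 3 → ℝ → ℝ), E2Coef n J m₀ A a b c e κ →
      (∀ j, ContDiff ℝ ∞ (u j)) →
      ∑ j, ∑ i ∈ Finset.range (J + 1),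
          e2Ip (e2m μ j) (e2Sfix μ a b c e κ u j) (e2T (e2m μ j) i (u j)) ≤ C * e2E μ J u := by
  classical
  have H : ∀ (j : Fin 3) (i : ℕ), ∃ C : ℝ, 0 ≤ C ∧ (i ≤ J → ∀ (a : ℝ → ℝ) (b : Fin 3 → ℝ → ℝ)
      (c : Fin 3 → Fin 3 → ℝ → ℝ) (e κ : Fin n → Fin 3 → ℝ → ℝ) (u : Fin 3 → ℝ → ℝ),
      E2Coef n J m₀ A a b c e κ → (∀ j, ContDiff ℝ ∞ (u j)) →
      e2Ip (e2m μ j) (e2Sfix μ a b c e κ u j) (e2T (e2m μ j) i (u j)) ≤ C * e2E μ J u) := by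
    intro j i
    by_cases hi : i ≤ J
    · obtain ⟨C, hC, h⟩ := e2_fixed_term μ n J hJ m₀ A hm j i hi
      exact ⟨C, hC, fun _ => h⟩
    · exact ⟨0, le_rfl, fun h => absurd h hi⟩
  choose Cf hCf0 hCf using H
  refine ⟨∑ j, ∑ i ∈ Finset.range (J + 1), Cf j i,
    Finset.sum_nonneg fun j _ => Finset.sum_nonneg fun i _ => hCf0 j i, ?_⟩
  intro a b c e κ u hco hu
  rw [Finset.sum_mul]
  refine Finset.sum_le_sum fun j _ => ?_
  rw [Finset.sum_mul]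
  refine Finset.sum_le_sum fun i hi => ?_
  exact hCf j i (Nat.lt_succ_iff.1 (Finset.mem_range.1 hi)) a b c e κ u hco hu

end Claimed.Agent.R324
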