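import Mathlib

/-
Row 324, module E2 (copy of the row 325 engine): Gronwall.
-/

set_option autoImplicit false

namespace Claimed.Agent.R324

open Set

/-- **Gronwall** in the form we use.  `φ(t) = E(t) e^{-C₁(t-s₀)} - C₂ (t-s₀)` has `φ' = (E' - C₁ E) e^{..} - C₂ ≤ 0` on `[s₀,s₂]`, so it is
antitone there (`antitoneOn_of_deriv_nonpos` or the mean value theorem), `φ(t) ≤ φ(s₀) ≤ 0`. -/
theorem e2_gronwall {E E' : ℝ → ℝ} {s₀ s₂ C₁ C₂ : ℝ} (hC₁ : 0 ≤ C₁) (hC₂ : 0 ≤ C₂)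
    (hd : ∀ t ∈ Icc s₀ s₂, HasDerivAt E (E' t) t) (h0 : E s₀ ≤ 0)
    (hineq : ∀ t ∈ Icc s₀ s₂, E' t ≤ C₁ * E t + C₂) :
    ∀ t ∈ Icc s₀ s₂, E t ≤ C₂ * (s₂ - s₀) * Real.exp (C₁ * (s₂ - s₀)) := by
  intro t ht
  set φ : ℝ → ℝ := fun s => E s * Real.exp (-(C₁ * (s - s₀))) - C₂ * (s - s₀) with hφ
  have hφd : ∀ s ∈ Icc s₀ s₂, HasDerivAt φ
      (E' s * Real.exp (-(C₁ * (s - s₀))) + E s * (Real.exp (-(C₁ * (s - s₀))) * (-(C₁ * 1)))
        - C₂ * 1) s := by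
    intro s hs
    have h1 : HasDerivAt (fun s => -(C₁ * (s - s₀))) (-(C₁ * 1)) s :=
      (((hasDerivAt_id s).sub_const s₀).const_mul C₁).neg
    have h2 := h1.exp
    have h3 : HasDerivAt (fun s => C₂ * (s - s₀)) (C₂ * 1) s :=
      ((hasDerivAt_id s).sub_const s₀).const_mul C₂
    exact ((hd s hs).mul h2).sub h3
  have hanti : AntitoneOn φ (Icc s₀ s₂) := by
    apply antitoneOn_of_deriv_nonpos (convex_Icc s₀ s₂)
    · intro s hs
      exact (hφd s hs).continuousAt.continuousWithinAt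
    · intro s hs
      rw [interior_Icc] at hs
      exact (hφd s (Ioo_subset_Icc_self hs)).differentiableAt.differentiableWithinAt
    · intro s hs
      rw [interior_Icc] at hs
      have hs' := Ioo_subset_Icc_self hs
      rw [(hφd s hs').deriv]
      have hexp_pos := Real.exp_pos (-(C₁ * (s - s₀)))
      have hexp_le : Real.exp (-(C₁ * (s - s₀))) ≤ 1 := by
        rw [Real.exp_le_one_iff]
        have : 0 ≤ C₁ * (s - s₀) := mul_nonneg hC₁ (by linarith [hs'.1])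
        linarith
      have h := hineq s hs'
      have h4 : (E' s - C₁ * E s) * Real.exp (-(C₁ * (s - s₀))) ≤ C₂ * Real.exp (-(C₁ * (s - s₀))) :=
        mul_le_mul_of_nonneg_right (by linarith) hexp_pos.le
      have h5 : C₂ * Real.exp (-(C₁ * (s - s₀))) ≤ C₂ * 1 := mul_le_mul_of_nonneg_left hexp_le hC₂
      nlinarith
  have hs₀ : s₀ ∈ Icc s₀ s₂ := ⟨le_refl _, le_trans ht.1 ht.2⟩
  have hle : φ t ≤ φ s₀ := hanti hs₀ ht ht.1
  have hφ0 : φ s₀ = E s₀ := by simp [hφ]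
  have h6 : E t * Real.exp (-(C₁ * (t - s₀))) ≤ C₂ * (t - s₀) := by
    have : φ t = E t * Real.exp (-(C₁ * (t - s₀))) - C₂ * (t - s₀) := rfl
    linarith
  have h7 : E t = (E t * Real.exp (-(C₁ * (t - s₀)))) * Real.exp (C₁ * (t - s₀)) := by
    rw [mul_assoc, ← Real.exp_add]; simp
  have h8 : 0 ≤ C₂ * (t - s₀) := mul_nonneg hC₂ (by linarith [ht.1])
  have h9 : C₂ * (t - s₀) ≤ C₂ * (s₂ - s₀) := mul_le_mul_of_nonneg_left (by linarith [ht.2]) hC₂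
  have h10 : Real.exp (C₁ * (t - s₀)) ≤ Real.exp (C₁ * (s₂ - s₀)) :=
    Real.exp_le_exp.2 (mul_le_mul_of_nonneg_left (by linarith [ht.2]) hC₁)
  rw [h7]
  calc (E t * Real.exp (-(C₁ * (t - s₀)))) * Real.exp (C₁ * (t - s₀))
      ≤ (C₂ * (t - s₀)) * Real.exp (C₁ * (t - s₀)) :=
        mul_le_mul_of_nonneg_right h6 (Real.exp_pos _).le
    _ ≤ (C₂ * (s₂ - s₀)) * Real.exp (C₁ * (s₂ - s₀)) :=
        mul_le_mul h9 h10 (Real.exp_pos _).le (le_trans h8 h9)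

end Claimed.Agent.R324
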