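import Claimed.Agent.R324.E2.Op
import Claimed.Agent.R324.E2.Fix
import Claimed.Agent.R324.E2.Gron

/-
Row 324, module E2 (port of R325/EngEnergy): the energy lemma (uniform in the function `u`, which is any smooth function satisfying the equation
"tested with `T_i u_j`" up to an error `ρ`).
-/

set_option autoImplicit false

namespace Claimed.Agent.R324

open Set
open scoped ContDiff

/-- positive lower bound of `a` on compact rectangles. -/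
theorem e2_a_min (D : E2Data) (s₀ : ℝ) {s₂ : ℝ} (h₂ : s₂ < D.T) :
    ∃ m : ℝ, 0 < m ∧ ∀ t ∈ Icc s₀ s₂, ∀ x ∈ Icc (0 : ℝ) 1, m ≤ D.a (t, x) := by
  by_cases hne : s₀ ≤ s₂
  · have hK : IsCompact (Icc s₀ s₂ ×ˢ Icc (0 : ℝ) 1) := isCompact_Icc.prod isCompact_Icc
    have hKne : (Icc s₀ s₂ ×ˢ Icc (0 : ℝ) 1).Nonempty :=
      ⟨(s₀, 0), ⟨⟨le_refl _, hne⟩, ⟨le_refl _, zero_le_one⟩⟩⟩
    have hsub : Icc s₀ s₂ ×ˢ Icc (0 : ℝ) 1 ⊆ Iio D.T ×ˢ (univ : Set ℝ) := by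
      rintro ⟨t, x⟩ ⟨ht, _⟩
      exact ⟨lt_of_le_of_lt ht.2 h₂, mem_univ _⟩
    obtain ⟨q, hq, hmin⟩ := hK.exists_isMinOn hKne (D.ha.continuousOn.mono hsub)
    refine ⟨D.a q, ?_, ?_⟩
    · have := D.hpos q.1 (lt_of_le_of_lt hq.1.2 h₂) q.2 hq.2
      simpa using this
    · intro t ht x hx
      exact hmin (show (t, x) ∈ Icc s₀ s₂ ×ˢ Icc (0 : ℝ) 1 from ⟨ht, hx⟩)
  · refine ⟨1, one_pos, ?_⟩
    intro t ht
    exact absurd (le_trans ht.1 ht.2) hne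

theorem e2_energy_aux_bdd {T : ℝ} {f : ℝ × ℝ → ℝ} (h : E2Sm T f) (s₀ : ℝ) {s₂ : ℝ} (h₂ : s₂ < T)
    (l : ℕ) : ∃ C : ℝ, 0 ≤ C ∧ ∀ t ∈ Icc s₀ s₂, ∀ x ∈ Icc (0 : ℝ) 1,
      |iteratedDeriv l (fun y => f (t, y)) x| ≤ C := by
  obtain ⟨C, hC0, hC⟩ := (h.pd 0 l).bdd s₀ h₂
  refine ⟨C, hC0, fun t ht x hx => ?_⟩
  have := hC t ht x hx
  rw [e2Pd_eq_iteratedDeriv] at this
  simpa using this

/-- one constant for a finite family of smooth functions and the orders `l ≤ J`. -/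
theorem e2_fam_bound {κ : Type} [Fintype κ] {T : ℝ} (f : κ → ℝ × ℝ → ℝ) (hf : ∀ i, E2Sm T (f i))
    (s₀ : ℝ) {s₂ : ℝ} (h₂ : s₂ < T) (J : ℕ) :
    ∃ A : ℝ, 0 ≤ A ∧ ∀ i, ∀ l ≤ J, ∀ t ∈ Icc s₀ s₂, ∀ x ∈ Icc (0 : ℝ) 1,
      |iteratedDeriv l (fun y => f i (t, y)) x| ≤ A := by
  choose C hC0 hC using fun (i : κ) l => e2_energy_aux_bdd (hf i) s₀ h₂ l
  refine ⟨∑ i, ∑ l ∈ Finset.range (J + 1), C i l,
    Finset.sum_nonneg (fun i _ => Finset.sum_nonneg (fun l _ => hC0 i l)), ?_⟩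
  intro i l hl t ht x hx
  have h1 : C i l ≤ ∑ l ∈ Finset.range (J + 1), C i l :=
    Finset.single_le_sum (fun l _ => hC0 i l) (Finset.mem_range.2 (by omega))
  have h2 : ∑ l ∈ Finset.range (J + 1), C i l ≤ ∑ i, ∑ l ∈ Finset.range (J + 1), C i l :=
    Finset.single_le_sum (f := fun i => ∑ l ∈ Finset.range (J + 1), C i l)
      (fun i _ => Finset.sum_nonneg (fun l _ => hC0 i l)) (Finset.mem_univ i)
  linarith [hC i l t ht x hx]

/-- the coefficients at the times `t ∈ [s₀,s₂]` satisfy `E2Coef` with uniform constants. -/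
theorem e2_coef_bound (D : E2Data) (s₀ : ℝ) {s₂ : ℝ} (h₂ : s₂ < D.T) (J : ℕ) :
    ∃ m₀ A : ℝ, 0 < m₀ ∧ ∀ t ∈ Icc s₀ s₂, E2Coef D.n J m₀ A (fun y => D.a (t, y))
      (fun j y => D.b j (t, y)) (fun j l y => D.c j l (t, y)) (fun i j y => D.e i j (t, y))
      (fun i j y => D.k i j (t, y)) := by
  obtain ⟨m₀, hm₀, hmin⟩ := e2_a_min D s₀ h₂
  obtain ⟨A1, hA1, h1⟩ := e2_fam_bound (fun _ : Unit => D.a) (fun _ => D.ha) s₀ h₂ J
  obtain ⟨A2, hA2, h2⟩ := e2_fam_bound D.b D.hb s₀ h₂ J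
  obtain ⟨A3, hA3, h3⟩ := e2_fam_bound (fun p : Fin 3 × Fin 3 => D.c p.1 p.2)
    (fun p => D.hc p.1 p.2) s₀ h₂ J
  obtain ⟨A4, hA4, h4⟩ := e2_fam_bound (fun p : Fin D.n × Fin 3 => D.e p.1 p.2)
    (fun p => D.he p.1 p.2) s₀ h₂ J
  obtain ⟨A5, hA5, h5⟩ := e2_fam_bound (fun p : Fin D.n × Fin 3 => D.k p.1 p.2)
    (fun p => D.hk p.1 p.2) s₀ h₂ 0
  refine ⟨m₀, A1 + A2 + A3 + A4 + A5, hm₀, fun t ht => ?_⟩
  have htT : t < D.T := lt_of_le_of_lt ht.2 h₂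
  obtain ⟨sa, sb, sc, se, sk, -⟩ := D.slice htT
  refine ⟨sa, sb, sc, se, sk, fun x hx => hmin t ht x hx, ?_, ?_, ?_, ?_, ?_⟩
  · intro l hl x hx
    linarith [h1 () l hl t ht x hx]
  · intro j l hl x hx
    linarith [h2 j l hl t ht x hx]
  · intro j k l hl x hx
    linarith [h3 (j, k) l hl t ht x hx]
  · intro i j l hl x hx
    linarith [h4 (i, j) l hl t ht x hx]
  · intro i j x hx
    have := h5 (i, j) 0 le_rfl t ht x hx
    rw [iteratedDeriv_zero] at this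
    linarith

/-- time derivative of the energy: by `e2_hasDerivAt_Nsq` and `e2_ip_T` (with `f = ∂_t u_j(t,·)`). -/
theorem e2_hasDerivAt_E {T : ℝ} (μ J : ℕ) {u : Fin 3 → ℝ × ℝ → ℝ} (h : ∀ j, E2Sm T (u j)) {t : ℝ}
    (ht : t < T) :
    HasDerivAt (fun s => e2E μ J (fun j x => u j (s, x)))
      (2 * ∑ j, ∑ i ∈ Finset.range (J + 1),
        e2Ip (e2m μ j) (fun x => e2Pdt (u j) (t, x)) (e2T (e2m μ j) i (fun x => u j (t, x)))) t := by
  have hj : ∀ (j : Fin 3) (i : ℕ), HasDerivAt (fun s => e2Nsq (e2m μ j) i (fun x => u j (s, x)))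
      (2 * e2Ip (e2m μ j) (fun x => e2Pdt (u j) (t, x)) (e2T (e2m μ j) i (fun x => u j (t, x)))) t := by
    intro j i
    rw [e2_ip_T (e2m μ j) i ((h j).pdt.slice_x ht) ((h j).slice_x ht)]
    exact e2_hasDerivAt_Nsq (e2m μ j) i (h j) ht
  have hsum : HasDerivAt
      (fun s => ∑ j, ∑ i ∈ Finset.range (J + 1), e2Nsq (e2m μ j) i (fun x => u j (s, x)))
      (∑ j, ∑ i ∈ Finset.range (J + 1),
        2 * e2Ip (e2m μ j) (fun x => e2Pdt (u j) (t, x)) (e2T (e2m μ j) i (fun x => u j (t, x)))) t :=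
    HasDerivAt.fun_sum (fun j _ => HasDerivAt.fun_sum (fun i _ => hj j i))
  have e2 : (2 * ∑ j, ∑ i ∈ Finset.range (J + 1),
        e2Ip (e2m μ j) (fun x => e2Pdt (u j) (t, x)) (e2T (e2m μ j) i (fun x => u j (t, x))))
      = ∑ j, ∑ i ∈ Finset.range (J + 1),
        2 * e2Ip (e2m μ j) (fun x => e2Pdt (u j) (t, x)) (e2T (e2m μ j) i (fun x => u j (t, x))) := by
    rw [Finset.mul_sum]
    exact Finset.sum_congr rfl fun j _ => Finset.mul_sum _ _ _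
  rw [e2]
  exact hsum

theorem e2_energy_aux_Nsq_zero (m j : ℕ) {u : ℝ → ℝ} (h : ∀ x, u x = 0) : e2Nsq m j u = 0 := by
  have hu : u = fun _ => (0 : ℝ) := funext h
  have h0 : iteratedDeriv j u = fun _ => (0 : ℝ) := by
    rw [hu]
    funext x
    simp
  unfold e2Nsq
  rw [h0]
  exact e2Ip_zero_left (m + j) _

/-- **Energy lemma.**
Let `(m₀, A)` be given by `e2_coef_bound`, `C` by `e2_fixed`.  `E(t) = e2E μ J (u(t,·))`.
By `e2_hasDerivAt_E`, `E'(t) = 2 Σ_j Σ_{i ≤ J} p_ji`, `p_ji = <∂_t u_j, T_i u_j>_{m_j}`.  By the hypothesis and linearity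
`p_ji ≤ <(S₀ u)_j, T_i u_j>_{m_j} + N_i(u_j)^2 + ρ`.  With `e2_fixed`: `E' ≤ 2 (C E + E + 3 (J+1) ρ)`.  `E(s₀) = 0`.  `e2_gronwall`. -/
theorem e2_energy (D : E2Data) (s₀ : ℝ) {s₂ : ℝ} (h₂ : s₂ < D.T) (J : ℕ) (hJ : D.μ + 4 ≤ J) :
    ∃ C : ℝ, 0 ≤ C ∧ ∀ (u : Fin 3 → ℝ × ℝ → ℝ) (ρ : ℝ), (∀ j, E2Sm D.T (u j)) → 0 ≤ ρ →
      (∀ j x, u j (s₀, x) = 0) →
      (∀ t ∈ Icc s₀ s₂, ∀ j, ∀ i ≤ J,
        e2Ip (D.m j) (fun x => e2Pdt (u j) (t, x) - e2S0 D u j (t, x))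
            (e2T (D.m j) i (fun x => u j (t, x)))
          ≤ e2Nsq (D.m j) i (fun x => u j (t, x)) + ρ) →
      ∀ t ∈ Icc s₀ s₂, e2E D.μ J (fun j x => u j (t, x)) ≤ C * ρ := by
  obtain ⟨m₀, A, hm₀, hco⟩ := e2_coef_bound D s₀ h₂ J
  obtain ⟨C, hC, hfix⟩ := e2_fixed D.μ D.n J hJ m₀ A hm₀
  refine ⟨6 * ((J : ℝ) + 1) * |s₂ - s₀| * Real.exp (2 * (C + 1) * (s₂ - s₀)), by positivity, ?_⟩
  intro u ρ hu hρ hu0 hyp t ht
  have hs : s₀ ≤ s₂ := le_trans ht.1 ht.2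
  -- the hypothesis, split by linearity
  have key : ∀ s ∈ Icc s₀ s₂, ∀ j, ∀ i ≤ J,
      e2Ip (e2m D.μ j) (fun x => e2Pdt (u j) (s, x)) (e2T (e2m D.μ j) i (fun x => u j (s, x)))
        ≤ e2Ip (e2m D.μ j) (fun x => e2S0 D u j (s, x)) (e2T (e2m D.μ j) i (fun x => u j (s, x)))
          + e2Nsq (e2m D.μ j) i (fun x => u j (s, x)) + ρ := by
    intro s hs' j i hi
    have hsT : s < D.T := lt_of_le_of_lt hs'.2 h₂
    have hus : ContDiff ℝ ∞ (fun x => u j (s, x)) := (hu j).slice_x hsT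
    have hT : Continuous (e2T (e2m D.μ j) i (fun x => u j (s, x))) :=
      (e2T_contDiff (e2m D.μ j) i hus).continuous
    have h1 := hyp s hs' j i hi
    have e0 : D.m j = e2m D.μ j := rfl
    rw [e0, e2Ip_sub_left (e2m D.μ j) (((hu j).pdt.slice_x hsT).continuous)
      (((e2Sm_S0 D hu j).slice_x hsT).continuous) hT] at h1
    linarith
  -- Gronwall
  have hG := e2_gronwall (E := fun s => e2E D.μ J (fun j x => u j (s, x)))
    (E' := fun s => 2 * ∑ j, ∑ i ∈ Finset.range (J + 1),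
        e2Ip (e2m D.μ j) (fun x => e2Pdt (u j) (s, x)) (e2T (e2m D.μ j) i (fun x => u j (s, x))))
    (s₀ := s₀) (s₂ := s₂) (C₁ := 2 * (C + 1)) (C₂ := 6 * ((J : ℝ) + 1) * ρ)
    (by positivity) (by positivity)
    (fun s hs' => e2_hasDerivAt_E D.μ J hu (lt_of_le_of_lt hs'.2 h₂))
    (by
      have : e2E D.μ J (fun j x => u j (s₀, x)) = 0 := by
        unfold e2E
        exact Finset.sum_eq_zero fun j _ => Finset.sum_eq_zero fun i _ =>
          e2_energy_aux_Nsq_zero _ i (hu0 j)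
      exact this.le)
    (by
      intro s hs'
      have hsT : s < D.T := lt_of_le_of_lt hs'.2 h₂
      have hf := hfix _ _ _ _ _ (fun j y => u j (s, y)) (hco s hs') (fun j => (hu j).slice_x hsT)
      have hsum : ∑ j, ∑ i ∈ Finset.range (J + 1),
          e2Ip (e2m D.μ j) (fun x => e2Pdt (u j) (s, x)) (e2T (e2m D.μ j) i (fun x => u j (s, x)))
          ≤ ∑ j, ∑ i ∈ Finset.range (J + 1),
            (e2Ip (e2m D.μ j) (fun x => e2S0 D u j (s, x)) (e2T (e2m D.μ j) i (fun x => u j (s, x)))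
              + e2Nsq (e2m D.μ j) i (fun x => u j (s, x)) + ρ) :=
        Finset.sum_le_sum fun j _ => Finset.sum_le_sum fun i hi =>
          key s hs' j i (Nat.lt_succ_iff.1 (Finset.mem_range.1 hi))
      simp only [Finset.sum_add_distrib, Finset.sum_const, Finset.card_range, nsmul_eq_mul,
        Finset.card_univ, Fintype.card_fin] at hsum
      have hE : e2E D.μ J (fun j x => u j (s, x))
          = ∑ j, ∑ i ∈ Finset.range (J + 1), e2Nsq (e2m D.μ j) i (fun x => u j (s, x)) := rfl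
      have hf' : ∑ j, ∑ i ∈ Finset.range (J + 1),
          e2Ip (e2m D.μ j) (fun x => e2S0 D u j (s, x)) (e2T (e2m D.μ j) i (fun x => u j (s, x)))
          ≤ C * e2E D.μ J (fun j x => u j (s, x)) := hf
      rw [← hE] at hsum
      push_cast at hsum
      linarith)
    t ht
  rw [abs_of_nonneg (sub_nonneg.mpr hs)]
  refine hG.trans (le_of_eq ?_)
  ring

end Claimed.Agent.R324
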