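import Claimed.Agent.R324.E2.GalP
import Claimed.Agent.R324.E2.Bern

/-
Row 324, module E2 (port of R325/EngWeak): the limit of the Galerkin solutions solves the equation (weak form + density of polynomials).
-/

set_option autoImplicit false

namespace Claimed.Agent.R324

open Set Filter Topology
open scoped ContDiff

/-- the weak right hand side of the `j`-th equation, all `x`-derivatives on the test function `v`. -/
noncomputable def e2Psi (D : E2Data) (j : Fin 3) (v : ℝ → ℝ) (w : Fin 3 → ℝ × ℝ → ℝ) (t : ℝ) : ℝ :=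
  - e2Ip (D.m j) (fun x => w j (t, x)) (e2Lfix (D.m j) (fun y => D.a (t, y)) v)
    + e2Ip (D.m j) (fun x => w j (t, x)) (e2Dst (D.m j) (fun y => D.b j (t, y) * v y))
    + ∑ k, e2Ip (D.m j) (fun x => e2s j k x * D.c j k (t, x) * w k (t, x)) v
    + ∑ i, ∑ l, (∫ ξ in (0 : ℝ)..1, D.k i l (t, ξ) * w l (t, ξ))
        * e2Ip (D.m j) (fun x => D.e i j (t, x)) v
    + e2Ip (D.m j) (fun x => D.F j (t, x)) v

/-- hygiene (rule 6). -/
theorem e2Weak_hygiene : True := by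
  have _h1 := @e2Psi.eq_1
  trivial

variable {D : E2Data}

/-- `<(S w)_j(t), v>_{m_j} = Ψ_{j,v}(w)(t)` for smooth `w`, `v`. -/
theorem e2Psi_eq {w : Fin 3 → ℝ × ℝ → ℝ} (hw : ∀ j, E2Sm D.T (w j)) (j : Fin 3) {v : ℝ → ℝ}
    (hv : ContDiff ℝ ∞ v) {t : ℝ} (ht : t < D.T) :
    e2Ip (D.m j) (fun x => e2S D w j (t, x)) v = e2Psi D j v w t := by
  have h1 : e2Ip (D.m j) (fun x => e2S D w j (t, x)) v
      = e2Ip (D.m j) (fun x => e2S0 D w j (t, x)) v + e2Ip (D.m j) (fun x => D.F j (t, x)) v :=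
    e2Ip_add_left (D.m j) ((e2Sm_S0 D hw j).slice_x ht).continuous ((D.hF j).slice_x ht).continuous
      hv.continuous
  rw [h1, e2S0_weak D hw j hv ht]
  rfl

/-- for the Galerkin solution and `v ∈ V_N`:  `d/dt <u_j(t), v>_{m_j} = Ψ_{j,v}(u)(t)`. -/
theorem E2Gal.hasDerivAt_ip {N : ℕ} {u : Fin 3 → ℝ × ℝ → ℝ} (h : E2Gal D N u) (j : Fin 3) {v : ℝ → ℝ}
    (hv : E2Poly N v) {t : ℝ} (ht : t < D.T) :
    HasDerivAt (fun s => e2Ip (D.m j) (fun x => u j (s, x)) v) (e2Psi D j v u t) t := by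
  have h1 := e2_hasDerivAt_ip_left (D.m j) (h.sm j) hv.contDiff ht
  have h2 := h.weak j t ht v hv
  rw [e2Ip_sub_left (D.m j) ((h.sm j).pdt.slice_x ht).continuous
    ((e2Sm_S D h.sm j).slice_x ht).continuous
    hv.contDiff.continuous, e2Psi_eq h.sm j hv.contDiff ht] at h2
  have h3 : e2Ip (D.m j) (fun x => e2Pdt (u j) (t, x)) v = e2Psi D j v u t := by linarith
  rw [← h3]
  exact h1

/-- `(t,x) ↦ D_m^* (G(t,·)) (x)` is smooth. -/
theorem e2_Weak_aux_Sm_Dst {T : ℝ} (m : ℕ) {G : ℝ × ℝ → ℝ} (hG : E2Sm T G) :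
    E2Sm T (fun q => e2Dst m (fun y => G (q.1, y)) q.2) := by
  have e : (fun q : ℝ × ℝ => e2Dst m (fun y => G (q.1, y)) q.2)
      = fun q => (-(q.2 * (1 - q.2))) * e2Pdx G q - (((m : ℝ) + 1) - (2 * (m : ℝ) + 2) * q.2) * G q := rfl
  rw [e]
  exact ((e2Sm_phi T).neg.mul hG.pdx).sub ((e2Sm_lin T _ _).mul hG)

theorem e2_Weak_aux_abs4 (a b c d : ℝ) : |-a + b + c + d| ≤ |a| + |b| + |c| + |d| := by
  have h1 := abs_add_le (-a + b + c) d
  have h2 := abs_add_le (-a + b) c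
  have h3 := abs_add_le (-a) b
  rw [abs_neg] at h3
  linarith

/-- one term `<w, g>` of the weak right hand side. -/
theorem e2_Weak_aux_term (m : ℕ) {f f' g : ℝ → ℝ} (hf : Continuous f) (hf' : Continuous f')
    (hg : Continuous g) {η B : ℝ} (hη : ∀ x ∈ Icc (0 : ℝ) 1, |f x - f' x| ≤ η)
    (hB : ∀ x ∈ Icc (0 : ℝ) 1, |g x| ≤ B) : |e2Ip m f g - e2Ip m f' g| ≤ B * η := by
  rw [← e2Ip_sub_left m hf hf' hg, mul_comm]
  exact e2Ip_abs_le_sup m (hf.sub hf') hg hη hB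

/-- `Ψ_{j,v}` is Lipschitz for the sup norm, uniformly for `t` in a compact interval:
`|Ψ(w)(t) - Ψ(w')(t)| ≤ C max_k sup_{x ∈ [0,1]} |w_k(t,x) - w'_k(t,x)|`.   Port of `engPsi_lip` (R325/EngWeak.lean, in Claimed/Agent/R325/Pk28.lean).
The functions `(t,x) ↦ e2Lfix m (a(t,·)) v x` and `(t,x) ↦ e2Dst m (b_j(t,·) v) x` are smooth on `U`, hence bounded on the rectangle: by definition
`e2Dst m (fun y => G (t,y)) x = -(x(1-x)) * e2Pdx G (t,x) - ((m+1) - (2m+2) x) * G (t,x)` (`rfl`) with `G = fun q => D.a q * e2Pdx (fun q => v q.2) q`, resp.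
`G = fun q => D.b j q * v q.2`; closure properties of `E2Sm`, `E2Sm.bdd`.  `|e2s j k x| ≤ 1` on `[0,1]`.
Then `e2Ip_abs_le_sup`, `e2_abs_integral_mul_le`, linearity (`e2Ip_sub_left`, `intervalIntegral.integral_sub`). -/
theorem e2Psi_lip (D : E2Data) (j : Fin 3) {v : ℝ → ℝ} (hv : ContDiff ℝ ∞ v) (s₀ : ℝ) {s₂ : ℝ}
    (h₂ : s₂ < D.T) :
    ∃ C : ℝ, 0 ≤ C ∧ ∀ (w w' : Fin 3 → ℝ × ℝ → ℝ) (η : ℝ), (∀ k, E2Sm D.T (w k)) →
      (∀ k, E2Sm D.T (w' k)) → ∀ t ∈ Icc s₀ s₂,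
      (∀ k, ∀ x ∈ Icc (0 : ℝ) 1, |w k (t, x) - w' k (t, x)| ≤ η) →
      |e2Psi D j v w t - e2Psi D j v w' t| ≤ C * η := by
  have hvS : E2Sm D.T (fun q : ℝ × ℝ => v q.2) := e2Sm_of_x D.T hv
  have hv' : ContDiff ℝ ∞ (deriv v) := (contDiff_infty_iff_deriv.1 hv).2
  have hG1 : E2Sm D.T (fun q : ℝ × ℝ => D.a q * deriv v q.2) := D.ha.mul (e2Sm_of_x D.T hv')
  have hG2 : E2Sm D.T (fun q : ℝ × ℝ => D.b j q * v q.2) := (D.hb j).mul hvS
  have hL1 := e2_Weak_aux_Sm_Dst (D.m j) hG1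
  have hL2 := e2_Weak_aux_Sm_Dst (D.m j) hG2
  obtain ⟨CL, hCL0, hCL⟩ := hL1.bdd s₀ h₂
  obtain ⟨CB, hCB0, hCB⟩ := hL2.bdd s₀ h₂
  obtain ⟨Cv, hCv0, hCv⟩ := hvS.bdd s₀ h₂
  have hsc : ∀ k, E2Sm D.T (fun q : ℝ × ℝ => e2s j k q.2 * D.c j k q) :=
    fun k => (e2Sm_s D.T j k).mul (D.hc j k)
  choose Cc hCc0 hCc using fun k => (hsc k).bdd s₀ h₂
  choose Ck hCk0 hCk using fun i l => (D.hk i l).bdd s₀ h₂
  choose Ce hCe0 hCe using fun i => (D.he i j).bdd s₀ h₂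
  refine ⟨CL + CB + ∑ k, Cv * Cc k + ∑ i, ∑ l, Ck i l * (Ce i * Cv), ?_, ?_⟩
  · have h1 : 0 ≤ ∑ k, Cv * Cc k := Finset.sum_nonneg fun k _ => mul_nonneg hCv0 (hCc0 k)
    have h2 : 0 ≤ ∑ i, ∑ l, Ck i l * (Ce i * Cv) :=
      Finset.sum_nonneg fun i _ => Finset.sum_nonneg fun l _ =>
        mul_nonneg (hCk0 i l) (mul_nonneg (hCe0 i) hCv0)
    linarith
  intro w w' η hw hw' t ht hη
  have htT : t < D.T := lt_of_le_of_lt ht.2 h₂
  have hη0 : 0 ≤ η := le_trans (abs_nonneg _) (hη 0 0 ⟨le_refl _, zero_le_one⟩)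
  have hwc : ∀ k, Continuous (fun x => w k (t, x)) := fun k => ((hw k).slice_x htT).continuous
  have hwc' : ∀ k, Continuous (fun x => w' k (t, x)) := fun k => ((hw' k).slice_x htT).continuous
  have hL1c : Continuous (e2Lfix (D.m j) (fun y => D.a (t, y)) v) := (hL1.slice_x htT).continuous
  have hL2c : Continuous (e2Dst (D.m j) (fun y => D.b j (t, y) * v y)) := (hL2.slice_x htT).continuous
  have h1 : |e2Ip (D.m j) (fun x => w j (t, x)) (e2Lfix (D.m j) (fun y => D.a (t, y)) v)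
      - e2Ip (D.m j) (fun x => w' j (t, x)) (e2Lfix (D.m j) (fun y => D.a (t, y)) v)| ≤ CL * η :=
    e2_Weak_aux_term (D.m j) (hwc j) (hwc' j) hL1c (hη j) (hCL t ht)
  have h2 : |e2Ip (D.m j) (fun x => w j (t, x)) (e2Dst (D.m j) (fun y => D.b j (t, y) * v y))
      - e2Ip (D.m j) (fun x => w' j (t, x)) (e2Dst (D.m j) (fun y => D.b j (t, y) * v y))| ≤ CB * η :=
    e2_Weak_aux_term (D.m j) (hwc j) (hwc' j) hL2c (hη j) (hCB t ht)
  have h3 : ∀ k, |e2Ip (D.m j) (fun x => e2s j k x * D.c j k (t, x) * w k (t, x)) v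
      - e2Ip (D.m j) (fun x => e2s j k x * D.c j k (t, x) * w' k (t, x)) v| ≤ Cv * (Cc k * η) := by
    intro k
    have hcc : Continuous (fun x => e2s j k x * D.c j k (t, x)) := ((hsc k).slice_x htT).continuous
    refine e2_Weak_aux_term (D.m j) (hcc.mul (hwc k)) (hcc.mul (hwc' k)) hv.continuous ?_ (hCv t ht)
    intro x hx
    have e : e2s j k x * D.c j k (t, x) * w k (t, x) - e2s j k x * D.c j k (t, x) * w' k (t, x)
        = (e2s j k x * D.c j k (t, x)) * (w k (t, x) - w' k (t, x)) := by ring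
    show |e2s j k x * D.c j k (t, x) * w k (t, x) - e2s j k x * D.c j k (t, x) * w' k (t, x)| ≤ Cc k * η
    rw [e, abs_mul]
    exact mul_le_mul (hCc k t ht x hx) (hη k x hx) (abs_nonneg _) (hCc0 k)
  have h4 : ∀ i l, |(∫ ξ in (0 : ℝ)..1, D.k i l (t, ξ) * w l (t, ξ))
      - ∫ ξ in (0 : ℝ)..1, D.k i l (t, ξ) * w' l (t, ξ)| ≤ Ck i l * η := by
    intro i l
    have hkc : Continuous (fun x => D.k i l (t, x)) := ((D.hk i l).slice_x htT).continuous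
    have h := e2_abs_integral_mul_le (κ := fun x => D.k i l (t, x))
      (u := fun x => w l (t, x) - w' l (t, x)) hkc ((hwc l).sub (hwc' l)) (hCk i l t ht) (hη l)
    have hs : (∫ ξ in (0 : ℝ)..1, D.k i l (t, ξ) * w l (t, ξ))
        - ∫ ξ in (0 : ℝ)..1, D.k i l (t, ξ) * w' l (t, ξ)
        = ∫ ξ in (0 : ℝ)..1, (D.k i l (t, ξ) * w l (t, ξ) - D.k i l (t, ξ) * w' l (t, ξ)) :=
      (intervalIntegral.integral_sub ((hkc.mul (hwc l)).intervalIntegrable _ _)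
        ((hkc.mul (hwc' l)).intervalIntegrable _ _)).symm
    have he : (fun ξ => D.k i l (t, ξ) * w l (t, ξ) - D.k i l (t, ξ) * w' l (t, ξ))
        = fun ξ => D.k i l (t, ξ) * (w l (t, ξ) - w' l (t, ξ)) := by
      funext ξ; ring
    rw [hs, he]
    exact h
  have h5 : ∀ i, |e2Ip (D.m j) (fun x => D.e i j (t, x)) v| ≤ Ce i * Cv := fun i =>
    e2Ip_abs_le_sup (D.m j) ((D.he i j).slice_x htT).continuous hv.continuous (hCe i t ht) (hCv t ht)
  have h6 : e2Psi D j v w t - e2Psi D j v w' t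
      = -(e2Ip (D.m j) (fun x => w j (t, x)) (e2Lfix (D.m j) (fun y => D.a (t, y)) v)
          - e2Ip (D.m j) (fun x => w' j (t, x)) (e2Lfix (D.m j) (fun y => D.a (t, y)) v))
        + (e2Ip (D.m j) (fun x => w j (t, x)) (e2Dst (D.m j) (fun y => D.b j (t, y) * v y))
          - e2Ip (D.m j) (fun x => w' j (t, x)) (e2Dst (D.m j) (fun y => D.b j (t, y) * v y)))
        + ∑ k, (e2Ip (D.m j) (fun x => e2s j k x * D.c j k (t, x) * w k (t, x)) v
          - e2Ip (D.m j) (fun x => e2s j k x * D.c j k (t, x) * w' k (t, x)) v)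
        + ∑ i, ∑ l, ((∫ ξ in (0 : ℝ)..1, D.k i l (t, ξ) * w l (t, ξ))
            - ∫ ξ in (0 : ℝ)..1, D.k i l (t, ξ) * w' l (t, ξ))
              * e2Ip (D.m j) (fun x => D.e i j (t, x)) v := by
    simp only [e2Psi, sub_mul, Finset.sum_sub_distrib]
    ring
  rw [h6]
  have h7 : |∑ k, (e2Ip (D.m j) (fun x => e2s j k x * D.c j k (t, x) * w k (t, x)) v
          - e2Ip (D.m j) (fun x => e2s j k x * D.c j k (t, x) * w' k (t, x)) v)|
      ≤ (∑ k, Cv * Cc k) * η := by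
    rw [Finset.sum_mul]
    refine (Finset.abs_sum_le_sum_abs _ _).trans (Finset.sum_le_sum fun k _ => ?_)
    rw [mul_assoc]
    exact h3 k
  have h8 : |∑ i, ∑ l, ((∫ ξ in (0 : ℝ)..1, D.k i l (t, ξ) * w l (t, ξ))
            - ∫ ξ in (0 : ℝ)..1, D.k i l (t, ξ) * w' l (t, ξ))
              * e2Ip (D.m j) (fun x => D.e i j (t, x)) v|
      ≤ (∑ i, ∑ l, Ck i l * (Ce i * Cv)) * η := by
    rw [Finset.sum_mul]
    refine (Finset.abs_sum_le_sum_abs _ _).trans (Finset.sum_le_sum fun i _ => ?_)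
    rw [Finset.sum_mul]
    refine (Finset.abs_sum_le_sum_abs _ _).trans (Finset.sum_le_sum fun l _ => ?_)
    rw [abs_mul]
    calc _ ≤ (Ck i l * η) * (Ce i * Cv) :=
          mul_le_mul (h4 i l) (h5 i) (abs_nonneg _) (mul_nonneg (hCk0 i l) hη0)
      _ = Ck i l * (Ce i * Cv) * η := by ring
  refine (e2_Weak_aux_abs4 _ _ _ _).trans ?_
  calc _ ≤ CL * η + CB * η + (∑ k, Cv * Cc k) * η + (∑ i, ∑ l, Ck i l * (Ce i * Cv)) * η :=
        add_le_add (add_le_add (add_le_add h1 h2) h7) h8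
    _ = _ := by ring

/-- **weak equation for the limit.** -/
theorem e2_weak_limit {u : ℕ → Fin 3 → ℝ × ℝ → ℝ} (hu : ∀ N, E2Gal D N (u N))
    {γ : Fin 3 → ℝ × ℝ → ℝ} (hγ : ∀ j, E2Sm D.T (γ j))
    (hconv : ∀ j, ∀ s₂ < D.T, ∀ ε > 0, ∃ N₀ : ℕ, ∀ N ≥ N₀, ∀ t ≤ s₂, ∀ x ∈ Icc (0 : ℝ) 1,
      |u N j (t, x) - γ j (t, x)| ≤ ε) (j : Fin 3)
    {m : ℕ} {v : ℝ → ℝ} (hv : E2Poly m v) {t : ℝ} (ht : t < D.T) :
    e2Ip (D.m j) (fun x => e2Pdt (γ j) (t, x) - e2S D γ j (t, x)) v = 0 := by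
  have hvc : ContDiff ℝ ∞ v := hv.contDiff
  -- the convergence, uniformly in the component
  have hconv' : ∀ s₂ < D.T, ∀ ε > 0, ∃ N₀ : ℕ, ∀ N ≥ N₀, ∀ k, ∀ t ≤ s₂, ∀ x ∈ Icc (0 : ℝ) 1,
      |u N k (t, x) - γ k (t, x)| ≤ ε := by
    intro s₂ h₂ ε hε
    choose N₀ hN₀ using fun k => hconv k s₂ h₂ ε hε
    refine ⟨∑ k, N₀ k, fun N hN k => hN₀ k N (le_trans ?_ hN)⟩
    exact Finset.single_le_sum (f := N₀) (fun _ _ => Nat.zero_le _) (Finset.mem_univ k)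
  -- the interval
  set s₀ : ℝ := t - 1 with hs₀
  set s₂ : ℝ := (t + D.T) / 2 with hs₂
  have h₂ : s₂ < D.T := by rw [hs₂]; linarith
  have htS : t ∈ Ioo s₀ s₂ := ⟨by rw [hs₀]; linarith, by rw [hs₂]; linarith⟩
  obtain ⟨C, hC0, hC⟩ := e2Psi_lip D j hvc s₀ h₂
  -- a bound of `v`
  obtain ⟨B, hB⟩ : ∃ B : ℝ, ∀ x ∈ Icc (0 : ℝ) 1, |v x| ≤ B := by
    obtain ⟨B, hB⟩ := (isCompact_Icc (a := (0 : ℝ)) (b := 1)).exists_bound_of_continuousOn
      hvc.continuous.continuousOn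
    exact ⟨B, fun x hx => by simpa using hB x hx⟩
  have hB0 : 0 ≤ B := le_trans (abs_nonneg _) (hB 0 (by simp))
  have key : HasDerivAt (fun s => e2Ip (D.m j) (fun x => γ j (s, x)) v) (e2Psi D j v γ t) t := by
    refine hasDerivAt_of_tendstoUniformlyOn (l := atTop)
      (f := fun (N : ℕ) s => e2Ip (D.m j) (fun x => u N j (s, x)) v)
      (f' := fun (N : ℕ) s => e2Psi D j v (u N) s)
      (g := fun s => e2Ip (D.m j) (fun x => γ j (s, x)) v) (g' := fun s => e2Psi D j v γ s)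
      (s := Ioo s₀ s₂) isOpen_Ioo ?_ ?_ ?_ htS
    · rw [Metric.tendstoUniformlyOn_iff]
      intro ε hε
      obtain ⟨N₀, hN₀⟩ := hconv' s₂ h₂ (ε / (2 * (C + 1))) (by positivity)
      filter_upwards [eventually_ge_atTop N₀] with N hN s hs
      have h1 := hC (u N) γ (ε / (2 * (C + 1))) (hu N).sm hγ s ⟨hs.1.le, hs.2.le⟩
        (fun k x hx => hN₀ N hN k s hs.2.le x hx)
      rw [Real.dist_eq, abs_sub_comm]
      refine lt_of_le_of_lt h1 ?_
      have h2 : C * (ε / (2 * (C + 1))) = ε * (C / (2 * (C + 1))) := by ring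
      rw [h2]
      have h3 : C / (2 * (C + 1)) < 1 := by
        rw [div_lt_one (by positivity)]
        linarith
      calc ε * (C / (2 * (C + 1))) < ε * 1 := mul_lt_mul_of_pos_left h3 hε
        _ = ε := mul_one ε
    · filter_upwards [eventually_ge_atTop m] with N hN s hs
      exact (hu N).hasDerivAt_ip j (hv.mono hN) (lt_trans hs.2 h₂)
    · intro s hs
      have hsT : s < D.T := lt_trans hs.2 h₂
      rw [Metric.tendsto_atTop]
      intro ε hε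
      obtain ⟨N₀, hN₀⟩ := hconv' s₂ h₂ (ε / (2 * (B + 1))) (by positivity)
      refine ⟨N₀, fun N hN => ?_⟩
      have c1 : Continuous fun x => u N j (s, x) := (((hu N).sm j).slice_x hsT).continuous
      have c2 : Continuous fun x => γ j (s, x) := ((hγ j).slice_x hsT).continuous
      rw [Real.dist_eq, ← e2Ip_sub_left (D.m j) c1 c2 hvc.continuous]
      have h1 := e2Ip_abs_le_sup (D.m j) (c1.sub c2) hvc.continuous
        (A := ε / (2 * (B + 1))) (B := B) (fun x hx => hN₀ N hN j s hs.2.le x hx) hB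
      refine lt_of_le_of_lt h1 ?_
      have h2 : ε / (2 * (B + 1)) * B = ε * (B / (2 * (B + 1))) := by ring
      rw [h2]
      have h3 : B / (2 * (B + 1)) < 1 := by
        rw [div_lt_one (by positivity)]
        linarith
      calc ε * (B / (2 * (B + 1))) < ε * 1 := mul_lt_mul_of_pos_left h3 hε
        _ = ε := mul_one ε
  have key2 := e2_hasDerivAt_ip_left (D.m j) (hγ j) hvc ht
  have e := key2.unique key
  rw [e2Ip_sub_left (D.m j) ((hγ j).pdt.slice_x ht).continuous ((e2Sm_S D hγ j).slice_x ht).continuous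
    hvc.continuous, e, e2Psi_eq hγ j hvc ht, sub_self]

/-- **The equation.**  `e2_weak_limit` + `e2_density`. -/
theorem e2_pde_of_limit {u : ℕ → Fin 3 → ℝ × ℝ → ℝ} (hu : ∀ N, E2Gal D N (u N))
    {γ : Fin 3 → ℝ × ℝ → ℝ} (hγ : ∀ j, E2Sm D.T (γ j))
    (hconv : ∀ j, ∀ s₂ < D.T, ∀ ε > 0, ∃ N₀ : ℕ, ∀ N ≥ N₀, ∀ t ≤ s₂, ∀ x ∈ Icc (0 : ℝ) 1,
      |u N j (t, x) - γ j (t, x)| ≤ ε) :
    ∀ j, ∀ t < D.T, ∀ x ∈ Icc (0 : ℝ) 1, e2Pdt (γ j) (t, x) = e2S D γ j (t, x) := by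
  intro j t ht x hx
  have hc : Continuous fun x => e2Pdt (γ j) (t, x) - e2S D γ j (t, x) :=
    ((hγ j).pdt.slice_x ht).continuous.sub ((e2Sm_S D hγ j).slice_x ht).continuous
  have h := e2_density (D.m j) hc (fun N v hv => e2_weak_limit hu hγ hconv j hv ht) x hx
  exact sub_eq_zero.1 h

end Claimed.Agent.R324
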