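import Claimed.Agent.R324.E2.GalEx2
import Claimed.Agent.R324.E2.Cauchy
import Claimed.Agent.R324.E2.Weak
import Claimed.Agent.R324.E2.Lim
import Claimed.Agent.R324.E2.Ext

/-
Row 324, module E2 (port of R325/EngFin): the final assembly in the variable `x ∈ [0,1]`.
-/

set_option autoImplicit false

namespace Claimed.Agent.R324

open Set Filter Topology
open scoped ContDiff

theorem e2_main (D : E2Data) : ∃ γ : Fin 3 → ℝ × ℝ → ℝ, (∀ j, E2Sm D.T (γ j)) ∧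
    (∀ j, ∀ t ≤ D.t₁, ∀ x ∈ Icc (0 : ℝ) 1, γ j (t, x) = 0) ∧
    ∀ j, ∀ t < D.T, ∀ x ∈ Icc (0 : ℝ) 1, e2Pdt (γ j) (t, x) = e2S D γ j (t, x) := by
  choose u hu using e2_gal_exists D
  have h₀ : D.t₁ - 1 < D.T := by linarith [D.ht]
  have H : ∀ j : Fin 3, ∃ γ : ℝ × ℝ → ℝ, E2Sm D.T γ ∧
      (∀ t ≤ D.t₁, ∀ x ∈ Icc (0 : ℝ) 1, γ (t, x) = 0) ∧
      ∀ s₂ < D.T, ∀ ε > 0, ∃ N₀ : ℕ, ∀ N ≥ N₀, ∀ t ≤ s₂, ∀ x ∈ Icc (0 : ℝ) 1,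
        |u N j (t, x) - γ (t, x)| ≤ ε := by
    intro j
    obtain ⟨g, hg, hconv⟩ := e2_limit_smooth (s₀ := D.t₁ - 1) (u := fun N => u N j) h₀
      (fun N => (hu N).sm j)
      (fun s₂ h₂ I => e2_bd_all hu h₂ I j) (fun s₂ h₂ => e2_cauchy hu h₂ j)
    have hg0 : ∀ t ∈ Ioc (D.t₁ - 1) D.t₁, ∀ x ∈ Icc (0 : ℝ) 1, g (t, x) = 0 := by
      intro t ht x hx
      by_contra hne
      have hpos : 0 < |g (t, x)| / 2 := by positivity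
      obtain ⟨N₀, hN₀⟩ := hconv D.t₁ D.ht _ hpos
      have := hN₀ N₀ le_rfl t ⟨ht.1.le, ht.2⟩ x hx
      rw [(hu N₀).zero j t ht.2 x, zero_sub, abs_neg] at this
      linarith
    obtain ⟨γ, hγ, hγ0, hγg⟩ := e2_extend D.t₁ D.T g hg hg0
    refine ⟨γ, hγ, hγ0, ?_⟩
    intro s₂ h₂ ε hε
    obtain ⟨N₀, hN₀⟩ := hconv s₂ h₂ ε hε
    refine ⟨N₀, fun N hN t ht x hx => ?_⟩
    rcases le_or_gt t D.t₁ with h | h
    · rw [(hu N).zero j t h x, hγ0 t h x hx]; simpa using hε.le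
    · rw [hγg t ⟨h, lt_of_le_of_lt ht h₂⟩ x hx]
      exact hN₀ N hN t ⟨by linarith, ht⟩ x hx
  choose γ hγ hγ0 hconv using H
  exact ⟨γ, hγ, hγ0, e2_pde_of_limit hu hγ hconv⟩

end Claimed.Agent.R324
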