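import Claimed.Agent.R324.E2.Gard

/-
Row 324, module E2: fixed time estimates, tested with `T_j` (scalar lemmas): the first order term.
Model: R325/EngGard.lean (section "R325/EngGard.lean" of Claimed/Agent/R325/Pk27.lean) and `eng_Rfix_bound` in R325/EngFix.lean (same pack).
Everywhere: `<f, T_j v>_m = <∂^j f, ∂^j v>_{m+j}` (`e2_ip_T`), `iteratedDeriv l (deriv u) = iteratedDeriv (l+1) u` (`e2_gard_aux_iter`).
-/

set_option autoImplicit false

namespace Claimed.Agent.R324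

open Set
open scoped ContDiff

theorem e2_first_aux_phi_contDiff : ContDiff ℝ ∞ (fun y : ℝ => y * (1 - y)) :=
  contDiff_id.mul (contDiff_const.sub contDiff_id)

theorem e2_first_aux_deriv_phi : deriv (fun y : ℝ => y * (1 - y)) = fun y => 1 - 2 * y := by
  funext x
  have h : HasDerivAt (fun y : ℝ => y * (1 - y)) (1 * (1 - x) + x * (0 - 1)) x :=
    (hasDerivAt_id x).mul ((hasDerivAt_const x (1 : ℝ)).sub (hasDerivAt_id x))
  rw [h.deriv]
  ring

theorem e2_first_aux_deriv_phi2 : deriv (fun y : ℝ => 1 - 2 * y) = fun _ => -2 := by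
  funext x
  have h : HasDerivAt (fun y : ℝ => 1 - 2 * y) (0 - 2 * 1) x :=
    (hasDerivAt_const x (1 : ℝ)).sub ((hasDerivAt_id x).const_mul 2)
  rw [h.deriv]
  ring

theorem e2_first_aux_phi_bound (l : ℕ) : ∀ x ∈ Icc (0 : ℝ) 1,
    |iteratedDeriv l (fun y : ℝ => y * (1 - y)) x| ≤ 2 := by
  intro x hx
  obtain ⟨h0, h1⟩ := hx
  rcases l with _ | _ | _ | l
  · rw [iteratedDeriv_zero, abs_le]
    constructor <;> nlinarith
  · rw [iteratedDeriv_succ', e2_first_aux_deriv_phi, iteratedDeriv_zero, abs_le]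
    constructor <;> linarith
  · rw [iteratedDeriv_succ', iteratedDeriv_succ', e2_first_aux_deriv_phi, e2_first_aux_deriv_phi2,
      iteratedDeriv_zero]
    norm_num
  · rw [iteratedDeriv_succ', iteratedDeriv_succ', iteratedDeriv_succ', e2_first_aux_deriv_phi,
      e2_first_aux_deriv_phi2]
    have h3 : deriv (fun _ : ℝ => (-2 : ℝ)) = fun _ => 0 := by
      funext y
      exact deriv_const y _
    rw [h3]
    have h4 : iteratedDeriv l (fun _ : ℝ => (0 : ℝ)) x = 0 := by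
      induction l with
      | zero => rw [iteratedDeriv_zero]
      | succ n ih =>
        rw [iteratedDeriv_succ']
        have h5 : deriv (fun _ : ℝ => (0 : ℝ)) = fun _ => 0 := by
          funext y
          exact deriv_const y _
        rw [h5]
        exact ih
    rw [h4]
    norm_num

/-- derivatives of `φ c`: `|∂^l (φ c)| ≤ 2^(l+1) (l+1) A` on `[0,1]` if `|∂^{l'} c| ≤ A` for `l' ≤ l`
(`e2_leibniz_bound` with `b = φ`: `|φ| ≤ 1`, `|φ'| = |1-2x| ≤ 1`, `|φ''| = 2`, `φ''' = 0`; so all derivatives of `φ` are bounded by `2` on `[0,1]`). -/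
theorem e2_phi_mul_bound (j : ℕ) {c : ℝ → ℝ} (hc : ContDiff ℝ ∞ c) {A : ℝ}
    (hA : ∀ l ≤ j, ∀ x ∈ Icc (0 : ℝ) 1, |iteratedDeriv l c x| ≤ A) :
    ∀ l ≤ j, ∀ x ∈ Icc (0 : ℝ) 1,
      |iteratedDeriv l (fun y => y * (1 - y) * c y) x| ≤ 2 ^ (j + 1) * (j + 1) * A := by
  intro l hl x hx
  have hA0 : 0 ≤ A := le_trans (abs_nonneg _) (hA 0 (Nat.zero_le j) x hx)
  have h1 := e2_leibniz_bound l e2_first_aux_phi_contDiff hc (A := 2)
    (fun l' _ => e2_first_aux_phi_bound l') x hx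
  refine h1.trans ?_
  have h2 : ∑ l' ∈ Finset.range (l + 1), |iteratedDeriv l' c x| ≤ ∑ _l' ∈ Finset.range (l + 1), A :=
    Finset.sum_le_sum (fun l' hl' => hA l' (by have := Finset.mem_range.1 hl'; omega) x hx)
  rw [Finset.sum_const, Finset.card_range, nsmul_eq_mul] at h2
  have h3 : ((l + 1 : ℕ) : ℝ) ≤ (j : ℝ) + 1 := by
    have : (l : ℝ) ≤ j := by exact_mod_cast hl
    push_cast
    linarith
  have h4 : (2 : ℝ) ^ l ≤ 2 ^ j := pow_le_pow_right₀ (by norm_num) hl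
  calc 2 ^ l * 2 * ∑ l' ∈ Finset.range (l + 1), |iteratedDeriv l' c x|
      ≤ 2 ^ l * 2 * (((l + 1 : ℕ) : ℝ) * A) := mul_le_mul_of_nonneg_left h2 (by positivity)
    _ ≤ 2 ^ j * 2 * (((j : ℝ) + 1) * A) := by
        apply mul_le_mul
        · linarith
        · exact mul_le_mul_of_nonneg_right h3 hA0
        · positivity
        · positivity
    _ = 2 ^ (j + 1) * (j + 1) * A := by ring

/-- **The first order term.**  `|<φ b u', T_j u>_m| ≤ δ N_{j+1}(u)^2 + C Σ_{i ≤ j} N_i(u)^2`.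
`<φ b u', T_j u>_m = <∂^j (B u'), ∂^j u>_{m+j}`, `B = φ b` (derivatives bounded by `e2_phi_mul_bound`).  `∂^j (B u') = B ∂^{j+1} u + Rem`.
* `<φ b ∂^{j+1}u, ∂^j u>_{m+j} = <b ∂^{j+1}u, ∂^j u>_{m+j+1}` (`e2Ip_phi_left`), Young: `≤ δ N_{j+1}^2 + (A^2/(4δ)) |∂^j u|_{m+j+1}^2`, and
  `|∂^j u|_{m+j+1}^2 ≤ N_j^2` (`e2Ip_self_weight_le`).
* `|Rem|_{m+j}^2 ≤ c Σ_{l<j} |∂^{l+1}u|_{m+j}^2 ≤ c Σ_{l<j} N_{l+1}^2` (`e2_leibniz_rem_ip`, `e2Ip_self_weight_le'`), `|<Rem, ∂^j u>_{m+j}| ≤ (|Rem|^2 + N_j^2)/2`. -/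
theorem e2_first_bound (m j : ℕ) (A δ : ℝ) (hδ : 0 < δ) : ∃ C : ℝ, 0 ≤ C ∧ ∀ (b u : ℝ → ℝ),
    ContDiff ℝ ∞ b → ContDiff ℝ ∞ u →
    (∀ l ≤ j, ∀ x ∈ Icc (0 : ℝ) 1, |iteratedDeriv l b x| ≤ A) →
    |e2Ip m (e2Bfix b u) (e2T m j u)|
      ≤ δ * e2Nsq m (j + 1) u + C * ∑ i ∈ Finset.range (j + 1), e2Nsq m i u := by
  refine ⟨(A ^ 2 + 1) / (4 * δ) + 1 / 2 + (1 / 2) * ((2 ^ j * (2 ^ (j + 1) * (j + 1) * A)) ^ 2 * j),
    by positivity, ?_⟩
  intro b u hb hu hA
  set S : ℝ := ∑ i ∈ Finset.range (j + 1), e2Nsq m i u with hS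
  have hS0 : 0 ≤ S := e2_hardy_aux_sum_nonneg m u (j + 1)
  have hNj : e2Nsq m j u ≤ S := e2_hardy_aux_single m u (Nat.lt_succ_self j)
  have hf : ContDiff ℝ ∞ (deriv u) := e2_deriv_contDiff hu
  have hB : ContDiff ℝ ∞ (fun y : ℝ => y * (1 - y) * b y) := e2_leib_aux_mul e2_first_aux_phi_contDiff hb
  have hBf : ContDiff ℝ ∞ (e2Bfix b u) := e2_leib_aux_mul hB hf
  have hA' := e2_phi_mul_bound j hb hA
  have hcj : Continuous (iteratedDeriv j u) := e2_leib_aux_cont j hu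
  have hcj1 : Continuous (iteratedDeriv (j + 1) u) := e2_leib_aux_cont (j + 1) hu
  rw [e2_ip_T m j hBf hu]
  -- decomposition
  have hG : Continuous (iteratedDeriv j (e2Bfix b u)) := e2_leib_aux_cont j hBf
  have hmain : Continuous (fun x : ℝ => x * (1 - x) * (b x * iteratedDeriv (j + 1) u x)) :=
    (continuous_id.mul (continuous_const.sub continuous_id)).mul (hb.continuous.mul hcj1)
  have hRemc : Continuous (fun x => iteratedDeriv j (fun y => y * (1 - y) * b y * deriv u y) x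
      - x * (1 - x) * b x * iteratedDeriv j (deriv u) x) :=
    hG.sub (hB.continuous.mul (e2_leib_aux_cont j hf))
  have hdec : iteratedDeriv j (e2Bfix b u) = fun x =>
      x * (1 - x) * (b x * iteratedDeriv (j + 1) u x)
        + (iteratedDeriv j (fun y => y * (1 - y) * b y * deriv u y) x
            - x * (1 - x) * b x * iteratedDeriv j (deriv u) x) := by
    funext x
    rw [e2_gard_aux_iter]
    have : e2Bfix b u = fun y => y * (1 - y) * b y * deriv u y := rfl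
    rw [this]
    ring
  rw [hdec, e2Ip_add_left (m + j) hmain hRemc hcj, e2Ip_phi_left]
  -- first term
  have hbA : ∀ x ∈ Icc (0 : ℝ) 1, |b x| ≤ A := by
    intro x hx
    have := hA 0 (Nat.zero_le j) x hx
    rwa [iteratedDeriv_zero] at this
  have hδ' : 0 < δ / (A ^ 2 + 1) := by positivity
  have t1 := e2Ip_young (m + j + 1) (f := fun x => b x * iteratedDeriv (j + 1) u x)
    (hb.continuous.mul hcj1) hcj hδ'
  have t1a : e2Ip (m + j + 1) (fun x => b x * iteratedDeriv (j + 1) u x)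
      (fun x => b x * iteratedDeriv (j + 1) u x) ≤ A ^ 2 * e2Nsq m (j + 1) u :=
    e2Ip_mul_self_le (m + j + 1) hb.continuous hcj1 hbA
  have t1b : e2Ip (m + j + 1) (iteratedDeriv j u) (iteratedDeriv j u) ≤ e2Nsq m j u :=
    e2Ip_self_weight_le (m + j) 1 hcj
  have hN1 : 0 ≤ e2Nsq m (j + 1) u := e2Nsq_nonneg m (j + 1) u
  have t1c : δ / (A ^ 2 + 1) * e2Ip (m + j + 1) (fun x => b x * iteratedDeriv (j + 1) u x)
      (fun x => b x * iteratedDeriv (j + 1) u x) ≤ δ * e2Nsq m (j + 1) u := by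
    have h1 := mul_le_mul_of_nonneg_left t1a hδ'.le
    have h2 : δ / (A ^ 2 + 1) * (A ^ 2 * e2Nsq m (j + 1) u) ≤ δ * e2Nsq m (j + 1) u := by
      have h3 : δ / (A ^ 2 + 1) * A ^ 2 ≤ δ := by
        rw [div_mul_eq_mul_div, div_le_iff₀ (by positivity)]
        nlinarith [sq_nonneg A]
      have := mul_le_mul_of_nonneg_right h3 hN1
      linarith
    linarith
  have t1d : 1 / (4 * (δ / (A ^ 2 + 1))) * e2Ip (m + j + 1) (iteratedDeriv j u) (iteratedDeriv j u)
      ≤ (A ^ 2 + 1) / (4 * δ) * S := by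
    have h1 : 1 / (4 * (δ / (A ^ 2 + 1))) = (A ^ 2 + 1) / (4 * δ) := by
      field_simp
    rw [h1]
    exact mul_le_mul_of_nonneg_left (t1b.trans hNj) (by positivity)
  -- remainder
  have t2 := e2Ip_young (m + j) hRemc hcj (δ := 1 / 2) (by norm_num)
  have t2a := e2_leibniz_rem_ip (m + j) j hB hf hA'
  have t2b : ∑ l ∈ Finset.range j, e2Ip (m + j) (iteratedDeriv l (deriv u)) (iteratedDeriv l (deriv u)) ≤ S := by
    have h1 : ∀ l ∈ Finset.range j, e2Ip (m + j) (iteratedDeriv l (deriv u)) (iteratedDeriv l (deriv u))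
        ≤ e2Nsq m (l + 1) u := by
      intro l hl
      rw [e2_gard_aux_iter]
      exact e2Ip_self_weight_le' (by have := Finset.mem_range.1 hl; omega) (e2_leib_aux_cont (l + 1) hu)
    refine (Finset.sum_le_sum h1).trans ?_
    rw [hS, Finset.sum_range_succ']
    have := e2Nsq_nonneg m 0 u
    linarith
  have t2c : e2Ip (m + j) (fun x => iteratedDeriv j (fun y => y * (1 - y) * b y * deriv u y) x
      - x * (1 - x) * b x * iteratedDeriv j (deriv u) x)
      (fun x => iteratedDeriv j (fun y => y * (1 - y) * b y * deriv u y) x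
      - x * (1 - x) * b x * iteratedDeriv j (deriv u) x)
      ≤ (2 ^ j * (2 ^ (j + 1) * (j + 1) * A)) ^ 2 * j * S :=
    t2a.trans (mul_le_mul_of_nonneg_left t2b (by positivity))
  have t2d : e2Ip (m + j) (iteratedDeriv j u) (iteratedDeriv j u) ≤ S := hNj
  have habs := abs_add_le (e2Ip (m + j + 1) (fun x => b x * iteratedDeriv (j + 1) u x) (iteratedDeriv j u))
    (e2Ip (m + j) (fun x => iteratedDeriv j (fun y => y * (1 - y) * b y * deriv u y) x
      - x * (1 - x) * b x * iteratedDeriv j (deriv u) x) (iteratedDeriv j u))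
  have e1 : (1 : ℝ) / (4 * (1 / 2)) = 1 / 2 := by norm_num
  rw [e1] at t2
  linarith

end Claimed.Agent.R324
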