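import Mathlib

/-
Row 324, module E2 (copy of the row 325 engine): global smooth solutions of linear systems of ODEs with smooth coefficients on `(-∞,T)`.
Independent of everything else (imports only Mathlib).
-/

set_option autoImplicit false

namespace Claimed.Agent.R324

open Set
open scoped ContDiff NNReal

/-- the continuous linear map `y ↦ A y`, linear in `A`. -/
theorem e2_ode_exists_clm (n : ℕ) :
    ∃ Φ : Matrix (Fin n) (Fin n) ℝ → ((Fin n → ℝ) →L[ℝ] (Fin n → ℝ)),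
      Continuous Φ ∧ ∀ A y, Φ A y = A.mulVec y := by
  let Ψ : Matrix (Fin n) (Fin n) ℝ →ₗ[ℝ] ((Fin n → ℝ) →L[ℝ] (Fin n → ℝ)) :=
    (LinearMap.toContinuousLinearMap : ((Fin n → ℝ) →ₗ[ℝ] (Fin n → ℝ)) ≃ₗ[ℝ] _).toLinearMap ∘ₗ
      (Matrix.toLin' : Matrix (Fin n) (Fin n) ℝ ≃ₗ[ℝ] _).toLinearMap
  refine ⟨Ψ, LinearMap.continuous_of_finiteDimensional Ψ, fun A y => ?_⟩
  simp [Ψ]

/-- coordinatewise clamp: norm bounds. -/
theorem e2_ode_clamp_norm_le (n : ℕ) {R : ℝ} (hR : 0 ≤ R) (y : Fin n → ℝ) :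
    ‖(fun i => max (-R) (min R (y i)) : Fin n → ℝ)‖ ≤ R := by
  rw [pi_norm_le_iff_of_nonneg hR]
  intro i
  rw [Real.norm_eq_abs, abs_le]
  exact ⟨le_max_left _ _, max_le (by linarith) (min_le_left _ _)⟩

theorem e2_ode_clamp_norm_le' (n : ℕ) {R : ℝ} (hR : 0 ≤ R) (y : Fin n → ℝ) :
    ‖(fun i => max (-R) (min R (y i)) : Fin n → ℝ)‖ ≤ ‖y‖ := by
  rw [pi_norm_le_iff_of_nonneg (norm_nonneg _)]
  intro i
  have h := norm_le_pi_norm y i
  rw [Real.norm_eq_abs] at h ⊢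
  rw [abs_le] at h ⊢
  constructor
  · rcases le_total R (y i) with h1 | h1
    · rw [min_eq_left h1]; exact le_trans (by linarith) (le_max_right _ _)
    · rw [min_eq_right h1]; exact le_trans h.1 (le_max_right _ _)
  · exact max_le (by linarith [norm_nonneg y]) (le_trans (min_le_right _ _) h.2)

theorem e2_ode_clamp_eq (n : ℕ) {R : ℝ} (y : Fin n → ℝ) (hy : ‖y‖ ≤ R) :
    (fun i => max (-R) (min R (y i)) : Fin n → ℝ) = y := by
  funext i
  have h := (norm_le_pi_norm y i).trans hy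
  rw [Real.norm_eq_abs, abs_le] at h
  rw [min_eq_right h.2, max_eq_right h.1]

theorem e2_ode_clamp_lip (n : ℕ) (R : ℝ) (y z : Fin n → ℝ) :
    ‖(fun i => max (-R) (min R (y i)) : Fin n → ℝ) - (fun i => max (-R) (min R (z i)))‖
      ≤ ‖y - z‖ := by
  rw [pi_norm_le_iff_of_nonneg (norm_nonneg _)]
  intro i
  have h := norm_le_pi_norm (y - z) i
  simp only [Pi.sub_apply, Real.norm_eq_abs] at h ⊢
  refine le_trans ?_ h
  rw [max_comm (-R), max_comm (-R)]
  refine le_trans (abs_max_sub_max_le_abs _ _ _) ?_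
  exact abs_min_sub_min_le_max _ _ _ _ |>.trans (by simp)


/-- derivative within `Icc` gives the right derivative. -/
theorem e2_ode_right_deriv {E : Type*} [NormedAddCommGroup E] [NormedSpace ℝ E] {c : ℝ → E}
    {c' : E} {a b t : ℝ} (ht : t ∈ Ico a b) (h : HasDerivWithinAt c c' (Icc a b) t) :
    HasDerivWithinAt c c' (Ici t) t :=
  h.mono_of_mem_nhdsWithin (Icc_mem_nhdsGE_of_mem ht)

/-- Existence on a compact interval.  `A`, `f` continuous on `[t₁,s₂]`.
Suggested proof: the field `v t y = A(proj t) y + f(proj t)` (`proj` = projection onto `[t₁,s₂]`) is continuous in `t` and globally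
Lipschitz in `y` with a constant `K` independent of `t`.  Either (a) Picard iteration / Banach fixed point on `C([t₁,s₂],ℝ^n)`;
or (b) truncate: `v_R t y = A(t) (retr_R y) + f(t)` is bounded and Lipschitz, so `IsPicardLindelof` holds on the whole interval
with a big ball (see `Claimed/Agent/R213/ODE/FlowC1.lean`: `exists_global`, `retr`, `lipschitzWith_retr`; copy what you need under
new names), Gronwall gives `‖c‖ ≤ R₀` independent of `R`, take `R > R₀`;
or (c) `IsPicardLindelof` on short intervals of a fixed length `h` with `h K ≤ 1/2` (ball radius proportional to `1 + ‖c‖`) and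
concatenate finitely many steps. -/
theorem e2_ode_compact (n : ℕ) (t₁ s₂ : ℝ) (h : t₁ ≤ s₂) (A : ℝ → Matrix (Fin n) (Fin n) ℝ)
    (f : ℝ → Fin n → ℝ) (hA : ContinuousOn A (Icc t₁ s₂)) (hf : ContinuousOn f (Icc t₁ s₂)) :
    ∃ c : ℝ → Fin n → ℝ, c t₁ = 0 ∧
      ∀ t ∈ Icc t₁ s₂, HasDerivWithinAt c ((A t).mulVec (c t) + f t) (Icc t₁ s₂) t := by
  obtain ⟨Φ, hΦc, hΦ⟩ := e2_ode_exists_clm n
  have hB : ContinuousOn (fun t => Φ (A t)) (Icc t₁ s₂) := hΦc.comp_continuousOn hA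
  obtain ⟨K₀, hK₀⟩ := isCompact_Icc.exists_bound_of_continuousOn hB
  obtain ⟨F₀, hF₀⟩ := isCompact_Icc.exists_bound_of_continuousOn hf
  have ht₁ : t₁ ∈ Icc t₁ s₂ := ⟨le_rfl, h⟩
  have hK0 : 0 ≤ K₀ := (norm_nonneg _).trans (hK₀ t₁ ht₁)
  have hF0 : 0 ≤ F₀ := (norm_nonneg _).trans (hF₀ t₁ ht₁)
  set R : ℝ := gronwallBound 0 K₀ F₀ (s₂ - t₁) with hRdef
  have hR : 0 ≤ R := by
    have := gronwallBound_mono (δ := 0) (ε := F₀) le_rfl hF0 hK0 (sub_nonneg.2 h)
    simpa [gronwallBound_x0] using this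
  let cl : (Fin n → ℝ) → (Fin n → ℝ) := fun y i => max (-R) (min R (y i))
  let v : ℝ → (Fin n → ℝ) → (Fin n → ℝ) := fun t y => Φ (A t) (cl y) + f t
  let K : ℝ≥0 := ⟨K₀, hK0⟩
  let L : ℝ≥0 := ⟨K₀ * R + F₀, by positivity⟩
  let a : ℝ≥0 := L * ⟨s₂ - t₁, sub_nonneg.2 h⟩
  have hPL : IsPicardLindelof v (tmin := t₁) (tmax := s₂) ⟨t₁, ht₁⟩ 0 a 0 L K :=
    { lipschitzOnWith := fun t ht => by
        refine LipschitzWith.lipschitzOnWith (LipschitzWith.of_dist_le_mul fun y z => ?_)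
        simp only [v, dist_eq_norm, add_sub_add_right_eq_sub, ← map_sub]
        calc ‖Φ (A t) (cl y - cl z)‖ ≤ ‖Φ (A t)‖ * ‖cl y - cl z‖ := (Φ (A t)).le_opNorm _
          _ ≤ K₀ * ‖y - z‖ :=
            mul_le_mul (hK₀ t ht) (e2_ode_clamp_lip n R y z) (norm_nonneg _) hK0
      continuousOn := fun y _ => (hB.clm_apply continuousOn_const).add hf
      norm_le := fun t ht y _ => by
        calc ‖Φ (A t) (cl y) + f t‖ ≤ ‖Φ (A t) (cl y)‖ + ‖f t‖ := norm_add_le _ _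
          _ ≤ ‖Φ (A t)‖ * ‖cl y‖ + ‖f t‖ := by gcongr; exact (Φ (A t)).le_opNorm _
          _ ≤ K₀ * R + F₀ := by
            gcongr
            · exact hK₀ t ht
            · exact e2_ode_clamp_norm_le n hR y
            · exact hF₀ t ht
      mul_max_le := by
        simp only [sub_self, NNReal.coe_zero, sub_zero]
        rw [max_eq_left (sub_nonneg.2 h)]
        exact le_of_eq rfl }
  obtain ⟨α, hα0, hα⟩ := hPL.exists_eq_forall_mem_Icc_hasDerivWithinAt₀
  have hα0' : α t₁ = 0 := hα0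
  have hbound : ∀ t ∈ Icc t₁ s₂, ‖α t‖ ≤ R := by
    intro t ht
    have h1 := norm_le_gronwallBound_of_norm_deriv_right_le (f := α) (f' := fun t => v t (α t))
      (δ := 0) (K := K₀) (ε := F₀) (a := t₁) (b := s₂)
      (fun x hx => (hα x hx).continuousWithinAt)
      (fun x hx => e2_ode_right_deriv hx (hα x (Ico_subset_Icc_self hx)))
      (by rw [hα0']; simp)
      (fun x hx => by
        have hx' := Ico_subset_Icc_self hx
        calc ‖Φ (A x) (cl (α x)) + f x‖ ≤ ‖Φ (A x) (cl (α x))‖ + ‖f x‖ := norm_add_le _ _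
          _ ≤ ‖Φ (A x)‖ * ‖cl (α x)‖ + ‖f x‖ := by gcongr; exact (Φ (A x)).le_opNorm _
          _ ≤ K₀ * ‖α x‖ + F₀ := by
            gcongr
            · exact hK₀ x hx'
            · exact e2_ode_clamp_norm_le' n hR (α x)
            · exact hF₀ x hx') t ht
    exact h1.trans (gronwallBound_mono le_rfl hF0 hK0 (by linarith [ht.2]))
  refine ⟨α, hα0', fun t ht => ?_⟩
  have h2 := hα t ht
  have h3 : v t (α t) = (A t).mulVec (α t) + f t := by
    simp only [v, cl]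
    rw [e2_ode_clamp_eq n (α t) (hbound t ht), hΦ]
  rwa [h3] at h2

/-- Uniqueness on a compact interval (Gronwall: `ODE_solution_unique_of_mem_Icc_right`, the field is Lipschitz with the constant
`sup ‖A‖`). -/
theorem e2_ode_unique (n : ℕ) (t₁ s₂ : ℝ) (A : ℝ → Matrix (Fin n) (Fin n) ℝ)
    (f : ℝ → Fin n → ℝ) (hA : ContinuousOn A (Icc t₁ s₂)) (c c' : ℝ → Fin n → ℝ) (h0 : c t₁ = c' t₁)
    (hc : ∀ t ∈ Icc t₁ s₂, HasDerivWithinAt c ((A t).mulVec (c t) + f t) (Icc t₁ s₂) t)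
    (hc' : ∀ t ∈ Icc t₁ s₂, HasDerivWithinAt c' ((A t).mulVec (c' t) + f t) (Icc t₁ s₂) t) :
    ∀ t ∈ Icc t₁ s₂, c t = c' t := by
  obtain ⟨Φ, hΦc, hΦ⟩ := e2_ode_exists_clm n
  have hB : ContinuousOn (fun t => Φ (A t)) (Icc t₁ s₂) := hΦc.comp_continuousOn hA
  obtain ⟨K₀, hK₀⟩ := isCompact_Icc.exists_bound_of_continuousOn hB
  have hK₁ : ∀ t ∈ Icc t₁ s₂, ‖Φ (A t)‖ ≤ max K₀ 0 := fun t ht => (hK₀ t ht).trans (le_max_left _ _)
  let K : ℝ≥0 := ⟨max K₀ 0, le_max_right _ _⟩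
  refine ODE_solution_unique_of_mem_Icc_right (v := fun t y => (A t).mulVec y + f t)
    (s := fun _ => univ) (K := K) (fun t ht => ?_)
    (fun x hx => (hc x hx).continuousWithinAt)
    (fun x hx => e2_ode_right_deriv hx (hc x (Ico_subset_Icc_self hx))) (fun _ _ => mem_univ _)
    (fun x hx => (hc' x hx).continuousWithinAt)
    (fun x hx => e2_ode_right_deriv hx (hc' x (Ico_subset_Icc_self hx))) (fun _ _ => mem_univ _) h0
  refine LipschitzWith.lipschitzOnWith (LipschitzWith.of_dist_le_mul fun y z => ?_)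
  simp only [dist_eq_norm, add_sub_add_right_eq_sub, ← hΦ, ← map_sub]
  calc ‖Φ (A t) (y - z)‖ ≤ ‖Φ (A t)‖ * ‖y - z‖ := (Φ (A t)).le_opNorm _
    _ ≤ max K₀ 0 * ‖y - z‖ :=
      mul_le_mul_of_nonneg_right (hK₁ t (Ico_subset_Icc_self ht)) (norm_nonneg _)


/-- bootstrap of smoothness for `c' = A c + f` on an open half line. -/
theorem e2_ode_smooth (n : ℕ) (T : ℝ) (A : ℝ → Matrix (Fin n) (Fin n) ℝ)
    (f : ℝ → Fin n → ℝ) (hA : ∀ i j, ContDiffOn ℝ ∞ (fun t => A t i j) (Iio T))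
    (hf : ∀ i, ContDiffOn ℝ ∞ (fun t => f t i) (Iio T)) (c : ℝ → Fin n → ℝ)
    (hc : ∀ t < T, HasDerivAt c ((A t).mulVec (c t) + f t) t) :
    ContDiffOn ℝ ∞ c (Iio T) := by
  rw [contDiffOn_infty]
  intro m
  induction m with
  | zero =>
    rw [Nat.cast_zero, contDiffOn_zero]
    exact fun t ht => (hc t ht).continuousAt.continuousWithinAt
  | succ m ih =>
    rw [Nat.cast_succ, contDiffOn_succ_iff_deriv_of_isOpen isOpen_Iio]
    refine ⟨fun t ht => (hc t ht).differentiableAt.differentiableWithinAt, by simp, ?_⟩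
    have hEq : ∀ t ∈ Iio T, deriv c t = (A t).mulVec (c t) + f t := fun t ht => (hc t ht).deriv
    refine ContDiffOn.congr ?_ hEq
    rw [contDiffOn_pi]
    intro i
    have ih' := contDiffOn_pi.1 ih
    simp only [Pi.add_apply, Matrix.mulVec, dotProduct]
    refine ContDiffOn.add (ContDiffOn.sum fun j _ => ?_) ((hf i).of_le (by exact_mod_cast le_top))
    exact ((hA i j).of_le (by exact_mod_cast le_top)).mul (ih' j)

/-- **Global smooth solution, vanishing for `t ≤ t₁`.**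
Glue the solutions of `e2_ode_compact` on `[t₁,s₂]`, `s₂ ↑ T` (they agree by `e2_ode_unique`), extend by `0` for `t ≤ t₁`.
At `t₁` the right derivative is `A(t₁) 0 + f(t₁) = 0` and the left derivative is `0`, and for `t < t₁` the equation reads `0 = 0`
(`f = 0` there).  So `c` is differentiable on `(-∞,T)` with `c' = A c + f`.  Smoothness: `c` is `C^m` on `(-∞,T)` for every `m` by
induction (`contDiffOn_succ_iff_deriv_of_isOpen`): `c' = A c + f` is `C^m` if `c` is. -/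
theorem e2_linear_ode (n : ℕ) (t₁ T : ℝ) (ht : t₁ < T) (A : ℝ → Matrix (Fin n) (Fin n) ℝ)
    (f : ℝ → Fin n → ℝ) (hA : ∀ i j, ContDiffOn ℝ ∞ (fun t => A t i j) (Iio T))
    (hf : ∀ i, ContDiffOn ℝ ∞ (fun t => f t i) (Iio T)) (hf0 : ∀ t ≤ t₁, f t = 0) :
    ∃ c : ℝ → Fin n → ℝ, (∀ i, ContDiffOn ℝ ∞ (fun t => c t i) (Iio T)) ∧ (∀ t ≤ t₁, c t = 0) ∧
      ∀ t < T, ∀ i, HasDerivAt (fun s => c s i) ((A t).mulVec (c t) i + f t i) t := by
  have hAc : ContinuousOn A (Iio T) := by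
    refine continuousOn_pi.2 fun i => continuousOn_pi.2 fun j => (hA i j).continuousOn
  have hfc : ContinuousOn f (Iio T) := continuousOn_pi.2 fun i => (hf i).continuousOn
  have hsub : ∀ s < T, Icc (t₁ - 1) s ⊆ Iio T := fun s hs t ht' => lt_of_le_of_lt ht'.2 hs
  -- solutions on `[t₁ - 1, s]`
  have hex : ∀ s, t₁ ≤ s ∧ s < T → ∃ c : ℝ → Fin n → ℝ, c (t₁ - 1) = 0 ∧
      ∀ t ∈ Icc (t₁ - 1) s, HasDerivWithinAt c ((A t).mulVec (c t) + f t) (Icc (t₁ - 1) s) t :=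
    fun s hs => e2_ode_compact n (t₁ - 1) s (by linarith [hs.1]) A f
      (hAc.mono (hsub s hs.2)) (hfc.mono (hsub s hs.2))
  choose! γ hγ0 hγ using hex
  -- compatibility
  have hcomp : ∀ s s', t₁ ≤ s → s ≤ s' → s' < T → ∀ t ∈ Icc (t₁ - 1) s, γ s t = γ s' t := by
    intro s s' h1 h2 h3
    have hs : t₁ ≤ s ∧ s < T := ⟨h1, lt_of_le_of_lt h2 h3⟩
    have hs' : t₁ ≤ s' ∧ s' < T := ⟨h1.trans h2, h3⟩
    refine e2_ode_unique n (t₁ - 1) s A f (hAc.mono (hsub s hs.2)) (γ s) (γ s')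
      (by rw [hγ0 s hs, hγ0 s' hs']) (hγ s hs) (fun t ht' => ?_)
    exact (hγ s' hs' t ⟨ht'.1, ht'.2.trans h2⟩).mono (Icc_subset_Icc_right h2)
  -- vanishing on `[t₁ - 1, t₁]`
  have hzero : ∀ s, t₁ ≤ s → s < T → ∀ t ∈ Icc (t₁ - 1) t₁, γ s t = 0 := by
    intro s h1 h2
    have hs : t₁ ≤ s ∧ s < T := ⟨h1, h2⟩
    refine e2_ode_unique n (t₁ - 1) t₁ A f (hAc.mono (hsub t₁ ht)) (γ s) (fun _ => 0)
      (hγ0 s hs) (fun t ht' => ?_) (fun t ht' => ?_)
    · exact (hγ s hs t ⟨ht'.1, ht'.2.trans h1⟩).mono (Icc_subset_Icc_right h1)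
    · rw [hf0 t ht'.2]
      simpa using hasDerivWithinAt_const t (Icc (t₁ - 1) t₁) (0 : Fin n → ℝ)
  let c : ℝ → Fin n → ℝ := fun t => if t ≤ t₁ then 0 else γ ((t + T) / 2) t
  have hc0 : ∀ t ≤ t₁, c t = 0 := fun t ht' => if_pos ht'
  have hder : ∀ t < T, HasDerivAt c ((A t).mulVec (c t) + f t) t := by
    intro t₀ ht₀
    rcases lt_or_ge t₀ t₁ with hlt | hge
    · have hev : c =ᶠ[nhds t₀] fun _ => 0 := by
        filter_upwards [isOpen_Iio.mem_nhds hlt] with t ht'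
        exact hc0 t (le_of_lt ht')
      rw [hc0 t₀ hlt.le, hf0 t₀ hlt.le]
      simpa using (hasDerivAt_const t₀ (0 : Fin n → ℝ)).congr_of_eventuallyEq hev
    · set s := (t₀ + T) / 2 with hsdef
      have hs1 : t₀ < s := by rw [hsdef]; linarith
      have hs2 : s < T := by rw [hsdef]; linarith
      have hs : t₁ ≤ s ∧ s < T := ⟨hge.trans hs1.le, hs2⟩
      have hagree : ∀ t ∈ Ioo (t₁ - 1) s, c t = γ s t := by
        intro t ht'
        by_cases htt : t ≤ t₁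
        · rw [hc0 t htt, hzero s hs.1 hs.2 t ⟨ht'.1.le, htt⟩]
        · have htT : t < T := ht'.2.trans hs2
          have h1 : t < (t + T) / 2 := by linarith
          have h2 : (t + T) / 2 < T := by linarith
          have h3 : t₁ ≤ (t + T) / 2 := by linarith [not_le.1 htt]
          show (if t ≤ t₁ then 0 else γ ((t + T) / 2) t) = γ s t
          rw [if_neg htt]
          rcases le_total ((t + T) / 2) s with h4 | h4
          · exact hcomp _ _ h3 h4 hs2 t ⟨ht'.1.le, h1.le⟩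
          · exact (hcomp _ _ hs.1 h4 h2 t ⟨ht'.1.le, ht'.2.le⟩).symm
      have hmem : t₀ ∈ Ioo (t₁ - 1) s := ⟨by linarith, hs1⟩
      have hev : c =ᶠ[nhds t₀] γ s := by
        filter_upwards [isOpen_Ioo.mem_nhds hmem] with t ht'
        exact hagree t ht'
      rw [hagree t₀ hmem]
      exact ((hγ s hs t₀ (Ioo_subset_Icc_self hmem)).hasDerivAt
        (Icc_mem_nhds hmem.1 hmem.2)).congr_of_eventuallyEq hev
  refine ⟨c, ?_, hc0, fun t ht' i => ?_⟩
  · exact fun i => contDiffOn_pi.1 (e2_ode_smooth n T A f hA hf c hder) i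
  · exact hasDerivAt_pi.1 (hder t ht') i

end Claimed.Agent.R324
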