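import Claimed.Agent.R324.E2.Op
import Claimed.Agent.R324.E2.Bern
import Claimed.Agent.R324.E2.Ode

/-
Row 324, module E2 (port of R325/EngGalEx): existence of the Galerkin solutions.
-/

set_option autoImplicit false

namespace Claimed.Agent.R324

open Set
open scoped ContDiff

/-- `e2_linear_ode` for an arbitrary finite index type (reindexing by `Fintype.equivFin`). -/
theorem e2_linear_ode_fintype {ι : Type} [Fintype ι] [DecidableEq ι] (t₁ T : ℝ) (ht : t₁ < T)
    (A : ℝ → Matrix ι ι ℝ) (f : ℝ → ι → ℝ) (hA : ∀ i j, ContDiffOn ℝ ∞ (fun t => A t i j) (Iio T))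
    (hf : ∀ i, ContDiffOn ℝ ∞ (fun t => f t i) (Iio T)) (hf0 : ∀ t ≤ t₁, f t = 0) :
    ∃ c : ℝ → ι → ℝ, (∀ i, ContDiffOn ℝ ∞ (fun t => c t i) (Iio T)) ∧ (∀ t ≤ t₁, c t = 0) ∧
      ∀ t < T, ∀ i, HasDerivAt (fun s => c s i) ((A t).mulVec (c t) i + f t i) t := by
  set e := Fintype.equivFin ι with he
  obtain ⟨c, hc1, hc2, hc3⟩ := e2_linear_ode (Fintype.card ι) t₁ T ht
    (fun t => (A t).submatrix e.symm e.symm) (fun t => fun k => f t (e.symm k))
    (fun i j => hA (e.symm i) (e.symm j)) (fun i => hf (e.symm i))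
    (fun t ht => by funext k; rw [hf0 t ht]; rfl)
  refine ⟨fun t i => c t (e i), fun i => hc1 (e i), fun t ht => ?_, fun t ht i => ?_⟩
  · funext i
    show c t (e i) = 0
    rw [hc2 t ht]
    rfl
  · have h := hc3 t ht (e i)
    have e1 : ((A t).submatrix e.symm e.symm).mulVec (c t) (e i)
        = (A t).mulVec (fun i => c t (e i)) i := by
      simp only [Matrix.mulVec, dotProduct, Matrix.submatrix_apply, Equiv.symm_apply_apply]
      rw [← Equiv.sum_comp e]
      simp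
    rw [e1, Equiv.symm_apply_apply] at h
    exact h

/-- the Gram matrix of the monomials for `<,>_m`. -/
noncomputable def e2Gram (m N : ℕ) : Matrix (Fin (N + 1)) (Fin (N + 1)) ℝ :=
  fun l k => e2Ip m (fun x => x ^ (l : ℕ)) (fun x => x ^ (k : ℕ))

/-- `cᵀ G c = <v,v>_m` with `v = Σ c_k x^k`. -/
theorem e2Gram_quad (m N : ℕ) (c : Fin (N + 1) → ℝ) :
    c ⬝ᵥ (e2Gram m N).mulVec c
      = e2Ip m (fun x => ∑ k : Fin (N + 1), c k * x ^ (k : ℕ)) (fun x => ∑ k : Fin (N + 1), c k * x ^ (k : ℕ)) := by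
  have hc : ∀ k : Fin (N + 1), Continuous (fun x : ℝ => c k * x ^ (k : ℕ)) := fun k => by fun_prop
  have hs : Continuous (fun x : ℝ => ∑ k : Fin (N + 1), c k * x ^ (k : ℕ)) := by fun_prop
  rw [e2Ip_sum_left m Finset.univ (fun k _ => hc k) hs]
  simp only [dotProduct, Matrix.mulVec]
  refine Finset.sum_congr rfl fun l _ => ?_
  rw [e2Ip_smul_left, e2Ip_sum_right m Finset.univ (fun k _ => hc k) (by fun_prop)]
  congr 1
  refine Finset.sum_congr rfl fun k _ => ?_
  rw [e2Ip_smul_right]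
  unfold e2Gram
  ring

/-- a polynomial function `Σ c_k x^k` which vanishes everywhere has zero coefficients. -/
theorem e2_galex_coef_zero (N : ℕ) (c : Fin (N + 1) → ℝ)
    (h : ∀ x : ℝ, ∑ k : Fin (N + 1), c k * x ^ (k : ℕ) = 0) : c = 0 := by
  classical
  set p : Polynomial ℝ := ∑ k : Fin (N + 1), Polynomial.C (c k) * Polynomial.X ^ (k : ℕ) with hp
  have hp0 : p = 0 := by
    apply Polynomial.funext
    intro x
    rw [hp, Polynomial.eval_finsetSum, Polynomial.eval_zero, ← h x]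
    refine Finset.sum_congr rfl fun k _ => ?_
    simp
  funext j
  have hj : p.coeff (j : ℕ) = c j := by
    rw [hp, Polynomial.finsetSum_coeff, Finset.sum_eq_single j]
    · simp
    · intro k _ hk
      rw [Polynomial.coeff_C_mul_X_pow, if_neg]
      intro hjk
      exact hk (Fin.ext hjk.symm)
    · intro hj
      exact absurd (Finset.mem_univ j) hj
  rw [← hj, hp0]
  simp

theorem e2_galex_poly (N : ℕ) (c : Fin (N + 1) → ℝ) :
    E2Poly N (fun x => ∑ k : Fin (N + 1), c k * x ^ (k : ℕ)) := by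
  refine ⟨∑ k : Fin (N + 1), Polynomial.C (c k) * Polynomial.X ^ (k : ℕ), ?_, fun x => ?_⟩
  · refine Polynomial.natDegree_sum_le_of_forall_le _ _ fun k _ => ?_
    exact (Polynomial.natDegree_C_mul_X_pow_le _ _).trans (Nat.lt_succ_iff.1 k.2)
  · rw [Polynomial.eval_finsetSum]
    refine Finset.sum_congr rfl fun k _ => ?_
    simp

/-- The Gram matrix is invertible. -/
theorem e2Gram_inv (m N : ℕ) : ∃ Gi : Matrix (Fin (N + 1)) (Fin (N + 1)) ℝ,
    e2Gram m N * Gi = 1 ∧ Gi * e2Gram m N = 1 := by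
  have hdet : (e2Gram m N).det ≠ 0 := by
    intro h0
    obtain ⟨v, hv, hGv⟩ := Matrix.exists_mulVec_eq_zero_iff.2 h0
    have hq := e2Gram_quad m N v
    rw [hGv, dotProduct_zero] at hq
    exact hv (e2_galex_coef_zero N v (e2_poly_eq_zero m (e2_galex_poly N v) hq.symm))
  have hu : IsUnit (e2Gram m N).det := isUnit_iff_ne_zero.2 hdet
  exact ⟨(e2Gram m N)⁻¹, Matrix.mul_nonsing_inv _ hu, Matrix.nonsing_inv_mul _ hu⟩

/-- the vector monomial `x^k e_j`. -/
noncomputable def e2Mono (j : Fin 3) (k : ℕ) : Fin 3 → ℝ × ℝ → ℝ :=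
  fun j' q => if j' = j then q.2 ^ k else 0

theorem e2Mono_sm (T : ℝ) (j : Fin 3) (k : ℕ) (j' : Fin 3) : E2Sm T (e2Mono j k j') := by
  by_cases h : j' = j
  · have : e2Mono j k j' = fun q => q.2 ^ k := by
      funext q
      simp [e2Mono, h]
    rw [this]
    exact e2Sm_of_x T (φ := fun y => y ^ k) (contDiff_id.pow k)
  · have : e2Mono j k j' = fun _ => 0 := by
      funext q
      simp [e2Mono, h]
    rw [this]
    exact e2Sm_const T 0

/-- the stiffness matrix `B(t)_{(j,l),(k,p)} = <S₀(x^p e_k)_j(t,·), x^l>_{m_j}`. -/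
noncomputable def e2Stiff (D : E2Data) (N : ℕ) (t : ℝ) :
    Matrix (Fin 3 × Fin (N + 1)) (Fin 3 × Fin (N + 1)) ℝ :=
  fun α β => e2Ip (D.m α.1) (fun x => e2S0 D (e2Mono β.1 (β.2 : ℕ)) α.1 (t, x))
    (fun x => x ^ (α.2 : ℕ))

/-- the load vector `f(t)_{(j,l)} = <F_j(t,·), x^l>_{m_j}`. -/
noncomputable def e2Load (D : E2Data) (N : ℕ) (t : ℝ) : Fin 3 × Fin (N + 1) → ℝ :=
  fun α => e2Ip (D.m α.1) (fun x => D.F α.1 (t, x)) (fun x => x ^ (α.2 : ℕ))

theorem e2Stiff_smooth (D : E2Data) (N : ℕ) (α β : Fin 3 × Fin (N + 1)) :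
    ContDiffOn ℝ ∞ (fun t => e2Stiff D N t α β) (Iio D.T) := by
  exact e2_contDiffOn_ip_left (D.m α.1)
    (e2Sm_S0 D (e2Mono_sm D.T β.1 (β.2 : ℕ)) α.1)
    (v := fun x => x ^ (α.2 : ℕ)) (contDiff_id.pow _)

theorem e2Load_smooth (D : E2Data) (N : ℕ) (α : Fin 3 × Fin (N + 1)) :
    ContDiffOn ℝ ∞ (fun t => e2Load D N t α) (Iio D.T) := by
  exact e2_contDiffOn_ip_left (D.m α.1) (D.hF α.1) (v := fun x => x ^ (α.2 : ℕ)) (contDiff_id.pow _)

theorem e2Load_zero (D : E2Data) (N : ℕ) : ∀ t ≤ D.t₁, e2Load D N t = 0 := by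
  intro t ht
  funext α
  show e2Ip (D.m α.1) (fun x => D.F α.1 (t, x)) (fun x => x ^ (α.2 : ℕ)) = 0
  rw [e2Ip_congr (D.m α.1) (f' := fun _ => 0) (g' := fun x => x ^ (α.2 : ℕ))
    (fun x hx => D.hF0 α.1 t ht x hx) (fun _ _ => rfl), e2Ip_zero_left]

/-- hygiene (rule 6): the on-demand equation lemmas are generated here, once. -/
theorem e2GalEx_hygiene : True := by
  have _h1 := @e2Gram.eq_1
  have _h2 := @e2Mono.eq_1
  have _h3 := @e2Stiff.eq_1
  have _h4 := @e2Load.eq_1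
  trivial

/-- linearity of `S₀` on the Galerkin ansatz (coefficients depending on time: `S₀` only involves `x`-operations at a fixed time). -/
theorem e2S0_lin (D : E2Data) (N : ℕ) (c : ℝ → Fin 3 × Fin (N + 1) → ℝ) (p : Fin 3) : ∀ t < D.T, ∀ x,
    e2S0 D (fun j q => ∑ k : Fin (N + 1), c q.1 (j, k) * q.2 ^ (k : ℕ)) p (t, x)
      = ∑ β : Fin 3 × Fin (N + 1), c t β * e2S0 D (e2Mono β.1 (β.2 : ℕ)) p (t, x) := by
  intro t ht x
  obtain ⟨ha, -, -, -, hk, -⟩ := D.slice ht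
  have h := e2Sfix_sum D.μ (fun j y => D.b j (t, y)) (fun j l y => D.c j l (t, y))
    (fun i j y => D.e i j (t, y)) ha hk (Finset.univ : Finset (Fin 3 × Fin (N + 1))) (c t)
    (w := fun β j y => e2Mono β.1 (β.2 : ℕ) j (t, y))
    (fun β _ j => (e2Mono_sm D.T β.1 (β.2 : ℕ) j).slice_x ht) p x
  have e1 : (fun (j : Fin 3) (y : ℝ) => ∑ β : Fin 3 × Fin (N + 1),
        c t β * e2Mono β.1 (β.2 : ℕ) j (t, y))
      = fun j y => ∑ k : Fin (N + 1), c t (j, k) * y ^ (k : ℕ) := by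
    funext j y
    rw [Fintype.sum_prod_type, Finset.sum_eq_single j]
    · simp [e2Mono]
    · intro j' _ hj'
      refine Finset.sum_eq_zero fun k _ => ?_
      simp [e2Mono, Ne.symm hj']
    · intro hj
      exact absurd (Finset.mem_univ j) hj
  rw [e1] at h
  exact h

end Claimed.Agent.R324
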