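import Claimed.Agent.R324.E2.GalEx

/-
Row 324, module E2 (port of R325/EngGalEx, second part): existence of the Galerkin solutions.
-/

set_option autoImplicit false

namespace Claimed.Agent.R324

open Set
open scoped ContDiff

/-- **Existence of the Galerkin solution.**
Let `Gi j` be the inverse of the Gram matrix of `<,>_{m_j}` and `c` the solution of `c_j' = Gi_j (B(t) c + f(t))_j` given by
`e2_linear_ode_fintype` (index type `Fin 3 × Fin (N+1)`).  `u_j(t,x) = Σ_{k ≤ N} c_{(j,k)}(t) x^k`. -/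
theorem e2_gal_exists (D : E2Data) (N : ℕ) : ∃ u : Fin 3 → ℝ × ℝ → ℝ, E2Gal D N u := by
  classical
  choose Gi hG1 hG2 using fun j : Fin 3 => e2Gram_inv (D.m j) N
  set A : ℝ → Matrix (Fin 3 × Fin (N + 1)) (Fin 3 × Fin (N + 1)) ℝ :=
    fun t α β => ∑ l' : Fin (N + 1), Gi α.1 α.2 l' * e2Stiff D N t (α.1, l') β with hAdef
  set f : ℝ → Fin 3 × Fin (N + 1) → ℝ :=
    fun t α => ∑ l' : Fin (N + 1), Gi α.1 α.2 l' * e2Load D N t (α.1, l') with hfdef
  have hA : ∀ α β, ContDiffOn ℝ ∞ (fun t => A t α β) (Iio D.T) := by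
    intro α β
    exact ContDiffOn.sum fun l _ => contDiffOn_const.mul (e2Stiff_smooth D N (α.1, l) β)
  have hf : ∀ α, ContDiffOn ℝ ∞ (fun t => f t α) (Iio D.T) := by
    intro α
    exact ContDiffOn.sum fun l _ => contDiffOn_const.mul (e2Load_smooth D N (α.1, l))
  have hf0 : ∀ t ≤ D.t₁, f t = 0 := by
    intro t ht
    funext α
    show ∑ l' : Fin (N + 1), Gi α.1 α.2 l' * e2Load D N t (α.1, l') = 0
    rw [e2Load_zero D N t ht]
    simp
  obtain ⟨c, hcs, hc0, hcd⟩ := e2_linear_ode_fintype D.t₁ D.T D.ht A f hA hf hf0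
  set cc : Fin 3 → ℕ → ℝ → ℝ := fun j k t => if h : k < N + 1 then c t (j, ⟨k, h⟩) else 0 with hcc
  have hccF : ∀ (j : Fin 3) (k : Fin (N + 1)) (t : ℝ), cc j k t = c t (j, k) := by
    intro j k t
    show (if h : (k : ℕ) < N + 1 then c t (j, ⟨k, h⟩) else 0) = c t (j, k)
    rw [dif_pos k.2]
  refine ⟨fun j q => ∑ k ∈ Finset.range (N + 1), cc j k q.1 * q.2 ^ k,
    ⟨cc, ?_, fun j q => rfl⟩, ?_, ?_⟩
  · intro j k
    by_cases h : k < N + 1
    · have h1 : cc j k = fun t => c t (j, ⟨k, h⟩) := by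
        funext t
        show (if h : k < N + 1 then c t (j, ⟨k, h⟩) else 0) = _
        rw [dif_pos h]
      rw [h1]
      exact hcs (j, ⟨k, h⟩)
    · have h1 : cc j k = fun _ => 0 := by
        funext t
        show (if h : k < N + 1 then c t (j, ⟨k, h⟩) else 0) = _
        rw [dif_neg h]
      rw [h1]
      exact contDiffOn_const
  · intro j t ht x
    apply Finset.sum_eq_zero
    intro k hk
    have h : k < N + 1 := Finset.mem_range.1 hk
    have h1 : cc j k t = 0 := by
      show (if h : k < N + 1 then c t (j, ⟨k, h⟩) else 0) = _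
      rw [dif_pos h, hc0 t ht]
      rfl
    show cc j k t * x ^ k = 0
    rw [h1, zero_mul]
  · intro j t ht v hv
    obtain ⟨d, hd⟩ := hv.exists_coef
    set u : Fin 3 → ℝ × ℝ → ℝ := fun j q => ∑ k ∈ Finset.range (N + 1), cc j k q.1 * q.2 ^ k with hu
    have hu' : u = fun j q => ∑ k : Fin (N + 1), c q.1 (j, k) * q.2 ^ (k : ℕ) := by
      funext j q
      simp only [hu]
      rw [Finset.sum_range]
      exact Finset.sum_congr rfl fun k _ => by rw [hccF]
    set c' : Fin 3 × Fin (N + 1) → ℝ := fun α => (A t).mulVec (c t) α + f t α with hc'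
    have hpdt : ∀ x, e2Pdt (u j) (t, x) = ∑ k : Fin (N + 1), c' (j, k) * x ^ (k : ℕ) := by
      intro x
      have h1 : HasDerivAt (fun s => ∑ k : Fin (N + 1), c s (j, k) * x ^ (k : ℕ))
          (∑ k : Fin (N + 1), c' (j, k) * x ^ (k : ℕ)) t := by
        apply HasDerivAt.fun_sum
        intro k _
        exact (hcd t ht (j, k)).mul_const _
      have h2 : (fun s => u j (s, x)) = fun s => ∑ k : Fin (N + 1), c s (j, k) * x ^ (k : ℕ) := by
        rw [hu']
      show deriv (fun s => u j (s, x)) t = _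
      rw [h2]
      exact h1.deriv
    have hS : ∀ x, e2S D u j (t, x)
        = ∑ β : Fin 3 × Fin (N + 1), c t β * e2S0 D (e2Mono β.1 (β.2 : ℕ)) j (t, x)
          + D.F j (t, x) := by
      intro x
      show e2S0 D u j (t, x) + D.F j (t, x) = _
      rw [hu', e2S0_lin D N c j t ht x]
    have hpow : ∀ k : ℕ, Continuous (fun x : ℝ => x ^ k) := fun k => continuous_pow k
    have hs_cont : ∀ β : Fin 3 × Fin (N + 1),
        Continuous (fun x => e2S0 D (e2Mono β.1 (β.2 : ℕ)) j (t, x)) := by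
      intro β
      exact ((e2Sm_S0 D (e2Mono_sm D.T β.1 (β.2 : ℕ)) j).slice_x ht).continuous
    have hF_cont : Continuous (fun x => D.F j (t, x)) := ((D.hF j).slice_x ht).continuous
    have hr : (fun x => e2Pdt (u j) (t, x) - e2S D u j (t, x)) = fun x =>
        (∑ k : Fin (N + 1), c' (j, k) * x ^ (k : ℕ))
          - ((∑ β : Fin 3 × Fin (N + 1), c t β * e2S0 D (e2Mono β.1 (β.2 : ℕ)) j (t, x))
            + D.F j (t, x)) :=
      funext fun x => by rw [hpdt, hS]
    have hc1 : Continuous (fun x : ℝ => ∑ k : Fin (N + 1), c' (j, k) * x ^ (k : ℕ)) :=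
      continuous_finsetSum _ fun k _ => continuous_const.mul (hpow k)
    have hc2 : Continuous (fun x : ℝ =>
        ∑ β : Fin 3 × Fin (N + 1), c t β * e2S0 D (e2Mono β.1 (β.2 : ℕ)) j (t, x)) :=
      continuous_finsetSum _ fun β _ => continuous_const.mul (hs_cont β)
    have hc3 : Continuous (fun x : ℝ =>
        (∑ β : Fin 3 × Fin (N + 1), c t β * e2S0 D (e2Mono β.1 (β.2 : ℕ)) j (t, x))
          + D.F j (t, x)) :=
      hc2.add hF_cont
    set X : Fin (N + 1) → ℝ :=
      fun l' => (e2Stiff D N t).mulVec (c t) (j, l') + e2Load D N t (j, l') with hX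
    have hc'X : (fun l => c' (j, l)) = (Gi j).mulVec X := by
      funext l
      simp only [hc', hX, hAdef, hfdef, Matrix.mulVec, dotProduct, mul_add, Finset.sum_add_distrib,
        Finset.sum_mul, Finset.mul_sum]
      congr 1
      rw [Finset.sum_comm]
      exact Finset.sum_congr rfl fun l' _ => Finset.sum_congr rfl fun β _ => by ring
    have hGc' : (e2Gram (D.m j) N).mulVec (fun l => c' (j, l)) = X := by
      rw [hc'X, Matrix.mulVec_mulVec, hG1, Matrix.one_mulVec]
    have key : ∀ l : Fin (N + 1),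
        e2Ip (D.m j) (fun x => e2Pdt (u j) (t, x) - e2S D u j (t, x)) (fun x => x ^ (l : ℕ)) = 0 := by
      intro l
      rw [hr, e2Ip_sub_left (D.m j) hc1 hc3 (hpow l),
        e2Ip_add_left (D.m j) hc2 hF_cont (hpow l),
        e2Ip_sum_left (D.m j) Finset.univ (f := fun (k : Fin (N + 1)) x => c' (j, k) * x ^ (k : ℕ))
          (fun k _ => continuous_const.mul (hpow k)) (hpow l),
        e2Ip_sum_left (D.m j) Finset.univ
          (f := fun (β : Fin 3 × Fin (N + 1)) x => c t β * e2S0 D (e2Mono β.1 (β.2 : ℕ)) j (t, x))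
          (fun β _ => continuous_const.mul (hs_cont β)) (hpow l)]
      simp_rw [e2Ip_smul_left]
      have e1 : ∑ k : Fin (N + 1), c' (j, k) * e2Ip (D.m j) (fun x => x ^ (k : ℕ)) (fun x => x ^ (l : ℕ))
          = (e2Gram (D.m j) N).mulVec (fun l => c' (j, l)) l := by
        simp only [Matrix.mulVec, dotProduct, e2Gram]
        exact Finset.sum_congr rfl fun k _ => by rw [e2Ip_comm, mul_comm]
      have e2 : ∑ β : Fin 3 × Fin (N + 1), c t β *
          e2Ip (D.m j) (fun x => e2S0 D (e2Mono β.1 (β.2 : ℕ)) j (t, x)) (fun x => x ^ (l : ℕ))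
          = (e2Stiff D N t).mulVec (c t) (j, l) := by
        simp only [Matrix.mulVec, dotProduct, e2Stiff]
        exact Finset.sum_congr rfl fun k _ => by rw [mul_comm]
      have e3 : e2Ip (D.m j) (fun x => D.F j (t, x)) (fun x => x ^ (l : ℕ)) = e2Load D N t (j, l) := rfl
      rw [e1, e2, e3, hGc']
      simp [hX]
    have hrc : Continuous (fun x => e2Pdt (u j) (t, x) - e2S D u j (t, x)) := by
      rw [hr]
      exact hc1.sub hc3
    have hv' : v = fun x => ∑ k ∈ Finset.range (N + 1), d k * x ^ k := funext hd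
    rw [hv', e2Ip_sum_right (D.m j) (Finset.range (N + 1)) (f := fun k x => d k * x ^ k)
      (fun k _ => continuous_const.mul (hpow k)) hrc]
    apply Finset.sum_eq_zero
    intro k hk
    rw [e2Ip_smul_right, key ⟨k, Finset.mem_range.1 hk⟩, mul_zero]

end Claimed.Agent.R324
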