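import Claimed.Agent.R324.E2.Ip

/-
Row 324, module E2 (copy of the row 325 engine): Hardy inequality and the weighted Sobolev embedding
`sup_{[0,1]} |∂^i u|^2 ≤ C Σ_{j ≤ 2i+m+2} N^m_j(u)^2`.
-/

set_option autoImplicit false

namespace Claimed.Agent.R324

open Set
open scoped ContDiff

theorem e2H_nonneg (α : ℕ) (f : ℝ → ℝ) : 0 ≤ e2H α f := by
  unfold e2H
  apply intervalIntegral.integral_nonneg (by norm_num)
  intro x hx
  have h1 : 0 ≤ x * (1 - x) := mul_nonneg hx.1 (by linarith [hx.2])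
  positivity

theorem e2_hardy_aux_cont (α : ℕ) {f : ℝ → ℝ} (hf : Continuous f) :
    Continuous (fun x : ℝ => (x * (1 - x)) ^ α * (f x) ^ 2) := by
  fun_prop

/-- **Hardy.**  With `φ = x(1-x)`:  `d/dx [(x-1/2) φ^(α+1)] = -((α+1)/2) φ^α + (2α+3) φ^(α+1)`
(because `(1-2x)^2 = 1 - 4φ`).  Multiply by `f^2`, integrate over `[0,1]`, integrate by parts (the boundary terms vanish):
`((α+1)/2) H_α(f) = (2α+3) H_{α+1}(f) + 2 ∫ (x-1/2) φ^(α+1) f f'`, and
`2 |x-1/2| φ^(α+1) |f f'| ≤ φ^(α+1)|f||f'| ≤ ((α+1)/4) φ^α f^2 + (1/(α+1)) φ^(α+2) f'^2`.  Hence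
`H_α ≤ (4(2α+3)/(α+1)) H_{α+1} + (4/(α+1)^2) H_{α+2}(f') ≤ 12 H_{α+1}(f) + 4 H_{α+2}(f')`.
(checked numerically on random polynomials for `α ≤ 11`). -/
theorem e2_hardy (α : ℕ) {f : ℝ → ℝ} (hf : ContDiff ℝ ∞ f) :
    e2H α f ≤ 12 * e2H (α + 1) f + 4 * e2H (α + 2) (deriv f) := by
  have hfc : Continuous f := hf.continuous
  have hfd : Differentiable ℝ f := hf.differentiable (by simp)
  have hf'c : Continuous (deriv f) := hf.continuous_deriv (by simp)
  set G : ℝ → ℝ := fun x => (x - 1 / 2) * (x * (1 - x)) ^ (α + 1) * (f x) ^ 2 with hG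
  set G' : ℝ → ℝ := fun x =>
    ((2 * (α : ℝ) + 3) * (x * (1 - x)) ^ (α + 1) - (((α : ℝ) + 1) / 2) * (x * (1 - x)) ^ α)
        * (f x) ^ 2
      + 2 * (x - 1 / 2) * (x * (1 - x)) ^ (α + 1) * f x * deriv f x with hG'
  have hder : ∀ x, HasDerivAt G (G' x) x := by
    intro x
    have h1 : HasDerivAt (fun x : ℝ => x - 1 / 2) 1 x := (hasDerivAt_id x).sub_const _
    have h2 : HasDerivAt (fun x : ℝ => x * (1 - x)) (1 - 2 * x) x := by
      have h : HasDerivAt (fun x : ℝ => x * (1 - x)) _ x :=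
        (hasDerivAt_id x).mul ((hasDerivAt_const x (1 : ℝ)).sub (hasDerivAt_id x))
      refine h.congr_deriv ?_
      simp only [id]
      ring
    have h3 := h2.pow (α + 1)
    have h4 := (hfd x).hasDerivAt.pow 2
    have h5 : HasDerivAt G _ x := (h1.mul h3).mul h4
    refine h5.congr_deriv ?_
    simp only [hG', Pi.pow_apply, Pi.mul_apply, Nat.add_sub_cancel, Nat.cast_add, Nat.cast_one,
      Nat.cast_ofNat]
    ring
  have hG'c : Continuous G' := by
    simp only [hG']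
    fun_prop
  have hint : ∫ x in (0 : ℝ)..1, G' x = 0 := by
    rw [intervalIntegral.integral_eq_sub_of_hasDerivAt (fun x _ => hder x)
      (hG'c.intervalIntegrable _ _)]
    simp [hG]
  have c0 := e2_hardy_aux_cont α hfc
  have c1 := e2_hardy_aux_cont (α + 1) hfc
  have c2 := e2_hardy_aux_cont (α + 2) hf'c
  have key : 0 ≤ ∫ x in (0 : ℝ)..1,
      (((α : ℝ) + 1) * (12 * ((x * (1 - x)) ^ (α + 1) * (f x) ^ 2)
        + 4 * ((x * (1 - x)) ^ (α + 2) * (deriv f x) ^ 2)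
        - (x * (1 - x)) ^ α * (f x) ^ 2) - 4 * G' x) := by
    apply intervalIntegral.integral_nonneg (by norm_num)
    intro x hx
    have hφ : 0 ≤ x * (1 - x) := mul_nonneg hx.1 (by linarith [hx.2])
    set φ := x * (1 - x) with hφdef
    set a := f x
    set b := deriv f x
    have hα : (0 : ℝ) ≤ α := Nat.cast_nonneg _
    have hpa : 0 ≤ φ ^ α := pow_nonneg hφ _
    have e : ((α : ℝ) + 1) * (12 * (φ ^ (α + 1) * a ^ 2) + 4 * (φ ^ (α + 2) * b ^ 2)
          - φ ^ α * a ^ 2) - 4 * G' x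
        = φ ^ α * (4 * α * φ * a ^ 2 + α * (a ^ 2 + 4 * φ ^ 2 * b ^ 2)
            + ((a - 2 * (2 * x - 1) * (φ * b)) ^ 2
              + 4 * (1 - (2 * x - 1) ^ 2) * (φ * b) ^ 2)) := by
      simp only [hG']
      ring
    rw [e]
    have h4 : 0 ≤ 1 - (2 * x - 1) ^ 2 := by
      have : 1 - (2 * x - 1) ^ 2 = 4 * φ := by rw [hφdef]; ring
      rw [this]; positivity
    positivity
  have split : ∫ x in (0 : ℝ)..1,
      (((α : ℝ) + 1) * (12 * ((x * (1 - x)) ^ (α + 1) * (f x) ^ 2)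
        + 4 * ((x * (1 - x)) ^ (α + 2) * (deriv f x) ^ 2)
        - (x * (1 - x)) ^ α * (f x) ^ 2) - 4 * G' x)
      = ((α : ℝ) + 1) * (12 * e2H (α + 1) f + 4 * e2H (α + 2) (deriv f) - e2H α f) := by
    unfold e2H
    rw [intervalIntegral.integral_sub, intervalIntegral.integral_const_mul,
      intervalIntegral.integral_sub, intervalIntegral.integral_add,
      intervalIntegral.integral_const_mul, intervalIntegral.integral_const_mul,
      intervalIntegral.integral_const_mul, hint]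
    · ring
    all_goals apply Continuous.intervalIntegrable; fun_prop
  rw [split] at key
  have hα1 : (0 : ℝ) < (α : ℝ) + 1 := by positivity
  have := nonneg_of_mul_nonneg_right key hα1
  linarith

/-- `H_α(∂^j u) ≤ N^m_j(u)^2` if `m + j ≤ α`. -/
theorem e2H_le_Nsq (m α j : ℕ) (h : m + j ≤ α) {u : ℝ → ℝ} (hu : ContDiff ℝ ∞ u) :
    e2H α (iteratedDeriv j u) ≤ e2Nsq m j u := by
  have hc : Continuous (iteratedDeriv j u) := hu.continuous_iteratedDeriv j (by exact_mod_cast le_top)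
  rw [← e2Ip_self_eq_H]
  exact e2Ip_self_weight_le' h hc

theorem e2_hardy_aux_sum_mono (m : ℕ) (u : ℝ → ℝ) {a b : ℕ} (h : a ≤ b) :
    ∑ l ∈ Finset.range a, e2Nsq m l u ≤ ∑ l ∈ Finset.range b, e2Nsq m l u :=
  Finset.sum_le_sum_of_subset_of_nonneg (Finset.range_mono h)
    (fun l _ _ => e2Nsq_nonneg m l u)

theorem e2_hardy_aux_single (m : ℕ) (u : ℝ → ℝ) {j b : ℕ} (h : j < b) :
    e2Nsq m j u ≤ ∑ l ∈ Finset.range b, e2Nsq m l u :=
  Finset.single_le_sum (f := fun l => e2Nsq m l u) (fun l _ => e2Nsq_nonneg m l u)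
    (Finset.mem_range.2 h)

theorem e2_hardy_aux_sum_nonneg (m : ℕ) (u : ℝ → ℝ) (b : ℕ) :
    0 ≤ ∑ l ∈ Finset.range b, e2Nsq m l u :=
  Finset.sum_nonneg (fun l _ => e2Nsq_nonneg m l u)

/-- Induction on the deficiency `δ`:  `H_α(∂^j u) ≤ 16^δ Σ_{l ≤ j+δ} N_l(u)^2` if `m + j ≤ α + δ`.
`δ = 0`: `e2H_le_Nsq`.  Step: if `m + j ≤ α` use `e2H_le_Nsq` again, otherwise `e2_hardy` and the induction hypothesis for
`(j, α+1)` and `(j+1, α+2)` (both have deficiency `δ`), `deriv (iteratedDeriv j u) = iteratedDeriv (j+1) u`. -/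
theorem e2H_bound (m δ : ℕ) : ∀ (j α : ℕ), m + j ≤ α + δ → ∀ {u : ℝ → ℝ}, ContDiff ℝ ∞ u →
    e2H α (iteratedDeriv j u) ≤ 16 ^ δ * ∑ l ∈ Finset.range (j + δ + 1), e2Nsq m l u := by
  have base : ∀ (δ j α : ℕ), m + j ≤ α → ∀ {u : ℝ → ℝ}, ContDiff ℝ ∞ u →
      e2H α (iteratedDeriv j u) ≤ 16 ^ δ * ∑ l ∈ Finset.range (j + δ + 1), e2Nsq m l u := by
    intro δ j α h u hu
    have h1 := e2H_le_Nsq m α j h hu
    have h2 : e2Nsq m j u ≤ ∑ l ∈ Finset.range (j + δ + 1), e2Nsq m l u :=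
      e2_hardy_aux_single m u (by omega)
    have h3 := e2_hardy_aux_sum_nonneg m u (j + δ + 1)
    have h4 : (1 : ℝ) ≤ 16 ^ δ := one_le_pow₀ (by norm_num)
    nlinarith
  induction δ with
  | zero =>
    intro j α h u hu
    exact base 0 j α (by omega) hu
  | succ δ ih =>
    intro j α h u hu
    by_cases hα : m + j ≤ α
    · exact base (δ + 1) j α hα hu
    · have hj : ContDiff ℝ ∞ (iteratedDeriv j u) := by
        rw [iteratedDeriv_eq_iterate]
        exact hu.iterate_deriv j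
      have h1 := e2_hardy α hj
      have e : deriv (iteratedDeriv j u) = iteratedDeriv (j + 1) u := by
        rw [iteratedDeriv_succ]
      rw [e] at h1
      have h2 := ih j (α + 1) (by omega) hu
      have h3 := ih (j + 1) (α + 2) (by omega) hu
      have h4 : ∑ l ∈ Finset.range (j + δ + 1), e2Nsq m l u
          ≤ ∑ l ∈ Finset.range (j + (δ + 1) + 1), e2Nsq m l u :=
        e2_hardy_aux_sum_mono m u (by omega)
      have h5 : ∑ l ∈ Finset.range (j + 1 + δ + 1), e2Nsq m l u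
          ≤ ∑ l ∈ Finset.range (j + (δ + 1) + 1), e2Nsq m l u :=
        e2_hardy_aux_sum_mono m u (by omega)
      have h6 : (0 : ℝ) < 16 ^ δ := by positivity
      have h7 := mul_le_mul_of_nonneg_left h4 h6.le
      have h8 := mul_le_mul_of_nonneg_left h5 h6.le
      rw [pow_succ]
      linarith

/-- one-dimensional Sobolev: `f(x)^2 ≤ 2 ∫_0^1 f^2 + 2 ∫_0^1 f'^2` for `x ∈ [0,1]`.
(`f x = f y + ∫_y^x f'`, so `f(x)^2 ≤ 2 f(y)^2 + 2 ∫_0^1 f'^2` by Cauchy-Schwarz; integrate in `y`.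
Alternatively: pick `y` minimising `|f|` on `[0,1]`.) -/
theorem e2_sup_le_H {f : ℝ → ℝ} (hf : ContDiff ℝ ∞ f) :
    ∀ x ∈ Icc (0 : ℝ) 1, (f x) ^ 2 ≤ 2 * e2H 0 f + 2 * e2H 0 (deriv f) := by
  intro x hx
  have hfc : Continuous f := hf.continuous
  have hfd : Differentiable ℝ f := hf.differentiable (by simp)
  have hf'c : Continuous (deriv f) := hf.continuous_deriv (by simp)
  have e0 : e2H 0 f = ∫ x in (0 : ℝ)..1, (f x) ^ 2 := by simp [e2H]
  have e1 : e2H 0 (deriv f) = ∫ x in (0 : ℝ)..1, (deriv f x) ^ 2 := by simp [e2H]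
  have n1 : 0 ≤ e2H 0 (deriv f) := e2H_nonneg _ _
  -- minimiser of `f^2`
  obtain ⟨y, hy, hmin⟩ := (isCompact_Icc (a := (0 : ℝ)) (b := 1)).exists_isMinOn
    ⟨0, by simp⟩ (f := fun x => (f x) ^ 2) (by fun_prop)
  have hy2 : (f y) ^ 2 ≤ e2H 0 f := by
    rw [e0]
    have : ∫ _x in (0 : ℝ)..1, (f y) ^ 2 ≤ ∫ x in (0 : ℝ)..1, (f x) ^ 2 := by
      apply intervalIntegral.integral_mono_on (by norm_num)
      · exact intervalIntegrable_const
      · apply Continuous.intervalIntegrable; fun_prop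
      · intro z hz
        exact hmin hz
    simpa using this
  -- fundamental theorem for `f^2`
  have hder : ∀ z, HasDerivAt (fun z => (f z) ^ 2) (2 * f z * deriv f z) z := by
    intro z
    have h : HasDerivAt (fun z => (f z) ^ 2) _ z := (hfd z).hasDerivAt.pow 2
    refine h.congr_deriv ?_
    simp
  have hc : Continuous (fun z => 2 * f z * deriv f z) := by fun_prop
  have hftc : ∫ z in y..x, 2 * f z * deriv f z = (f x) ^ 2 - (f y) ^ 2 :=
    intervalIntegral.integral_eq_sub_of_hasDerivAt (fun z _ => hder z)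
      (hc.intervalIntegrable _ _)
  have hb : |∫ z in y..x, 2 * f z * deriv f z| ≤ e2H 0 f + e2H 0 (deriv f) := by
    have h1 : ‖∫ z in y..x, 2 * f z * deriv f z‖
        ≤ ∫ z in uIoc y x, ‖2 * f z * deriv f z‖ :=
      intervalIntegral.norm_integral_le_integral_norm_uIoc
    have hsub : uIoc y x ⊆ Ioc (0 : ℝ) 1 := by
      intro z hz
      rw [uIoc, mem_Ioc] at hz
      constructor
      · exact lt_of_le_of_lt (le_min hy.1 hx.1) hz.1
      · exact le_trans hz.2 (max_le hy.2 hx.2)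
    have h2 : ∫ z in uIoc y x, ‖2 * f z * deriv f z‖
        ≤ ∫ z in Ioc (0 : ℝ) 1, ‖2 * f z * deriv f z‖ := by
      apply MeasureTheory.setIntegral_mono_set
      · exact (hc.norm.integrableOn_Icc (a := (0 : ℝ)) (b := 1)).mono_set Ioc_subset_Icc_self
      · exact Filter.Eventually.of_forall (fun z => norm_nonneg _)
      · exact hsub.eventuallyLE
    have h3 : ∫ z in Ioc (0 : ℝ) 1, ‖2 * f z * deriv f z‖
        ≤ ∫ z in Ioc (0 : ℝ) 1, ((f z) ^ 2 + (deriv f z) ^ 2) := by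
      apply MeasureTheory.setIntegral_mono
      · exact (hc.norm.integrableOn_Icc (a := (0 : ℝ)) (b := 1)).mono_set Ioc_subset_Icc_self
      · have hc2 : Continuous (fun z => (f z) ^ 2 + (deriv f z) ^ 2) := by fun_prop
        exact (hc2.integrableOn_Icc (a := (0 : ℝ)) (b := 1)).mono_set Ioc_subset_Icc_self
      · intro z
        simp only [Real.norm_eq_abs]
        rw [abs_le]
        constructor
        · nlinarith [sq_nonneg (f z + deriv f z)]
        · nlinarith [sq_nonneg (f z - deriv f z)]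
    have h4 : ∫ z in Ioc (0 : ℝ) 1, ((f z) ^ 2 + (deriv f z) ^ 2)
        = e2H 0 f + e2H 0 (deriv f) := by
      rw [e0, e1, ← intervalIntegral.integral_add, intervalIntegral.integral_of_le (by norm_num)]
      · apply Continuous.intervalIntegrable; fun_prop
      · apply Continuous.intervalIntegrable; fun_prop
    rw [Real.norm_eq_abs] at h1
    linarith
  rw [hftc] at hb
  have := (abs_le.1 hb).2
  linarith

/-- **weighted Sobolev embedding.**  `e2_sup_le_H` for `f = ∂^i u`, then `e2H_bound` with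
`(j,α,δ) = (i,0,m+i)` and `(i+1,0,m+1+i)`. -/
theorem e2_sobolev (m i : ℕ) : ∃ C : ℝ, 0 ≤ C ∧ ∀ u : ℝ → ℝ, ContDiff ℝ ∞ u →
    ∀ x ∈ Icc (0 : ℝ) 1,
      (iteratedDeriv i u x) ^ 2 ≤ C * ∑ j ∈ Finset.range (2 * i + m + 3), e2Nsq m j u := by
  refine ⟨2 * 16 ^ (m + i) + 2 * 16 ^ (m + 1 + i), by positivity, ?_⟩
  intro u hu x hx
  have hj : ContDiff ℝ ∞ (iteratedDeriv i u) := by
    rw [iteratedDeriv_eq_iterate]
    exact hu.iterate_deriv i
  have h1 := e2_sup_le_H hj x hx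
  have e : deriv (iteratedDeriv i u) = iteratedDeriv (i + 1) u := by
    rw [iteratedDeriv_succ]
  rw [e] at h1
  have h2 := e2H_bound m (m + i) i 0 (by omega) hu
  have h3 := e2H_bound m (m + 1 + i) (i + 1) 0 (by omega) hu
  have h4 : ∑ l ∈ Finset.range (i + (m + i) + 1), e2Nsq m l u
      ≤ ∑ l ∈ Finset.range (2 * i + m + 3), e2Nsq m l u :=
    e2_hardy_aux_sum_mono m u (by omega)
  have h5 : ∑ l ∈ Finset.range (i + 1 + (m + 1 + i) + 1), e2Nsq m l u
      ≤ ∑ l ∈ Finset.range (2 * i + m + 3), e2Nsq m l u :=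
    e2_hardy_aux_sum_mono m u (by omega)
  have h6 : (0 : ℝ) < 16 ^ (m + i) := by positivity
  have h7 : (0 : ℝ) < 16 ^ (m + 1 + i) := by positivity
  have h8 := mul_le_mul_of_nonneg_left h4 h6.le
  have h9 := mul_le_mul_of_nonneg_left h5 h7.le
  linarith

end Claimed.Agent.R324
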