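import Claimed.Agent.R324.E2.Ip

/-
Row 324, module E2 (copy of the row 325 engine): Leibniz remainder  `∂^j (b f) - b ∂^j f`.
-/

set_option autoImplicit false

namespace Claimed.Agent.R324

open Set
open scoped ContDiff

theorem e2_leib_aux_formula (j : ℕ) {b f : ℝ → ℝ} (hb : ContDiff ℝ ∞ b) (hf : ContDiff ℝ ∞ f)
    (x : ℝ) :
    iteratedDeriv j (fun y => b y * f y) x = ∑ i ∈ Finset.range (j + 1),
      (j.choose i : ℝ) * iteratedDeriv i b x * iteratedDeriv (j - i) f x := by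
  have hb' : ContDiffAt ℝ (j : ℕ∞) b x := (hb.of_le (by exact_mod_cast le_top)).contDiffAt
  have hf' : ContDiffAt ℝ (j : ℕ∞) f x := (hf.of_le (by exact_mod_cast le_top)).contDiffAt
  exact iteratedDeriv_fun_mul hb' hf'

theorem e2_leib_aux_choose (j i : ℕ) : (j.choose i : ℝ) ≤ 2 ^ j := by
  have h : j.choose i ≤ 2 ^ j := Nat.choose_le_two_pow j i
  exact_mod_cast h

theorem e2_leib_aux_cont (l : ℕ) {f : ℝ → ℝ} (hf : ContDiff ℝ ∞ f) :
    Continuous (iteratedDeriv l f) :=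
  hf.continuous_iteratedDeriv l (by exact_mod_cast le_top)

theorem e2_leib_aux_mul {b f : ℝ → ℝ} (hb : ContDiff ℝ ∞ b) (hf : ContDiff ℝ ∞ f) :
    ContDiff ℝ ∞ (fun y => b y * f y) := hb.mul hf

/-- Pointwise Leibniz remainder.  Use the Leibniz formula (`iteratedDeriv_mul`, or
`iteratedDerivWithin_mul`; or a direct induction on `j` generalising `b`), isolate the term without derivative on `b`,
`Σ_l choose j l ≤ 2^j`. -/
theorem e2_leibniz_rem (j : ℕ) {b f : ℝ → ℝ} (hb : ContDiff ℝ ∞ b) (hf : ContDiff ℝ ∞ f) {A : ℝ}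
    (hA : ∀ l ≤ j, ∀ x ∈ Icc (0 : ℝ) 1, |iteratedDeriv l b x| ≤ A) :
    ∀ x ∈ Icc (0 : ℝ) 1,
      |iteratedDeriv j (fun y => b y * f y) x - b x * iteratedDeriv j f x|
        ≤ 2 ^ j * A * ∑ l ∈ Finset.range j, |iteratedDeriv l f x| := by
  intro x hx
  have hA0 : 0 ≤ A := le_trans (abs_nonneg _) (hA 0 (Nat.zero_le _) x hx)
  rw [e2_leib_aux_formula j hb hf x, Finset.sum_range_succ']
  have h0 : ((j.choose 0 : ℕ) : ℝ) * iteratedDeriv 0 b x * iteratedDeriv (j - 0) f x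
      = b x * iteratedDeriv j f x := by
    simp [iteratedDeriv_zero]
  rw [h0, add_sub_cancel_right]
  calc |∑ k ∈ Finset.range j, ((j.choose (k + 1) : ℕ) : ℝ) * iteratedDeriv (k + 1) b x
          * iteratedDeriv (j - (k + 1)) f x|
      ≤ ∑ k ∈ Finset.range j, |((j.choose (k + 1) : ℕ) : ℝ) * iteratedDeriv (k + 1) b x
          * iteratedDeriv (j - (k + 1)) f x| := Finset.abs_sum_le_sum_abs _ _
    _ ≤ ∑ k ∈ Finset.range j, 2 ^ j * A * |iteratedDeriv (j - 1 - k) f x| := by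
        apply Finset.sum_le_sum
        intro k hk
        have hk' : k + 1 ≤ j := Finset.mem_range.mp hk
        rw [abs_mul, abs_mul, Nat.abs_cast]
        have e : j - (k + 1) = j - 1 - k := by omega
        rw [e]
        apply mul_le_mul_of_nonneg_right _ (abs_nonneg _)
        exact mul_le_mul (e2_leib_aux_choose j _) (hA _ hk' x hx) (abs_nonneg _) (by positivity)
    _ = 2 ^ j * A * ∑ l ∈ Finset.range j, |iteratedDeriv l f x| := by
        rw [← Finset.mul_sum]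
        congr 1
        exact Finset.sum_range_reflect (fun l => |iteratedDeriv l f x|) j

/-- full bound `|∂^j (b f)| ≤ 2^j A Σ_{l ≤ j} |∂^l f|`. -/
theorem e2_leibniz_bound (j : ℕ) {b f : ℝ → ℝ} (hb : ContDiff ℝ ∞ b) (hf : ContDiff ℝ ∞ f) {A : ℝ}
    (hA : ∀ l ≤ j, ∀ x ∈ Icc (0 : ℝ) 1, |iteratedDeriv l b x| ≤ A) :
    ∀ x ∈ Icc (0 : ℝ) 1,
      |iteratedDeriv j (fun y => b y * f y) x|
        ≤ 2 ^ j * A * ∑ l ∈ Finset.range (j + 1), |iteratedDeriv l f x| := by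
  intro x hx
  have hA0 : 0 ≤ A := le_trans (abs_nonneg _) (hA 0 (Nat.zero_le _) x hx)
  rw [e2_leib_aux_formula j hb hf x]
  calc |∑ k ∈ Finset.range (j + 1), ((j.choose k : ℕ) : ℝ) * iteratedDeriv k b x
          * iteratedDeriv (j - k) f x|
      ≤ ∑ k ∈ Finset.range (j + 1), |((j.choose k : ℕ) : ℝ) * iteratedDeriv k b x
          * iteratedDeriv (j - k) f x| := Finset.abs_sum_le_sum_abs _ _
    _ ≤ ∑ k ∈ Finset.range (j + 1), 2 ^ j * A * |iteratedDeriv (j + 1 - 1 - k) f x| := by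
        apply Finset.sum_le_sum
        intro k hk
        have hk' : k ≤ j := Nat.lt_succ_iff.mp (Finset.mem_range.mp hk)
        rw [abs_mul, abs_mul, Nat.abs_cast]
        have e : j - k = j + 1 - 1 - k := by omega
        rw [e]
        apply mul_le_mul_of_nonneg_right _ (abs_nonneg _)
        exact mul_le_mul (e2_leib_aux_choose j _) (hA _ hk' x hx) (abs_nonneg _) (by positivity)
    _ = 2 ^ j * A * ∑ l ∈ Finset.range (j + 1), |iteratedDeriv l f x| := by
        rw [← Finset.mul_sum]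
        congr 1
        exact Finset.sum_range_reflect (fun l => |iteratedDeriv l f x|) (j + 1)

/-- common weighted step: `|g| ≤ c Σ_{l<n} |∂^l f|` on `[0,1]` gives
`<g,g>_i ≤ c^2 n Σ_{l<n} <∂^l f,∂^l f>_i`. -/
theorem e2_leib_aux_ip (i n : ℕ) {g f : ℝ → ℝ} (hg : Continuous g) (hf : ContDiff ℝ ∞ f) {c : ℝ}
    (h : ∀ x ∈ Icc (0 : ℝ) 1, |g x| ≤ c * ∑ l ∈ Finset.range n, |iteratedDeriv l f x|) :
    e2Ip i g g
      ≤ c ^ 2 * n * ∑ l ∈ Finset.range n, e2Ip i (iteratedDeriv l f) (iteratedDeriv l f) := by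
  have hc : ∀ l, Continuous (fun x => |iteratedDeriv l f x|) :=
    fun l => (e2_leib_aux_cont l hf).abs
  have hS : Continuous (fun x => ∑ l ∈ Finset.range n, |iteratedDeriv l f x|) :=
    continuous_finsetSum _ (fun l _ => hc l)
  have h1 : e2Ip i g g ≤ e2Ip i (fun x => c * ∑ l ∈ Finset.range n, |iteratedDeriv l f x|)
      (fun x => c * ∑ l ∈ Finset.range n, |iteratedDeriv l f x|) := by
    apply e2Ip_self_mono i hg (continuous_const.mul hS)
    intro x hx
    exact le_trans (h x hx) (le_abs_self _)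
  have h2 : e2Ip i (fun x => c * ∑ l ∈ Finset.range n, |iteratedDeriv l f x|)
      (fun x => c * ∑ l ∈ Finset.range n, |iteratedDeriv l f x|)
      = c ^ 2 * e2Ip i (fun x => ∑ l ∈ Finset.range n, |iteratedDeriv l f x|)
          (fun x => ∑ l ∈ Finset.range n, |iteratedDeriv l f x|) := by
    rw [e2Ip_smul_left, e2Ip_smul_right]; ring
  have h3 := e2Ip_sum_self_le i (Finset.range n) (f := fun l x => |iteratedDeriv l f x|)
    (fun l _ => hc l)
  have h4 : ∀ l, e2Ip i (fun x => |iteratedDeriv l f x|) (fun x => |iteratedDeriv l f x|)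
      = e2Ip i (iteratedDeriv l f) (iteratedDeriv l f) := by
    intro l
    unfold e2Ip
    congr 1
    funext x
    rw [abs_mul_abs_self]
  simp only [h4, Finset.card_range] at h3
  rw [h2] at h1
  calc e2Ip i g g ≤ c ^ 2 * e2Ip i (fun x => ∑ l ∈ Finset.range n, |iteratedDeriv l f x|)
          (fun x => ∑ l ∈ Finset.range n, |iteratedDeriv l f x|) := h1
    _ ≤ c ^ 2 * ((n : ℝ) * ∑ l ∈ Finset.range n, e2Ip i (iteratedDeriv l f) (iteratedDeriv l f)) :=
        mul_le_mul_of_nonneg_left h3 (sq_nonneg c)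
    _ = _ := by ring

/-- weighted version of `e2_leibniz_rem`:
`|∂^j(bf) - b ∂^j f|_i^2 ≤ (2^j A)^2 j Σ_{l<j} |∂^l f|_i^2`
(`e2Ip_self_mono`, then `(Σ_{l<j} a_l)^2 ≤ j Σ a_l^2`, e.g. via `e2Ip_sum_self_le` applied to the functions
`|∂^l f|`, or `sq_sum_le_card_mul_sum_sq` pointwise). -/
theorem e2_leibniz_rem_ip (i j : ℕ) {b f : ℝ → ℝ} (hb : ContDiff ℝ ∞ b) (hf : ContDiff ℝ ∞ f)
    {A : ℝ} (hA : ∀ l ≤ j, ∀ x ∈ Icc (0 : ℝ) 1, |iteratedDeriv l b x| ≤ A) :
    e2Ip i (fun x => iteratedDeriv j (fun y => b y * f y) x - b x * iteratedDeriv j f x)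
        (fun x => iteratedDeriv j (fun y => b y * f y) x - b x * iteratedDeriv j f x)
      ≤ (2 ^ j * A) ^ 2 * j * ∑ l ∈ Finset.range j, e2Ip i (iteratedDeriv l f) (iteratedDeriv l f) := by
  apply e2_leib_aux_ip i j _ hf (e2_leibniz_rem j hb hf hA)
  exact (e2_leib_aux_cont j (e2_leib_aux_mul hb hf)).sub
    (hb.continuous.mul (e2_leib_aux_cont j hf))

/-- weighted version of `e2_leibniz_bound`. -/
theorem e2_leibniz_bound_ip (i j : ℕ) {b f : ℝ → ℝ} (hb : ContDiff ℝ ∞ b) (hf : ContDiff ℝ ∞ f)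
    {A : ℝ} (hA : ∀ l ≤ j, ∀ x ∈ Icc (0 : ℝ) 1, |iteratedDeriv l b x| ≤ A) :
    e2Ip i (iteratedDeriv j (fun y => b y * f y)) (iteratedDeriv j (fun y => b y * f y))
      ≤ (2 ^ j * A) ^ 2 * (j + 1)
          * ∑ l ∈ Finset.range (j + 1), e2Ip i (iteratedDeriv l f) (iteratedDeriv l f) := by
  have h := e2_leib_aux_ip i (j + 1) (e2_leib_aux_cont j (e2_leib_aux_mul hb hf)) hf
    (e2_leibniz_bound j hb hf hA)
  simpa using h

end Claimed.Agent.R324
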