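import Claimed.Agent.R324.E2.Comm
import Claimed.Agent.R324.E2.Leib
import Claimed.Agent.R324.E2.Hardy

/-
Row 324, module E2: fixed time estimates, tested with `T_j` (scalar lemmas): the principal part.
Model: R325/EngGard.lean (section "R325/EngGard.lean" of Claimed/Agent/R325/Pk27.lean) and `eng_Rfix_bound` in R325/EngFix.lean (same pack).
Everywhere: `<f, T_j v>_m = <∂^j f, ∂^j v>_{m+j}` (`e2_ip_T`), `iteratedDeriv l (deriv u) = iteratedDeriv (l+1) u` (`e2_gard_aux_iter`).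
-/

set_option autoImplicit false

namespace Claimed.Agent.R324

open Set
open scoped ContDiff

theorem e2_gard_aux_iter (l : ℕ) (u : ℝ → ℝ) :
    iteratedDeriv l (deriv u) = iteratedDeriv (l + 1) u := by
  rw [iteratedDeriv_succ']

theorem e2_gard_aux_shift_sum (m j α : ℕ) (hα : m + j ≤ α) {u : ℝ → ℝ} (hu : ContDiff ℝ ∞ u) :
    ∑ l ∈ Finset.range j, e2Ip α (iteratedDeriv l (deriv u)) (iteratedDeriv l (deriv u))
      ≤ ∑ i ∈ Finset.range (j + 1), e2Nsq m i u := by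
  rw [Finset.sum_range_succ']
  have h0 : 0 ≤ e2Nsq m 0 u := e2Nsq_nonneg _ _ _
  have h1 : ∑ l ∈ Finset.range j, e2Ip α (iteratedDeriv l (deriv u)) (iteratedDeriv l (deriv u))
      ≤ ∑ l ∈ Finset.range j, e2Nsq m (l + 1) u := by
    refine Finset.sum_le_sum fun l hl => ?_
    rw [e2_gard_aux_iter]
    have hl' : l < j := Finset.mem_range.1 hl
    exact e2Ip_self_weight_le' (by omega) (e2_leib_aux_cont (l + 1) hu)
  linarith

/-- **Garding inequality.**  `<L_b u, T_j u>_m ≥ (m₀/2) N_{j+1}(u)^2 - C Σ_{i ≤ j} N_i(u)^2`, with `C` depending only on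
`m, j`, the lower bound `m₀` of `b` and the bound `A` of `∂^l b`, `l ≤ j`, on `[0,1]`.

Proof (port of `eng_garding`, one order lower).  `<L_b u, T_j u>_m = <∂^j D_m^* g, ∂^j u>_{m+j}` (`e2_ip_T`) with `g = b u'`, then `e2_key_identity`:
  `= <∂^j g, ∂^{j+1} u>_{m+j+1} + j(2m+j+1) <∂^{j-1} g, ∂^j u>_{m+j}`.
* First term: `∂^j g = b ∂^{j+1} u + Rem` (`e2_gard_aux_iter`), `<b ∂^{j+1}u, ∂^{j+1}u>_{m+j+1} ≥ m₀ N_{j+1}^2` (`e2Ip_mul_ge`),
  `|Rem|_{m+j+1}^2 ≤ c Σ_{l<j} |∂^{l+1} u|_{m+j+1}^2 ≤ c Σ_{l<j} N_{l+1}^2` (`e2_leibniz_rem_ip`, `e2Ip_self_weight_le'`),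
  Young (`e2Ip_young` with `δ = m₀/2` on the factor `∂^{j+1}u`): `|<Rem, ∂^{j+1}u>| ≤ (m₀/2) N_{j+1}^2 + (1/(2m₀)) |Rem|^2`.
* Second term (only if `j ≥ 1`): `|<∂^{j-1} g, ∂^j u>_{m+j}| ≤ (|∂^{j-1}g|_{m+j}^2 + N_j^2)/2` and
  `|∂^{j-1} g|_{m+j}^2 ≤ c Σ_{l ≤ j-1} |∂^{l+1}u|_{m+j}^2 ≤ c Σ_{l ≤ j-1} N_{l+1}^2` (`e2_leibniz_bound_ip`). -/
theorem e2_garding (m j : ℕ) (m₀ A : ℝ) (hm : 0 < m₀) : ∃ C : ℝ, 0 ≤ C ∧ ∀ (b u : ℝ → ℝ),
    ContDiff ℝ ∞ b → ContDiff ℝ ∞ u → (∀ x ∈ Icc (0 : ℝ) 1, m₀ ≤ b x) →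
    (∀ l ≤ j, ∀ x ∈ Icc (0 : ℝ) 1, |iteratedDeriv l b x| ≤ A) →
    (m₀ / 2) * e2Nsq m (j + 1) u - C * ∑ i ∈ Finset.range (j + 1), e2Nsq m i u
      ≤ e2Ip m (e2Lfix m b u) (e2T m j u) := by
  set c2 : ℝ := (j : ℝ) * (2 * m + j + 1) with hc2
  have hc2nn : 0 ≤ c2 := by positivity
  set K1 : ℝ := (1 / (2 * m₀)) * ((2 ^ j * A) ^ 2 * j) with hK1
  set K2 : ℝ := (1 / 2) * ((2 ^ (j - 1) * A) ^ 2 * j) + 1 / 2 with hK2
  have hK1nn : 0 ≤ K1 := by positivity
  have hK2nn : 0 ≤ K2 := by positivity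
  refine ⟨K1 + c2 * K2, by positivity, ?_⟩
  intro b u hb hu hbm hbA
  set S := ∑ i ∈ Finset.range (j + 1), e2Nsq m i u with hS
  have hS0 : 0 ≤ S := e2_hardy_aux_sum_nonneg m u (j + 1)
  have hf : ContDiff ℝ ∞ (deriv u) := e2_deriv_contDiff hu
  have hg : ContDiff ℝ ∞ (fun x => b x * deriv u x) := hb.mul hf
  have e1 : e2Ip m (e2Lfix m b u) (e2T m j u)
      = e2Ip (m + j + 1) (iteratedDeriv j (fun x => b x * deriv u x)) (iteratedDeriv (j + 1) u)
        + c2 * e2Ip (m + j) (iteratedDeriv (j - 1) (fun x => b x * deriv u x)) (iteratedDeriv j u) := by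
    rw [e2_ip_T m j (e2Lfix_contDiff m hb hu) hu]
    exact e2_key_identity m j hg hu
  -- the first term
  have hUc : Continuous (iteratedDeriv (j + 1) u) := e2_leib_aux_cont (j + 1) hu
  have hbc : Continuous b := hb.continuous
  set Rem : ℝ → ℝ := fun x => iteratedDeriv j (fun y => b y * deriv u y) x
    - b x * iteratedDeriv j (deriv u) x with hRem
  have hRemc : Continuous Rem :=
    (e2_leib_aux_cont j hg).sub (hbc.mul (e2_leib_aux_cont j hf))
  have e2 : e2Ip (m + j + 1) (iteratedDeriv j (fun x => b x * deriv u x)) (iteratedDeriv (j + 1) u)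
      = e2Ip (m + j + 1) (fun x => b x * iteratedDeriv (j + 1) u x) (iteratedDeriv (j + 1) u)
        + e2Ip (m + j + 1) Rem (iteratedDeriv (j + 1) u) := by
    have hbU : Continuous (fun x => b x * iteratedDeriv (j + 1) u x) := hbc.mul hUc
    rw [← e2Ip_add_left (m + j + 1) hbU hRemc hUc]
    refine e2Ip_congr _ (fun x _ => ?_) (fun x _ => rfl)
    simp only [hRem]
    rw [e2_gard_aux_iter]
    ring
  have h3 : m₀ * e2Nsq m (j + 1) u
      ≤ e2Ip (m + j + 1) (fun x => b x * iteratedDeriv (j + 1) u x) (iteratedDeriv (j + 1) u) :=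
    e2Ip_mul_ge (m + j + 1) hbc hUc hbm
  have h4 : |e2Ip (m + j + 1) Rem (iteratedDeriv (j + 1) u)|
      ≤ (m₀ / 2) * e2Nsq m (j + 1) u + K1 * S := by
    rw [e2Ip_comm]
    have h5 := e2Ip_young (m + j + 1) hUc hRemc (δ := m₀ / 2) (by positivity)
    have h6 : e2Ip (m + j + 1) Rem Rem ≤ (2 ^ j * A) ^ 2 * j * S := by
      refine (e2_leibniz_rem_ip (m + j + 1) j hb hf hbA).trans ?_
      exact mul_le_mul_of_nonneg_left (e2_gard_aux_shift_sum m j (m + j + 1) (by omega) hu)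
        (by positivity)
    have h7 : (1 / (4 * (m₀ / 2))) * e2Ip (m + j + 1) Rem Rem ≤ K1 * S := by
      have e7 : (1 / (4 * (m₀ / 2))) = 1 / (2 * m₀) := by
        congr 1
        ring
      rw [e7, hK1, mul_assoc]
      exact mul_le_mul_of_nonneg_left h6 (by positivity)
    have h8 : e2Ip (m + j + 1) (iteratedDeriv (j + 1) u) (iteratedDeriv (j + 1) u)
        = e2Nsq m (j + 1) u := rfl
    rw [h8] at h5
    linarith
  -- the second term
  have h9 : c2 * |e2Ip (m + j) (iteratedDeriv (j - 1) (fun x => b x * deriv u x)) (iteratedDeriv j u)|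
      ≤ c2 * (K2 * S) := by
    rcases Nat.eq_zero_or_pos j with hj | hj
    · have : c2 = 0 := by
        rw [hc2, hj]
        simp
      rw [this, zero_mul, zero_mul]
    · refine mul_le_mul_of_nonneg_left ?_ hc2nn
      have hGc : Continuous (iteratedDeriv (j - 1) (fun x => b x * deriv u x)) :=
        e2_leib_aux_cont (j - 1) hg
      have hujc : Continuous (iteratedDeriv j u) := e2_leib_aux_cont j hu
      have h10 := e2Ip_young (m + j) hGc hujc (δ := 1 / 2) (by norm_num)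
      have h11 := e2_leibniz_bound_ip (m + j) (j - 1) hb hf
        (fun l hl => hbA l (le_trans hl (Nat.sub_le j 1)))
      have hj1 : j - 1 + 1 = j := Nat.sub_add_cancel hj
      have hj1' : ((j - 1 : ℕ) : ℝ) + 1 = j := by exact_mod_cast hj1
      rw [hj1, hj1'] at h11
      have h12 : e2Ip (m + j) (iteratedDeriv (j - 1) (fun x => b x * deriv u x))
          (iteratedDeriv (j - 1) (fun x => b x * deriv u x)) ≤ (2 ^ (j - 1) * A) ^ 2 * j * S := by
        refine h11.trans ?_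
        exact mul_le_mul_of_nonneg_left (e2_gard_aux_shift_sum m j (m + j) le_rfl hu)
          (by positivity)
      have h13 : e2Ip (m + j) (iteratedDeriv j u) (iteratedDeriv j u) ≤ S :=
        e2_hardy_aux_single m u (Nat.lt_succ_self j)
      have e14 : (1 / (4 * (1 / 2 : ℝ))) = 1 / 2 := by norm_num
      rw [e14] at h10
      rw [hK2]
      nlinarith
  have h15 := abs_le.1 h4
  have h16 : -(c2 * (K2 * S))
      ≤ c2 * e2Ip (m + j) (iteratedDeriv (j - 1) (fun x => b x * deriv u x)) (iteratedDeriv j u) := by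
    have h17 := neg_abs_le
      (e2Ip (m + j) (iteratedDeriv (j - 1) (fun x => b x * deriv u x)) (iteratedDeriv j u))
    have h18 := mul_le_mul_of_nonneg_left h17 hc2nn
    linarith
  rw [e1, e2]
  have h19 := h15.1
  nlinarith

end Claimed.Agent.R324
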