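import Claimed.Agent.R324.E2.Ip

/-
Row 324, module E2 (port of R325/EngIbp): integration by parts for the weighted pairings.
`<f', g>_{α+1} = <f, D_α^* g>_α` because `φ^(α+1)` vanishes at `0` and at `1`.
-/

set_option autoImplicit false

namespace Claimed.Agent.R324

open Set
open scoped ContDiff

theorem e2Dst_contDiff (i : ℕ) {g : ℝ → ℝ} (hg : ContDiff ℝ ∞ g) : ContDiff ℝ ∞ (e2Dst i g) := by
  have hd : ContDiff ℝ ∞ (deriv g) := (contDiff_infty_iff_deriv.1 hg).2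
  unfold e2Dst
  fun_prop

theorem e2Dpow_contDiff (m j : ℕ) {g : ℝ → ℝ} (hg : ContDiff ℝ ∞ g) :
    ContDiff ℝ ∞ (e2Dpow m j g) := by
  induction j generalizing g with
  | zero => exact hg
  | succ j ih => exact ih (e2Dst_contDiff (m + j) hg)

theorem e2_iteratedDeriv_contDiff (j : ℕ) {g : ℝ → ℝ} (hg : ContDiff ℝ ∞ g) :
    ContDiff ℝ ∞ (iteratedDeriv j g) := by
  rw [iteratedDeriv_eq_iterate]
  exact hg.iterate_deriv j

theorem e2_deriv_contDiff {g : ℝ → ℝ} (hg : ContDiff ℝ ∞ g) : ContDiff ℝ ∞ (deriv g) :=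
  (contDiff_infty_iff_deriv.1 hg).2

theorem e2T_contDiff (m j : ℕ) {u : ℝ → ℝ} (hu : ContDiff ℝ ∞ u) : ContDiff ℝ ∞ (e2T m j u) :=
  e2Dpow_contDiff m j (e2_iteratedDeriv_contDiff j hu)

theorem e2Lfix_contDiff (m : ℕ) {b u : ℝ → ℝ} (hb : ContDiff ℝ ∞ b) (hu : ContDiff ℝ ∞ u) :
    ContDiff ℝ ∞ (e2Lfix m b u) :=
  e2Dst_contDiff m (hb.mul (e2_deriv_contDiff hu))

/-- `d/dx (φ^(i+1) g) = - φ^i D_i^* g` (all `x`; pure calculus). -/
theorem e2_hasDerivAt_W_mul (i : ℕ) {g : ℝ → ℝ} (hg : ContDiff ℝ ∞ g) (x : ℝ) :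
    HasDerivAt (fun y => e2W (i + 1) y * g y) (-(e2W i x * e2Dst i g x)) x := by
  have hgd : HasDerivAt g (deriv g x) x :=
    ((hg.differentiable (by simp)) x).hasDerivAt
  have h0 : HasDerivAt (fun y : ℝ => y * (1 - y)) (1 * (1 - x) + x * (-1)) x := by
    exact (hasDerivAt_id' x).fun_mul ((hasDerivAt_id' x).const_sub 1)
  have h1 : HasDerivAt (fun y : ℝ => (y * (1 - y)) ^ (i + 1))
      (((i + 1 : ℕ) : ℝ) * (x * (1 - x)) ^ i * (1 * (1 - x) + x * (-1))) x := by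
    have h := h0.fun_pow (i + 1)
    simpa using h
  have h3 := h1.mul hgd
  refine h3.congr_deriv ?_
  unfold e2W e2Dst
  push_cast
  ring

theorem e2_ibp_aux_W_zero (i : ℕ) : e2W (i + 1) 0 = 0 := by
  unfold e2W
  rw [zero_mul, zero_pow (by omega)]

theorem e2_ibp_aux_W_one (i : ℕ) : e2W (i + 1) 1 = 0 := by
  unfold e2W
  rw [sub_self, mul_zero, zero_pow (by omega)]

/-- Integration by parts: `<f', g>_{i+1} = <f, D_i^* g>_i`. -/
theorem e2_ibp (i : ℕ) {f g : ℝ → ℝ} (hf : ContDiff ℝ ∞ f) (hg : ContDiff ℝ ∞ g) :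
    e2Ip (i + 1) (deriv f) g = e2Ip i f (e2Dst i g) := by
  have hfd : ∀ x, HasDerivAt f (deriv f x) x := fun x =>
    ((hf.differentiable (by simp)) x).hasDerivAt
  have cf : Continuous f := hf.continuous
  have cg : Continuous g := hg.continuous
  have cdf : Continuous (deriv f) := (contDiff_infty_iff_deriv.1 hf).2.continuous
  have cD : Continuous (e2Dst i g) := (e2Dst_contDiff i hg).continuous
  have cW1 : Continuous (e2W (i + 1)) := e2W_continuous (i + 1)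
  have cW : Continuous (e2W i) := e2W_continuous i
  have hH : ∀ x ∈ uIcc (0 : ℝ) 1, HasDerivAt (fun y => f y * (e2W (i + 1) y * g y))
      (deriv f x * (e2W (i + 1) x * g x) + f x * (-(e2W i x * e2Dst i g x))) x :=
    fun x _ => (hfd x).mul (e2_hasDerivAt_W_mul i hg x)
  have c1 : Continuous fun x => deriv f x * (e2W (i + 1) x * g x) := cdf.mul (cW1.mul cg)
  have c2 : Continuous fun x => f x * (-(e2W i x * e2Dst i g x)) := cf.mul (cW.mul cD).neg
  have h1 := intervalIntegral.integral_eq_sub_of_hasDerivAt hH ((c1.add c2).intervalIntegrable 0 1)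
  rw [intervalIntegral.integral_add (c1.intervalIntegrable 0 1) (c2.intervalIntegrable 0 1),
    e2_ibp_aux_W_zero, e2_ibp_aux_W_one] at h1
  simp only [zero_mul, mul_zero, sub_zero] at h1
  have e1 : e2Ip (i + 1) (deriv f) g = ∫ x in (0 : ℝ)..1, deriv f x * (e2W (i + 1) x * g x) := by
    unfold e2Ip
    refine intervalIntegral.integral_congr fun x _ => ?_
    ring
  have e2 : e2Ip i f (e2Dst i g) = -∫ x in (0 : ℝ)..1, f x * (-(e2W i x * e2Dst i g x)) := by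
    unfold e2Ip
    rw [← intervalIntegral.integral_neg]
    refine intervalIntegral.integral_congr fun x _ => ?_
    ring
  rw [e1, e2]
  linarith

/-- iterated: `<f, D_m^* ... D_{m+j-1}^* g>_m = <∂^j f, g>_{m+j}`.  Induction on `j` (generalising `g`). -/
theorem e2_ibp_pow (m j : ℕ) {f g : ℝ → ℝ} (hf : ContDiff ℝ ∞ f) (hg : ContDiff ℝ ∞ g) :
    e2Ip m f (e2Dpow m j g) = e2Ip (m + j) (iteratedDeriv j f) g := by
  induction j generalizing g with
  | zero => rw [iteratedDeriv_zero]; rfl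
  | succ j ih =>
    show e2Ip m f (e2Dpow m j (e2Dst (m + j) g)) = e2Ip (m + j + 1) _ _
    rw [ih (e2Dst_contDiff (m + j) hg), ← e2_ibp (m + j) (e2_iteratedDeriv_contDiff j hf) hg,
      iteratedDeriv_succ]

theorem e2_ip_T (m j : ℕ) {f u : ℝ → ℝ} (hf : ContDiff ℝ ∞ f) (hu : ContDiff ℝ ∞ u) :
    e2Ip m f (e2T m j u) = e2Ip (m + j) (iteratedDeriv j f) (iteratedDeriv j u) :=
  e2_ibp_pow m j hf (e2_iteratedDeriv_contDiff j hu)

/-- `<u, T_j u>_m = N_j(u)^2`. -/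
theorem e2_ip_T_self (m j : ℕ) {u : ℝ → ℝ} (hu : ContDiff ℝ ∞ u) :
    e2Ip m u (e2T m j u) = e2Nsq m j u :=
  e2_ip_T m j hu hu

/-- `<L_b u, v>_m = ∫ b u' v' φ^(m+1)`. -/
theorem e2_ip_Lfix (m : ℕ) {b u v : ℝ → ℝ} (hb : ContDiff ℝ ∞ b) (hu : ContDiff ℝ ∞ u)
    (hv : ContDiff ℝ ∞ v) :
    e2Ip m (e2Lfix m b u) v = e2Ip (m + 1) (fun x => b x * deriv u x) (deriv v) := by
  have h := e2_ibp m hv (hb.mul (e2_deriv_contDiff hu))
  rw [e2Ip_comm m, e2Ip_comm (m + 1)]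
  exact h.symm

/-- `L_b` is symmetric for `<,>_m`. -/
theorem e2_Lfix_symm (m : ℕ) {b u v : ℝ → ℝ} (hb : ContDiff ℝ ∞ b) (hu : ContDiff ℝ ∞ u)
    (hv : ContDiff ℝ ∞ v) : e2Ip m (e2Lfix m b u) v = e2Ip m u (e2Lfix m b v) := by
  rw [e2Ip_comm m u, e2_ip_Lfix m hb hu hv, e2_ip_Lfix m hb hv hu]
  unfold e2Ip
  refine intervalIntegral.integral_congr fun x _ => ?_
  simp only
  ring

/-- the first order term: `<φ b u', v>_m = <u, D_m^* (b v)>_m`. -/
theorem e2_ip_Bfix (m : ℕ) {b u v : ℝ → ℝ} (hb : ContDiff ℝ ∞ b) (hu : ContDiff ℝ ∞ u)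
    (hv : ContDiff ℝ ∞ v) :
    e2Ip m (e2Bfix b u) v = e2Ip m u (e2Dst m (fun x => b x * v x)) := by
  rw [← e2_ibp m hu (hb.mul hv)]
  unfold e2Ip e2Bfix e2W
  refine intervalIntegral.integral_congr fun x _ => ?_
  simp only
  ring

end Claimed.Agent.R324
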