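import Claimed.Agent.R324.E2.Comm

/-
Row 324, module E2: linearity of the fixed time operator `e2Sfix`.
-/

set_option autoImplicit false

namespace Claimed.Agent.R324

open Set
open scoped ContDiff

/-- linearity of the fixed time operator (`deriv_fun_add`, `deriv_const_mul_field`, `e2_comm_Dst_lin`, `intervalIntegral.integral_add`,
`intervalIntegral.integral_const_mul`, `Finset.sum_add_distrib`, `Finset.mul_sum`, `ring`). -/
theorem e2Sfix_lin (μ : ℕ) {n : ℕ} {a : ℝ → ℝ} (b : Fin 3 → ℝ → ℝ) (c : Fin 3 → Fin 3 → ℝ → ℝ)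
    (e : Fin n → Fin 3 → ℝ → ℝ) {κ : Fin n → Fin 3 → ℝ → ℝ} {u v : Fin 3 → ℝ → ℝ} (r : ℝ)
    (ha : ContDiff ℝ ∞ a) (hκ : ∀ i j, ContDiff ℝ ∞ (κ i j))
    (hu : ∀ j, ContDiff ℝ ∞ (u j)) (hv : ∀ j, ContDiff ℝ ∞ (v j)) (j : Fin 3) (x : ℝ) :
    e2Sfix μ a b c e κ (fun j y => u j y + r * v j y) j x
      = e2Sfix μ a b c e κ u j x + r * e2Sfix μ a b c e κ v j x := by
  have hdu : ∀ j, Differentiable ℝ (u j) := fun j => (hu j).differentiable (by simp)
  have hdv : ∀ j, Differentiable ℝ (v j) := fun j => (hv j).differentiable (by simp)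
  have hder : ∀ (j : Fin 3) (y : ℝ), deriv (fun y => u j y + r * v j y) y
      = deriv (u j) y + r * deriv (v j) y := by
    intro j y
    rw [deriv_fun_add (hdu j y) ((hdv j y).const_mul r), deriv_const_mul_field]
  have hdu' : ∀ j, ContDiff ℝ ∞ (deriv (u j)) := fun j =>
    ((contDiff_infty_iff_deriv).1 (hu j)).2
  have hdv' : ∀ j, ContDiff ℝ ∞ (deriv (v j)) := fun j =>
    ((contDiff_infty_iff_deriv).1 (hv j)).2
  -- principal part
  have hL : e2Lfix (e2m μ j) a (fun y => u j y + r * v j y) x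
      = e2Lfix (e2m μ j) a (u j) x + r * e2Lfix (e2m μ j) a (v j) x := by
    unfold e2Lfix
    have e1 : (fun x => a x * deriv (fun y => u j y + r * v j y) x)
        = fun y => a y * deriv (u j) y + r * (a y * deriv (v j) y) := by
      funext y
      rw [hder]
      ring
    rw [e1]
    exact e2_comm_Dst_lin _ r ((ha.mul (hdu' j)).differentiable (by simp))
      ((ha.mul (hdv' j)).differentiable (by simp)) x
  have hB : e2Bfix (b j) (fun y => u j y + r * v j y) x
      = e2Bfix (b j) (u j) x + r * e2Bfix (b j) (v j) x := by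
    unfold e2Bfix
    rw [hder]
    ring
  have hC : e2Cfix c (fun j y => u j y + r * v j y) j x
      = e2Cfix c u j x + r * e2Cfix c v j x := by
    unfold e2Cfix
    rw [Finset.mul_sum, ← Finset.sum_add_distrib]
    refine Finset.sum_congr rfl fun k _ => ?_
    ring
  have hR : e2Rfix e κ (fun j y => u j y + r * v j y) j x
      = e2Rfix e κ u j x + r * e2Rfix e κ v j x := by
    unfold e2Rfix
    rw [Finset.mul_sum, ← Finset.sum_add_distrib]
    refine Finset.sum_congr rfl fun i _ => ?_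
    have hiu : IntervalIntegrable (fun ξ => ∑ l, κ i l ξ * u l ξ) MeasureTheory.volume 0 1 :=
      (continuous_finsetSum _ fun l _ =>
        (hκ i l).continuous.mul (hu l).continuous).intervalIntegrable _ _
    have hiv : IntervalIntegrable (fun ξ => ∑ l, κ i l ξ * v l ξ) MeasureTheory.volume 0 1 :=
      (continuous_finsetSum _ fun l _ =>
        (hκ i l).continuous.mul (hv l).continuous).intervalIntegrable _ _
    have e2 : (fun ξ => ∑ l, κ i l ξ * (u l ξ + r * v l ξ))
        = fun ξ => (∑ l, κ i l ξ * u l ξ) + r * ∑ l, κ i l ξ * v l ξ := by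
      funext ξ
      rw [Finset.mul_sum, ← Finset.sum_add_distrib]
      refine Finset.sum_congr rfl fun l _ => ?_
      ring
    rw [e2, intervalIntegral.integral_add hiu (hiv.const_mul r),
      intervalIntegral.integral_const_mul]
    ring
  unfold e2Sfix
  rw [hL, hB, hC, hR]
  ring

theorem e2Sfix_zero (μ : ℕ) {n : ℕ} (a : ℝ → ℝ) (b : Fin 3 → ℝ → ℝ) (c : Fin 3 → Fin 3 → ℝ → ℝ)
    (e κ : Fin n → Fin 3 → ℝ → ℝ) (j : Fin 3) (x : ℝ) :
    e2Sfix μ a b c e κ (fun _ _ => 0) j x = 0 := by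
  simp [e2Sfix, e2Lfix, e2Dst, e2Bfix, e2Cfix, e2Rfix]

/-- finite linear combinations (induction on the finset from `e2Sfix_lin`, `e2Sfix_zero`). -/
theorem e2Sfix_sum (μ : ℕ) {n : ℕ} {a : ℝ → ℝ} (b : Fin 3 → ℝ → ℝ) (c : Fin 3 → Fin 3 → ℝ → ℝ)
    (e : Fin n → Fin 3 → ℝ → ℝ) {κ : Fin n → Fin 3 → ℝ → ℝ}
    (ha : ContDiff ℝ ∞ a) (hκ : ∀ i j, ContDiff ℝ ∞ (κ i j)) {ι : Type} (s : Finset ι) (r : ι → ℝ)
    {w : ι → Fin 3 → ℝ → ℝ} (hw : ∀ α ∈ s, ∀ j, ContDiff ℝ ∞ (w α j)) (j : Fin 3) (x : ℝ) :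
    e2Sfix μ a b c e κ (fun j y => ∑ α ∈ s, r α * w α j y) j x
      = ∑ α ∈ s, r α * e2Sfix μ a b c e κ (w α) j x := by
  classical
  induction s using Finset.induction_on with
  | empty => simpa using e2Sfix_zero μ a b c e κ j x
  | insert α s hα ih =>
    have hs : ∀ j, ContDiff ℝ ∞ (fun y => ∑ β ∈ s, r β * w β j y) := fun j =>
      ContDiff.sum fun β hβ => contDiff_const.mul (hw β (Finset.mem_insert_of_mem hβ) j)
    have e1 : (fun (j : Fin 3) (y : ℝ) => ∑ β ∈ insert α s, r β * w β j y)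
        = fun j y => (∑ β ∈ s, r β * w β j y) + r α * w α j y := by
      funext j y
      rw [Finset.sum_insert hα, add_comm]
    rw [e1, e2Sfix_lin μ b c e (r α) ha hκ hs (hw α (Finset.mem_insert_self α s)) j x,
      ih (fun β hβ => hw β (Finset.mem_insert_of_mem hβ)), Finset.sum_insert hα, add_comm]

end Claimed.Agent.R324
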