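import Claimed.Agent.R324.E2.Dui

/-
Row 324, module E2 (copy of the row 325 engine): calculus of uniformly bounded families (`E2UB`): all derivatives `∂_x^j ∂_t^i`, `i ≤ I`, of the members of
the family are bounded on `[s₀,s₂] × [0,1]` uniformly in the family.  Closure under the operations which build `S u`.
-/

set_option autoImplicit false

namespace Claimed.Agent.R324

open Set
open scoped ContDiff

variable {T s₀ s₂ : ℝ} {ι : Type} {𝓕 𝓖 : ι → ℝ × ℝ → ℝ}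

theorem E2UB.mono {I I' : ℕ} (h : E2UB s₀ s₂ I 𝓕) (hI : I' ≤ I) : E2UB s₀ s₂ I' 𝓕 := by
  exact fun i hi j => h i (hi.trans hI) j

/-- a fixed smooth function (`E2Sm.bdd` for `e2Pd i j g`). -/
theorem e2UB_const (ι : Type) {g : ℝ × ℝ → ℝ} (hg : E2Sm T g) (s₀ : ℝ) (h₂ : s₂ < T) (I : ℕ) :
    E2UB s₀ s₂ I (fun _ : ι => g) := by
  intro i _ j
  obtain ⟨C, _, hC⟩ := (hg.pd i j).bdd s₀ h₂
  exact ⟨C, fun _ t ht x hx => hC t ht x hx⟩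

theorem E2UB.congr {I : ℕ} (h₂ : s₂ < T) (h : E2UB s₀ s₂ I 𝓕)
    (hfg : ∀ n, ∀ t < T, ∀ x, 𝓖 n (t, x) = 𝓕 n (t, x)) : E2UB s₀ s₂ I 𝓖 := by
  intro i hi j
  obtain ⟨C, hC⟩ := h i hi j
  refine ⟨C, fun n t ht x hx => ?_⟩
  rw [e2Pd_congr (hfg n) i j t (ht.2.trans_lt h₂) x]
  exact hC n t ht x hx

theorem E2UB.add {I : ℕ} (h₂ : s₂ < T) (hf : ∀ n, E2Sm T (𝓕 n)) (hg : ∀ n, E2Sm T (𝓖 n))
    (h : E2UB s₀ s₂ I 𝓕) (h' : E2UB s₀ s₂ I 𝓖) : E2UB s₀ s₂ I (fun n q => 𝓕 n q + 𝓖 n q) := by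
  intro i hi j
  obtain ⟨C, hC⟩ := h i hi j
  obtain ⟨C', hC'⟩ := h' i hi j
  refine ⟨C + C', fun n t ht x hx => ?_⟩
  rw [e2Pd_add (hf n) (hg n) i j t (ht.2.trans_lt h₂) x]
  exact (abs_add_le _ _).trans (add_le_add (hC n t ht x hx) (hC' n t ht x hx))

theorem E2UB.neg {I : ℕ} (h₂ : s₂ < T) (hf : ∀ n, E2Sm T (𝓕 n)) (h : E2UB s₀ s₂ I 𝓕) :
    E2UB s₀ s₂ I (fun n q => - 𝓕 n q) := by
  intro i hi j
  obtain ⟨C, hC⟩ := h i hi j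
  refine ⟨C, fun n t ht x hx => ?_⟩
  rw [e2Pd_neg (hf n) i j t (ht.2.trans_lt h₂) x, abs_neg]
  exact hC n t ht x hx

theorem E2UB.sub {I : ℕ} (h₂ : s₂ < T) (hf : ∀ n, E2Sm T (𝓕 n)) (hg : ∀ n, E2Sm T (𝓖 n))
    (h : E2UB s₀ s₂ I 𝓕) (h' : E2UB s₀ s₂ I 𝓖) : E2UB s₀ s₂ I (fun n q => 𝓕 n q - 𝓖 n q) := by
  intro i hi j
  obtain ⟨C, hC⟩ := h i hi j
  obtain ⟨C', hC'⟩ := h' i hi j
  refine ⟨C + C', fun n t ht x hx => ?_⟩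
  rw [e2Pd_sub (hf n) (hg n) i j t (ht.2.trans_lt h₂) x, sub_eq_add_neg]
  refine (abs_add_le _ _).trans (add_le_add (hC n t ht x hx) ?_)
  rw [abs_neg]
  exact hC' n t ht x hx

theorem e2UB_sum {I : ℕ} (h₂ : s₂ < T) {κ : Type} (s : Finset κ) {𝓗 : κ → ι → ℝ × ℝ → ℝ}
    (hf : ∀ k ∈ s, ∀ n, E2Sm T (𝓗 k n)) (h : ∀ k ∈ s, E2UB s₀ s₂ I (𝓗 k)) :
    E2UB s₀ s₂ I (fun n q => ∑ k ∈ s, 𝓗 k n q) := by
  classical
  induction s using Finset.induction_on with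
  | empty =>
    simp only [Finset.sum_empty]
    exact e2UB_const ι (e2Sm_const T 0) s₀ h₂ I
  | insert a s ha ih =>
    simp only [Finset.sum_insert ha]
    exact E2UB.add h₂ (hf a (Finset.mem_insert_self a s))
      (fun n => e2Sm_sum s (fun k hk => hf k (Finset.mem_insert_of_mem hk) n))
      (h a (Finset.mem_insert_self a s))
      (ih (fun k hk => hf k (Finset.mem_insert_of_mem hk))
        (fun k hk => h k (Finset.mem_insert_of_mem hk)))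

/-- (`E2Sm.pd_pdx`) -/
theorem E2UB.pdx {I : ℕ} (h₂ : s₂ < T) (hf : ∀ n, E2Sm T (𝓕 n)) (h : E2UB s₀ s₂ I 𝓕) :
    E2UB s₀ s₂ I (fun n => e2Pdx (𝓕 n)) := by
  intro i hi j
  obtain ⟨C, hC⟩ := h i hi (j + 1)
  refine ⟨C, fun n t ht x hx => ?_⟩
  rw [(hf n).pd_pdx i j t (ht.2.trans_lt h₂) x]
  exact hC n t ht x hx

/-- (`e2Pd_pdt`) -/
theorem E2UB.pdt {I : ℕ} (h : E2UB s₀ s₂ (I + 1) 𝓕) : E2UB s₀ s₂ I (fun n => e2Pdt (𝓕 n)) := by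
  intro i hi j
  obtain ⟨C, hC⟩ := h (i + 1) (Nat.succ_le_succ hi) j
  refine ⟨C, fun n t ht x hx => ?_⟩
  rw [e2Pd_pdt]
  exact hC n t ht x hx

theorem E2UB.pd0 {I : ℕ} (h₂ : s₂ < T) (hf : ∀ n, E2Sm T (𝓕 n)) (h : E2UB s₀ s₂ I 𝓕) (j : ℕ) :
    E2UB s₀ s₂ I (fun n => e2Pd 0 j (𝓕 n)) := by
  induction j with
  | zero => exact h
  | succ j ih =>
    have h1 := E2UB.pdx h₂ (fun n => (hf n).pd 0 j) ih
    simp only [← e2Pd_succ_x] at h1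
    exact h1

/-- products, no time derivative.  Induction on `j`, generalising the two families:
`e2Pd 0 (j+1) (f g) = e2Pd 0 j (∂_x f · g) + e2Pd 0 j (f · ∂_x g)` (`e2Pd_zero_succ_mul`), and `E2UB.pdx`. -/
theorem E2UB.mul_zero (h₂ : s₂ < T) (hf : ∀ n, E2Sm T (𝓕 n)) (hg : ∀ n, E2Sm T (𝓖 n))
    (h : E2UB s₀ s₂ 0 𝓕) (h' : E2UB s₀ s₂ 0 𝓖) : E2UB s₀ s₂ 0 (fun n q => 𝓕 n q * 𝓖 n q) := by
  have key : ∀ (j : ℕ) (𝓕 𝓖 : ι → ℝ × ℝ → ℝ), (∀ n, E2Sm T (𝓕 n)) → (∀ n, E2Sm T (𝓖 n)) →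
      E2UB s₀ s₂ 0 𝓕 → E2UB s₀ s₂ 0 𝓖 → ∃ C : ℝ, ∀ n : ι, ∀ t ∈ Icc s₀ s₂, ∀ x ∈ Icc (0 : ℝ) 1,
        |e2Pd 0 j (fun q => 𝓕 n q * 𝓖 n q) (t, x)| ≤ C := by
    intro j
    induction j with
    | zero =>
      intro 𝓕 𝓖 _ _ h h'
      obtain ⟨C, hC⟩ := h 0 le_rfl 0
      obtain ⟨C', hC'⟩ := h' 0 le_rfl 0
      refine ⟨C * C', fun n t ht x hx => ?_⟩
      have h1 : |𝓕 n (t, x)| ≤ C := hC n t ht x hx
      have h2 : |𝓖 n (t, x)| ≤ C' := hC' n t ht x hx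
      show |𝓕 n (t, x) * 𝓖 n (t, x)| ≤ C * C'
      rw [abs_mul]
      exact mul_le_mul h1 h2 (abs_nonneg _) ((abs_nonneg _).trans h1)
    | succ j ih =>
      intro 𝓕 𝓖 hf hg h h'
      obtain ⟨C, hC⟩ := ih (fun n => e2Pdx (𝓕 n)) 𝓖 (fun n => (hf n).pdx) hg
        (E2UB.pdx h₂ hf h) h'
      obtain ⟨C', hC'⟩ := ih 𝓕 (fun n => e2Pdx (𝓖 n)) hf (fun n => (hg n).pdx) h
        (E2UB.pdx h₂ hg h')
      refine ⟨C + C', fun n t ht x hx => ?_⟩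
      rw [e2Pd_zero_succ_mul (hf n) (hg n) j t (ht.2.trans_lt h₂) x]
      exact (abs_add_le _ _).trans (add_le_add (hC n t ht x hx) (hC' n t ht x hx))
  intro i hi j
  obtain rfl := Nat.le_zero.mp hi
  exact key j 𝓕 𝓖 hf hg h h'

/-- products.  Induction on `I`, generalising the two families: for `i = I+1` use `e2Pd_succ_mul`:
`e2Pd (I+1) j (f g) = e2Pd I j (∂_t f · g) + e2Pd I j (f · ∂_t g)`, `E2UB.pdt`, `E2UB.mono`. -/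
theorem E2UB.mul {I : ℕ} (h₂ : s₂ < T) (hf : ∀ n, E2Sm T (𝓕 n)) (hg : ∀ n, E2Sm T (𝓖 n))
    (h : E2UB s₀ s₂ I 𝓕) (h' : E2UB s₀ s₂ I 𝓖) : E2UB s₀ s₂ I (fun n q => 𝓕 n q * 𝓖 n q) := by
  induction I generalizing 𝓕 𝓖 with
  | zero => exact E2UB.mul_zero h₂ hf hg h h'
  | succ I ih =>
    intro i hi j
    rcases Nat.lt_or_ge I i with hlt | hle
    · obtain rfl : i = I + 1 := le_antisymm hi hlt
      obtain ⟨C, hC⟩ := ih (𝓕 := fun n => e2Pdt (𝓕 n)) (𝓖 := 𝓖) (fun n => (hf n).pdt) hg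
        (E2UB.pdt h) (h'.mono (Nat.le_succ I)) I le_rfl j
      obtain ⟨C', hC'⟩ := ih (𝓕 := 𝓕) (𝓖 := fun n => e2Pdt (𝓖 n)) hf (fun n => (hg n).pdt)
        (h.mono (Nat.le_succ I)) (E2UB.pdt h') I le_rfl j
      refine ⟨C + C', fun n t ht x hx => ?_⟩
      rw [e2Pd_succ_mul (hf n) (hg n) I j t (ht.2.trans_lt h₂) x]
      exact (abs_add_le _ _).trans (add_le_add (hC n t ht x hx) (hC' n t ht x hx))
    · exact ih hf hg (h.mono (Nat.le_succ I)) (h'.mono (Nat.le_succ I)) i hle j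

/-- the integral over `ξ ∈ [0,1]` (a function of `t` alone): `e2Pd i (j+1) = 0` (`e2Pd_of_t_succ`),
`e2Pd i 0 = ∫ e2Pdt^[i] f (t,ξ) dξ` (`e2Pdt_iter_integral`), bounded by the sup. -/
theorem E2UB.integral {I : ℕ} (h₂ : s₂ < T) (hf : ∀ n, E2Sm T (𝓕 n)) (h : E2UB s₀ s₂ I 𝓕) :
    E2UB s₀ s₂ I (fun n q => ∫ ξ in (0 : ℝ)..1, 𝓕 n (q.1, ξ)) := by
  intro i hi j
  cases j with
  | zero =>
    obtain ⟨C, hC⟩ := h i hi 0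
    refine ⟨C, fun n t ht x hx => ?_⟩
    rw [e2Pd_zero_left, e2Pdt_iter_integral (hf n) i t (ht.2.trans_lt h₂) x]
    have h1 := intervalIntegral.norm_integral_le_of_norm_le_const (a := (0 : ℝ)) (b := 1)
      (f := fun ξ => e2Pdt^[i] (𝓕 n) (t, ξ)) (C := C) (fun ξ hξ => by
        rw [uIoc_of_le zero_le_one] at hξ
        exact hC n t ht ξ ⟨hξ.1.le, hξ.2⟩)
    simpa using h1
  | succ j =>
    refine ⟨0, fun n t _ x _ => ?_⟩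
    rw [e2Pd_of_t_succ (fun s => ∫ ξ in (0 : ℝ)..1, 𝓕 n (s, ξ)) i j (t, x), abs_zero]

end Claimed.Agent.R324
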