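import Claimed.Agent.R324.E2.Split
import Claimed.Agent.R324.E2.Lin
import Claimed.Agent.R324.E2.UB

/-
Row 324, module E2: the operator `e2S0` / `e2S` on functions of `(t,x)`: formula in terms of the partial derivatives, smoothness, closure of the
uniformly bounded families, linearity, weak form.   Model: R325/EngLop.lean (in Claimed/Agent/R325/Pk27.lean), end of R325/EngUB.lean (Pk28).
-/

set_option autoImplicit false

namespace Claimed.Agent.R324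

open Set
open scoped ContDiff

variable {T s₀ s₂ : ℝ}

/-- `e2S0` in terms of the partial derivatives. -/
theorem e2S0_eq_pd (D : E2Data) (u : Fin 3 → ℝ × ℝ → ℝ) (j : Fin 3) (q : ℝ × ℝ) :
    e2S0 D u j q = q.2 * (1 - q.2) * e2Pdx (fun p => D.a p * e2Pdx (u j) p) q
      + (((D.m j : ℕ) : ℝ) + 1 - (2 * ((D.m j : ℕ) : ℝ) + 2) * q.2) * (D.a q * e2Pdx (u j) q)
      + q.2 * (1 - q.2) * D.b j q * e2Pdx (u j) q
      + ∑ k, e2s j k q.2 * D.c j k q * u k q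
      + ∑ i, D.e i j q * ∫ ξ in (0 : ℝ)..1, ∑ l, D.k i l (q.1, ξ) * u l (q.1, ξ) := by
  obtain ⟨t, x⟩ := q
  simp only [e2S0, e2Sfix, e2Lfix, e2Dst, e2Bfix, e2Cfix, e2Rfix, e2Pdx, E2Data.m]
  ring

theorem e2Sm_phi (T : ℝ) : E2Sm T (fun q : ℝ × ℝ => q.2 * (1 - q.2)) :=
  e2Sm_of_x T (φ := fun y => y * (1 - y)) (by fun_prop)

theorem e2Sm_lin (T α β : ℝ) : E2Sm T (fun q : ℝ × ℝ => α - β * q.2) :=
  e2Sm_of_x T (φ := fun y => α - β * y) (by fun_prop)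

theorem e2Sm_s (T : ℝ) (j k : Fin 3) : E2Sm T (fun q : ℝ × ℝ => e2s j k q.2) :=
  e2Sm_of_x T (e2s_contDiff j k)

/-- the slices of the data at a fixed time. -/
theorem E2Data.slice (D : E2Data) {t : ℝ} (ht : t < D.T) :
    ContDiff ℝ ∞ (fun y => D.a (t, y)) ∧ (∀ j, ContDiff ℝ ∞ (fun y => D.b j (t, y))) ∧
      (∀ j k, ContDiff ℝ ∞ (fun y => D.c j k (t, y))) ∧ (∀ i j, ContDiff ℝ ∞ (fun y => D.e i j (t, y))) ∧
      (∀ i j, ContDiff ℝ ∞ (fun y => D.k i j (t, y))) ∧ (∀ j, ContDiff ℝ ∞ (fun y => D.F j (t, y))) :=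
  ⟨D.ha.slice_x ht, fun j => (D.hb j).slice_x ht, fun j k => (D.hc j k).slice_x ht,
    fun i j => (D.he i j).slice_x ht, fun i j => (D.hk i j).slice_x ht, fun j => (D.hF j).slice_x ht⟩

/-- smoothness of `S₀ u`  (`e2S0_eq_pd`, `E2Sm.congr`/`funext`, closure properties `E2Sm.add`, `E2Sm.mul`, `E2Sm.pdx`, `e2Sm_sum`, `e2Sm_integral`,
`e2Sm_phi`, `e2Sm_lin`, `e2Sm_s`). -/
theorem e2Sm_S0 (D : E2Data) {u : Fin 3 → ℝ × ℝ → ℝ} (hu : ∀ j, E2Sm D.T (u j)) (j : Fin 3) :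
    E2Sm D.T (e2S0 D u j) := by
  have e : e2S0 D u j = fun q => e2S0 D u j q := rfl
  rw [e]
  simp only [e2S0_eq_pd]
  refine E2Sm.add (E2Sm.add (E2Sm.add (E2Sm.add ?_ ?_) ?_) ?_) ?_
  · exact (e2Sm_phi D.T).mul (D.ha.mul (hu j).pdx).pdx
  · exact (e2Sm_lin D.T _ _).mul (D.ha.mul (hu j).pdx)
  · exact ((e2Sm_phi D.T).mul (D.hb j)).mul (hu j).pdx
  · exact e2Sm_sum Finset.univ fun k _ => ((e2Sm_s D.T j k).mul (D.hc j k)).mul (hu k)
  · refine e2Sm_sum Finset.univ fun i _ => (D.he i j).mul ?_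
    exact e2Sm_integral (f := fun q => ∑ l, D.k i l q * u l q)
      (e2Sm_sum Finset.univ fun l _ => (D.hk i l).mul (hu l))

theorem e2Sm_S (D : E2Data) {u : Fin 3 → ℝ × ℝ → ℝ} (hu : ∀ j, E2Sm D.T (u j)) (j : Fin 3) :
    E2Sm D.T (e2S D u j) :=
  (e2Sm_S0 D hu j).add (D.hF j)

/-! ### linearity -/

/-- linearity of `S₀` (at points of `U`). -/
theorem e2S0_sub (D : E2Data) {u v : Fin 3 → ℝ × ℝ → ℝ} (hu : ∀ j, E2Sm D.T (u j))
    (hv : ∀ j, E2Sm D.T (v j)) (j : Fin 3) : ∀ t < D.T, ∀ x,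
    e2S0 D (fun j q => u j q - v j q) j (t, x) = e2S0 D u j (t, x) - e2S0 D v j (t, x) := by
  intro t ht x
  obtain ⟨ha, -, -, -, hk, -⟩ := D.slice ht
  have h := e2Sfix_lin D.μ (fun j y => D.b j (t, y)) (fun j l y => D.c j l (t, y))
    (fun i j y => D.e i j (t, y)) (-1) ha hk (fun j => (hu j).slice_x ht)
    (fun j => (hv j).slice_x ht) j x
  have e1 : (fun (j : Fin 3) (y : ℝ) => u j (t, y) + -1 * v j (t, y))
      = fun j y => u j (t, y) - v j (t, y) := by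
    funext j y
    ring
  rw [e1] at h
  show e2Sfix _ _ _ _ _ _ _ _ _ = e2Sfix _ _ _ _ _ _ _ _ _ - e2Sfix _ _ _ _ _ _ _ _ _
  rw [h]
  ring

/-- weak form of `S₀` against a fixed smooth `w`: all the `x`-derivatives are on `w`. -/
theorem e2S0_weak (D : E2Data) {u : Fin 3 → ℝ × ℝ → ℝ} (hu : ∀ j, E2Sm D.T (u j)) (j : Fin 3)
    {w : ℝ → ℝ} (hw : ContDiff ℝ ∞ w) {t : ℝ} (ht : t < D.T) :
    e2Ip (D.m j) (fun x => e2S0 D u j (t, x)) w
      = - e2Ip (D.m j) (fun x => u j (t, x)) (e2Lfix (D.m j) (fun y => D.a (t, y)) w)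
        + e2Ip (D.m j) (fun x => u j (t, x)) (e2Dst (D.m j) (fun y => D.b j (t, y) * w y))
        + ∑ k, e2Ip (D.m j) (fun x => e2s j k x * D.c j k (t, x) * u k (t, x)) w
        + ∑ i, ∑ l, (∫ ξ in (0 : ℝ)..1, D.k i l (t, ξ) * u l (t, ξ))
            * e2Ip (D.m j) (fun x => D.e i j (t, x)) w := by
  obtain ⟨ha, hb, hc, he, hk, -⟩ := D.slice ht
  have hus : ∀ j, ContDiff ℝ ∞ (fun y => u j (t, y)) := fun j => (hu j).slice_x ht
  have h := e2_ip_Sfix D.μ (D.m j) ha hb hc he hk hus j hw.continuous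
  have e1 : (fun x => e2S0 D u j (t, x)) = e2Sfix D.μ (fun y => D.a (t, y)) (fun j y => D.b j (t, y))
      (fun j l y => D.c j l (t, y)) (fun i j y => D.e i j (t, y)) (fun i j y => D.k i j (t, y))
      (fun j y => u j (t, y)) j := rfl
  rw [e1, h]
  have e2 : e2m D.μ j = D.m j := rfl
  rw [e2, e2_Lfix_symm (D.m j) ha (hus j) hw, e2_ip_Bfix (D.m j) (hb j) (hus j) hw]

end Claimed.Agent.R324
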