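import Claimed.Agent.R324.E2.Defs

/-
Row 324, module E2 (copy of the row 325 engine): calculus of functions which are smooth on `U = (-∞,T) × ℝ`, part A:
closure properties of `E2Sm`, partial derivatives `e2Pdt`, `e2Pdx`.
`U` is open, so `ContDiffOn` on `U` is `ContDiffAt` at every point of `U`.
For `q ∈ U`:  `e2Pdt f q = fderiv ℝ f q (1,0)`,  `e2Pdx f q = fderiv ℝ f q (0,1)`.
-/

set_option autoImplicit false

namespace Claimed.Agent.R324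

open Set
open scoped ContDiff

variable {T : ℝ} {f g : ℝ × ℝ → ℝ}

theorem e2U_isOpen (T : ℝ) : IsOpen (Iio T ×ˢ (univ : Set ℝ)) :=
  isOpen_Iio.prod isOpen_univ

theorem E2Sm.contDiffAt (h : E2Sm T f) {q : ℝ × ℝ} (hq : q.1 < T) : ContDiffAt ℝ ∞ f q :=
  ContDiffOn.contDiffAt h ((e2U_isOpen T).mem_nhds ⟨hq, mem_univ _⟩)

theorem e2Sm_of_contDiffAt (h : ∀ q : ℝ × ℝ, q.1 < T → ContDiffAt ℝ ∞ f q) : E2Sm T f :=
  fun q hq => (h q hq.1).contDiffWithinAt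

theorem E2Sm.congr (h : E2Sm T f) (hfg : ∀ t < T, ∀ x, g (t, x) = f (t, x)) : E2Sm T g :=
  ContDiffOn.congr h (fun q hq => hfg q.1 hq.1 q.2)

theorem e2Sm_const (T c : ℝ) : E2Sm T (fun _ => c) :=
  contDiffOn_const

theorem E2Sm.add (hf : E2Sm T f) (hg : E2Sm T g) : E2Sm T (fun q => f q + g q) :=
  ContDiffOn.add hf hg

theorem E2Sm.sub (hf : E2Sm T f) (hg : E2Sm T g) : E2Sm T (fun q => f q - g q) :=
  ContDiffOn.sub hf hg

theorem E2Sm.neg (hf : E2Sm T f) : E2Sm T (fun q => - f q) :=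
  ContDiffOn.neg hf

theorem E2Sm.mul (hf : E2Sm T f) (hg : E2Sm T g) : E2Sm T (fun q => f q * g q) :=
  ContDiffOn.mul hf hg

theorem e2Sm_sum {ι : Type} (s : Finset ι) {F : ι → ℝ × ℝ → ℝ} (h : ∀ k ∈ s, E2Sm T (F k)) :
    E2Sm T (fun q => ∑ k ∈ s, F k q) :=
  ContDiffOn.sum h

/-- a smooth function of `x` alone. -/
theorem e2Sm_of_x (T : ℝ) {φ : ℝ → ℝ} (hφ : ContDiff ℝ ∞ φ) : E2Sm T (fun q => φ q.2) :=
  (hφ.comp contDiff_snd).contDiffOn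

/-- a smooth function of `t` alone. -/
theorem e2Sm_of_t {φ : ℝ → ℝ} (hφ : ContDiffOn ℝ ∞ φ (Iio T)) : E2Sm T (fun q => φ q.1) :=
  ContDiffOn.comp hφ contDiff_fst.contDiffOn (fun _ hq => hq.1)

theorem E2Sm.slice_x (h : E2Sm T f) {t : ℝ} (ht : t < T) : ContDiff ℝ ∞ (fun y => f (t, y)) := by
  rw [← contDiffOn_univ]
  exact ContDiffOn.comp h (contDiff_const.prodMk contDiff_id).contDiffOn
    (fun y _ => ⟨ht, mem_univ _⟩)

theorem E2Sm.slice_t (h : E2Sm T f) (x : ℝ) : ContDiffOn ℝ ∞ (fun s => f (s, x)) (Iio T) :=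
  ContDiffOn.comp h (contDiff_id.prodMk contDiff_const).contDiffOn
    (fun _ hs => ⟨hs, mem_univ _⟩)

theorem E2Sm.continuousOn (h : E2Sm T f) : ContinuousOn f (Iio T ×ˢ (univ : Set ℝ)) :=
  ContDiffOn.continuousOn h

/-- bounded on compact rectangles (`IsCompact.exists_bound_of_continuousOn`). -/
theorem E2Sm.bdd (h : E2Sm T f) (s₀ : ℝ) {s₂ : ℝ} (h₂ : s₂ < T) :
    ∃ C : ℝ, 0 ≤ C ∧ ∀ t ∈ Icc s₀ s₂, ∀ x ∈ Icc (0 : ℝ) 1, |f (t, x)| ≤ C := by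
  have hK : IsCompact (Icc s₀ s₂ ×ˢ Icc (0 : ℝ) 1) := isCompact_Icc.prod isCompact_Icc
  have hc : ContinuousOn f (Icc s₀ s₂ ×ˢ Icc (0 : ℝ) 1) :=
    h.continuousOn.mono (fun q hq => ⟨lt_of_le_of_lt hq.1.2 h₂, mem_univ _⟩)
  obtain ⟨C, hC⟩ := hK.exists_bound_of_continuousOn hc
  refine ⟨max C 0, le_max_right _ _, fun t ht x hx => ?_⟩
  have := hC (t, x) ⟨ht, hx⟩
  rw [Real.norm_eq_abs] at this
  exact this.trans (le_max_left _ _)

theorem E2Sm.pdt_eq_fderiv (h : E2Sm T f) {q : ℝ × ℝ} (hq : q.1 < T) :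
    e2Pdt f q = fderiv ℝ f q (1, 0) := by
  have hd : DifferentiableAt ℝ f q := (h.contDiffAt hq).differentiableAt (by simp)
  have h1 : HasDerivAt (fun s : ℝ => (s, q.2)) ((1 : ℝ), (0 : ℝ)) q.1 :=
    (hasDerivAt_id q.1).prodMk (hasDerivAt_const q.1 q.2)
  have h2 : HasFDerivAt f (fderiv ℝ f q) ((fun s : ℝ => (s, q.2)) q.1) := hd.hasFDerivAt
  exact (h2.comp_hasDerivAt q.1 h1).deriv

theorem E2Sm.pdx_eq_fderiv (h : E2Sm T f) {q : ℝ × ℝ} (hq : q.1 < T) :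
    e2Pdx f q = fderiv ℝ f q (0, 1) := by
  have hd : DifferentiableAt ℝ f q := (h.contDiffAt hq).differentiableAt (by simp)
  have h1 : HasDerivAt (fun y : ℝ => (q.1, y)) ((0 : ℝ), (1 : ℝ)) q.2 :=
    (hasDerivAt_const q.2 q.1).prodMk (hasDerivAt_id q.2)
  have h2 : HasFDerivAt f (fderiv ℝ f q) ((fun y : ℝ => (q.1, y)) q.2) := hd.hasFDerivAt
  exact (h2.comp_hasDerivAt q.2 h1).deriv

theorem E2Sm.hasDerivAt_t (h : E2Sm T f) {t : ℝ} (ht : t < T) (x : ℝ) :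
    HasDerivAt (fun s => f (s, x)) (e2Pdt f (t, x)) t := by
  have hq : ((t, x) : ℝ × ℝ).1 < T := ht
  have hd : DifferentiableAt ℝ f (t, x) := (h.contDiffAt hq).differentiableAt (by simp)
  have h1 : HasDerivAt (fun s : ℝ => (s, x)) ((1 : ℝ), (0 : ℝ)) t :=
    (hasDerivAt_id t).prodMk (hasDerivAt_const t x)
  have h2 : HasFDerivAt f (fderiv ℝ f (t, x)) ((fun s : ℝ => (s, x)) t) := hd.hasFDerivAt
  rw [h.pdt_eq_fderiv hq]
  exact h2.comp_hasDerivAt t h1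

theorem E2Sm.hasDerivAt_x (h : E2Sm T f) {t : ℝ} (ht : t < T) (x : ℝ) :
    HasDerivAt (fun y => f (t, y)) (e2Pdx f (t, x)) x := by
  have hq : ((t, x) : ℝ × ℝ).1 < T := ht
  have hd : DifferentiableAt ℝ f (t, x) := (h.contDiffAt hq).differentiableAt (by simp)
  have h1 : HasDerivAt (fun y : ℝ => (t, y)) ((0 : ℝ), (1 : ℝ)) x :=
    (hasDerivAt_const x t).prodMk (hasDerivAt_id x)
  have h2 : HasFDerivAt f (fderiv ℝ f (t, x)) ((fun y : ℝ => (t, y)) x) := hd.hasFDerivAt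
  rw [h.pdx_eq_fderiv hq]
  exact h2.comp_hasDerivAt x h1

/-- (`ContDiffOn.fderiv_of_isOpen` + `clm_apply`, then `E2Sm.congr` with `pdt_eq_fderiv`.) -/
theorem E2Sm.pdt (h : E2Sm T f) : E2Sm T (e2Pdt f) := by
  have h1 : ContDiffOn ℝ ∞ (fderiv ℝ f) (Iio T ×ˢ (univ : Set ℝ)) :=
    ContDiffOn.fderiv_of_isOpen h (e2U_isOpen T) (by simp)
  have h2 : E2Sm T (fun q => fderiv ℝ f q (1, 0)) := h1.clm_apply contDiffOn_const
  exact h2.congr fun t ht x => h.pdt_eq_fderiv (q := (t, x)) ht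

theorem E2Sm.pdx (h : E2Sm T f) : E2Sm T (e2Pdx f) := by
  have h1 : ContDiffOn ℝ ∞ (fderiv ℝ f) (Iio T ×ˢ (univ : Set ℝ)) :=
    ContDiffOn.fderiv_of_isOpen h (e2U_isOpen T) (by simp)
  have h2 : E2Sm T (fun q => fderiv ℝ f q (0, 1)) := h1.clm_apply contDiffOn_const
  exact h2.congr fun t ht x => h.pdx_eq_fderiv (q := (t, x)) ht

/-- the partial derivatives only depend on the values on `U`. -/
theorem e2Pdt_congr (h : ∀ t < T, ∀ x, f (t, x) = g (t, x)) :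
    ∀ t < T, ∀ x, e2Pdt f (t, x) = e2Pdt g (t, x) := by
  intro t ht x
  have he : (fun s => f (s, x)) =ᶠ[nhds t] (fun s => g (s, x)) := by
    filter_upwards [Iio_mem_nhds ht] with s hs
    exact h s hs x
  exact he.deriv_eq

theorem e2Pdx_congr (h : ∀ t < T, ∀ x, f (t, x) = g (t, x)) :
    ∀ t < T, ∀ x, e2Pdx f (t, x) = e2Pdx g (t, x) := by
  intro t ht x
  have he : (fun y => f (t, y)) = (fun y => g (t, y)) := funext fun y => h t ht y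
  show deriv (fun y => f (t, y)) x = deriv (fun y => g (t, y)) x
  rw [he]

/-- symmetry of second derivatives (`ContDiffAt.isSymmSndFDerivAt`, or `second_derivative_symmetric`). -/
theorem E2Sm.pd_comm (h : E2Sm T f) : ∀ t < T, ∀ x,
    e2Pdt (e2Pdx f) (t, x) = e2Pdx (e2Pdt f) (t, x) := by
  intro t ht x
  have hq : ((t, x) : ℝ × ℝ).1 < T := ht
  have hU : (Iio T ×ˢ (univ : Set ℝ)) ∈ nhds ((t, x) : ℝ × ℝ) :=
    (e2U_isOpen T).mem_nhds ⟨ht, mem_univ _⟩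
  have hc : ContDiffAt ℝ ∞ f (t, x) := h.contDiffAt hq
  have hdd : DifferentiableAt ℝ (fderiv ℝ f) (t, x) := by
    have h1 : ContDiffOn ℝ ∞ (fderiv ℝ f) (Iio T ×ˢ (univ : Set ℝ)) :=
      ContDiffOn.fderiv_of_isOpen h (e2U_isOpen T) (by simp)
    exact (h1.contDiffAt hU).differentiableAt (by simp)
  have hsymm : IsSymmSndFDerivAt ℝ f (t, x) := hc.isSymmSndFDerivAt (by
    rw [minSmoothness_of_isRCLikeNormedField]
    exact (WithTop.coe_le_coe (a := (⊤ : ℕ∞)) (b := (2 : ℕ∞))).2 le_top)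
  have key : ∀ v : ℝ × ℝ, fderiv ℝ (fun q => fderiv ℝ f q v) (t, x)
      = (fderiv ℝ (fderiv ℝ f) (t, x)).flip v := by
    intro v
    have := (hdd.hasFDerivAt.clm_apply (hasFDerivAt_const v (t, x))).fderiv
    rw [this, ContinuousLinearMap.comp_zero, zero_add]
  have e1 : e2Pdx f =ᶠ[nhds ((t, x) : ℝ × ℝ)] fun q => fderiv ℝ f q (0, 1) := by
    filter_upwards [hU] with q hq'
    exact h.pdx_eq_fderiv hq'.1
  have e2 : e2Pdt f =ᶠ[nhds ((t, x) : ℝ × ℝ)] fun q => fderiv ℝ f q (1, 0) := by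
    filter_upwards [hU] with q hq'
    exact h.pdt_eq_fderiv hq'.1
  rw [h.pdx.pdt_eq_fderiv hq, h.pdt.pdx_eq_fderiv hq, e1.fderiv_eq, e2.fderiv_eq, key, key]
  exact hsymm _ _

theorem e2Pdt_add (hf : E2Sm T f) (hg : E2Sm T g) : ∀ t < T, ∀ x,
    e2Pdt (fun q => f q + g q) (t, x) = e2Pdt f (t, x) + e2Pdt g (t, x) := by
  intro t ht x
  exact ((hf.hasDerivAt_t ht x).add (hg.hasDerivAt_t ht x)).deriv

theorem e2Pdx_add (hf : E2Sm T f) (hg : E2Sm T g) : ∀ t < T, ∀ x,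
    e2Pdx (fun q => f q + g q) (t, x) = e2Pdx f (t, x) + e2Pdx g (t, x) := by
  intro t ht x
  exact ((hf.hasDerivAt_x ht x).add (hg.hasDerivAt_x ht x)).deriv

theorem e2Pdt_neg (f : ℝ × ℝ → ℝ) (q : ℝ × ℝ) : e2Pdt (fun q => - f q) q = - e2Pdt f q := by
  show deriv (fun s => - f (s, q.2)) q.1 = - deriv (fun s => f (s, q.2)) q.1
  exact deriv.fun_neg

theorem e2Pdx_neg (f : ℝ × ℝ → ℝ) (q : ℝ × ℝ) : e2Pdx (fun q => - f q) q = - e2Pdx f q := by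
  show deriv (fun y => - f (q.1, y)) q.2 = - deriv (fun y => f (q.1, y)) q.2
  exact deriv.fun_neg

theorem e2Pdt_mul (hf : E2Sm T f) (hg : E2Sm T g) : ∀ t < T, ∀ x,
    e2Pdt (fun q => f q * g q) (t, x) = e2Pdt f (t, x) * g (t, x) + f (t, x) * e2Pdt g (t, x) := by
  intro t ht x
  exact ((hf.hasDerivAt_t ht x).mul (hg.hasDerivAt_t ht x)).deriv

theorem e2Pdx_mul (hf : E2Sm T f) (hg : E2Sm T g) : ∀ t < T, ∀ x,
    e2Pdx (fun q => f q * g q) (t, x) = e2Pdx f (t, x) * g (t, x) + f (t, x) * e2Pdx g (t, x) := by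
  intro t ht x
  exact ((hf.hasDerivAt_x ht x).mul (hg.hasDerivAt_x ht x)).deriv

end Claimed.Agent.R324
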