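import Claimed.Agent.R324.E2.Hardy
import Claimed.Agent.R324.E2.Ibp

/-
Row 324, module E2: the hypotheses on the coefficients at a fixed time, smoothness of the four parts of the fixed time operator, splitting of the pairing.
-/

set_option autoImplicit false

namespace Claimed.Agent.R324

open Set
open scoped ContDiff

/-- the hypotheses on the coefficients at a fixed time. -/
structure E2Coef (n J : ℕ) (m₀ A : ℝ) (a : ℝ → ℝ) (b : Fin 3 → ℝ → ℝ) (c : Fin 3 → Fin 3 → ℝ → ℝ)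
    (e κ : Fin n → Fin 3 → ℝ → ℝ) : Prop where
  sa : ContDiff ℝ ∞ a
  sb : ∀ j, ContDiff ℝ ∞ (b j)
  sc : ∀ j k, ContDiff ℝ ∞ (c j k)
  se : ∀ i j, ContDiff ℝ ∞ (e i j)
  sk : ∀ i j, ContDiff ℝ ∞ (κ i j)
  pos : ∀ x ∈ Icc (0 : ℝ) 1, m₀ ≤ a x
  ba : ∀ l ≤ J, ∀ x ∈ Icc (0 : ℝ) 1, |iteratedDeriv l a x| ≤ A
  bb : ∀ j, ∀ l ≤ J, ∀ x ∈ Icc (0 : ℝ) 1, |iteratedDeriv l (b j) x| ≤ A
  bc : ∀ j k, ∀ l ≤ J, ∀ x ∈ Icc (0 : ℝ) 1, |iteratedDeriv l (c j k) x| ≤ A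
  be : ∀ i j, ∀ l ≤ J, ∀ x ∈ Icc (0 : ℝ) 1, |iteratedDeriv l (e i j) x| ≤ A
  bk : ∀ i j, ∀ x ∈ Icc (0 : ℝ) 1, |κ i j x| ≤ A

theorem e2E_nonneg (μ J : ℕ) (u : Fin 3 → ℝ → ℝ) : 0 ≤ e2E μ J u :=
  Finset.sum_nonneg fun _ _ => Finset.sum_nonneg fun _ _ => e2Nsq_nonneg _ _ _

theorem e2_sum_Nsq_le_E (μ J : ℕ) (u : Fin 3 → ℝ → ℝ) (j : Fin 3) {L : ℕ} (hL : L ≤ J + 1) :
    ∑ l ∈ Finset.range L, e2Nsq (e2m μ j) l (u j) ≤ e2E μ J u := by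
  have h1 : ∑ l ∈ Finset.range L, e2Nsq (e2m μ j) l (u j)
      ≤ ∑ l ∈ Finset.range (J + 1), e2Nsq (e2m μ j) l (u j) :=
    e2_hardy_aux_sum_mono _ _ hL
  refine h1.trans ?_
  exact Finset.single_le_sum (f := fun j => ∑ l ∈ Finset.range (J + 1), e2Nsq (e2m μ j) l (u j))
    (fun j _ => Finset.sum_nonneg fun _ _ => e2Nsq_nonneg _ _ _) (Finset.mem_univ j)

theorem e2Nsq_le_E (μ J : ℕ) (u : Fin 3 → ℝ → ℝ) (j : Fin 3) {i : ℕ} (hi : i ≤ J) :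
    e2Nsq (e2m μ j) i (u j) ≤ e2E μ J u :=
  (e2_hardy_aux_single _ _ (Nat.lt_succ_of_le hi)).trans (e2_sum_Nsq_le_E μ J u j le_rfl)

theorem e2s_contDiff (j k : Fin 3) : ContDiff ℝ ∞ (e2s j k) := by
  by_cases h : k = 2 ∧ j ≠ 2
  · have : e2s j k = fun x => x * (1 - x) := by
      funext x
      unfold e2s
      rw [if_pos h]
    rw [this]
    fun_prop
  · have : e2s j k = fun _ => 1 := by
      funext x
      unfold e2s
      rw [if_neg h]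
    rw [this]
    exact contDiff_const

theorem e2Bfix_contDiff {b u : ℝ → ℝ} (hb : ContDiff ℝ ∞ b) (hu : ContDiff ℝ ∞ u) :
    ContDiff ℝ ∞ (e2Bfix b u) := by
  have hd := e2_deriv_contDiff hu
  unfold e2Bfix
  fun_prop

theorem e2Cfix_contDiff {c : Fin 3 → Fin 3 → ℝ → ℝ} {u : Fin 3 → ℝ → ℝ}
    (hc : ∀ j k, ContDiff ℝ ∞ (c j k)) (hu : ∀ j, ContDiff ℝ ∞ (u j)) (j : Fin 3) :
    ContDiff ℝ ∞ (e2Cfix c u j) := by
  unfold e2Cfix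
  exact ContDiff.sum fun k _ => ((e2s_contDiff j k).mul (hc j k)).mul (hu k)

theorem e2Rfix_contDiff {n : ℕ} {e : Fin n → Fin 3 → ℝ → ℝ} (κ : Fin n → Fin 3 → ℝ → ℝ)
    (u : Fin 3 → ℝ → ℝ) (he : ∀ i j, ContDiff ℝ ∞ (e i j)) (j : Fin 3) :
    ContDiff ℝ ∞ (e2Rfix e κ u j) := by
  unfold e2Rfix
  exact ContDiff.sum fun i _ => (he i j).mul contDiff_const

theorem e2Sfix_contDiff (μ : ℕ) {n : ℕ} {a : ℝ → ℝ} {b : Fin 3 → ℝ → ℝ} {c : Fin 3 → Fin 3 → ℝ → ℝ}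
    {e : Fin n → Fin 3 → ℝ → ℝ} (κ : Fin n → Fin 3 → ℝ → ℝ) {u : Fin 3 → ℝ → ℝ}
    (ha : ContDiff ℝ ∞ a) (hb : ∀ j, ContDiff ℝ ∞ (b j)) (hc : ∀ j k, ContDiff ℝ ∞ (c j k))
    (he : ∀ i j, ContDiff ℝ ∞ (e i j)) (hu : ∀ j, ContDiff ℝ ∞ (u j)) (j : Fin 3) :
    ContDiff ℝ ∞ (e2Sfix μ a b c e κ u j) := by
  unfold e2Sfix
  exact ((((e2Lfix_contDiff _ ha (hu j)).neg).add (e2Bfix_contDiff (hb j) (hu j))).add
    (e2Cfix_contDiff hc hu j)).add (e2Rfix_contDiff κ u he j)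

/-- **Splitting of the pairing** `<(S₀ u)_j, w>_α` into the four parts (linearity of `e2Ip`: `e2Ip_add_left`, `e2Ip_neg_left`, `e2Ip_sum_left`,
`e2Ip_smul_left`; `∫ Σ_l κ_il u_l = Σ_l ∫ κ_il u_l`: `intervalIntegral.integral_finset_sum`; the summands are continuous). -/
theorem e2_ip_Sfix (μ α : ℕ) {n : ℕ} {a : ℝ → ℝ} {b : Fin 3 → ℝ → ℝ} {c : Fin 3 → Fin 3 → ℝ → ℝ}
    {e κ : Fin n → Fin 3 → ℝ → ℝ} {u : Fin 3 → ℝ → ℝ}
    (ha : ContDiff ℝ ∞ a) (hb : ∀ j, ContDiff ℝ ∞ (b j)) (hc : ∀ j k, ContDiff ℝ ∞ (c j k))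
    (he : ∀ i j, ContDiff ℝ ∞ (e i j)) (hκ : ∀ i j, ContDiff ℝ ∞ (κ i j))
    (hu : ∀ j, ContDiff ℝ ∞ (u j)) (j : Fin 3) {w : ℝ → ℝ} (hw : Continuous w) :
    e2Ip α (e2Sfix μ a b c e κ u j) w
      = - e2Ip α (e2Lfix (e2m μ j) a (u j)) w + e2Ip α (e2Bfix (b j) (u j)) w
        + ∑ k, e2Ip α (fun x => e2s j k x * c j k x * u k x) w
        + ∑ i, ∑ l, (∫ ξ in (0 : ℝ)..1, κ i l ξ * u l ξ) * e2Ip α (e i j) w := by
  have cL : Continuous (e2Lfix (e2m μ j) a (u j)) := (e2Lfix_contDiff _ ha (hu j)).continuous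
  have cB : Continuous (e2Bfix (b j) (u j)) := (e2Bfix_contDiff (hb j) (hu j)).continuous
  have cC : Continuous (e2Cfix c u j) := (e2Cfix_contDiff hc hu j).continuous
  have cR : Continuous (e2Rfix e κ u j) := (e2Rfix_contDiff κ u he j).continuous
  have cLn : Continuous (fun x => - e2Lfix (e2m μ j) a (u j) x) := cL.neg
  have h1 : e2Ip α (e2Sfix μ a b c e κ u j) w
      = - e2Ip α (e2Lfix (e2m μ j) a (u j)) w + e2Ip α (e2Bfix (b j) (u j)) w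
        + e2Ip α (e2Cfix c u j) w + e2Ip α (e2Rfix e κ u j) w := by
    have c1 : Continuous (fun x => - e2Lfix (e2m μ j) a (u j) x + e2Bfix (b j) (u j) x) := cLn.add cB
    have c2 : Continuous (fun x => - e2Lfix (e2m μ j) a (u j) x + e2Bfix (b j) (u j) x
        + e2Cfix c u j x) := c1.add cC
    unfold e2Sfix
    rw [e2Ip_add_left α c2 cR hw, e2Ip_add_left α c1 cC hw,
      e2Ip_add_left α cLn cB hw, e2Ip_neg_left]
  have h2 : e2Ip α (e2Cfix c u j) w = ∑ k, e2Ip α (fun x => e2s j k x * c j k x * u k x) w := by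
    unfold e2Cfix
    exact e2Ip_sum_left α Finset.univ
      (fun k _ => (((e2s_contDiff j k).mul (hc j k)).mul (hu k)).continuous) hw
  have h3 : e2Ip α (e2Rfix e κ u j) w
      = ∑ i, ∑ l, (∫ ξ in (0 : ℝ)..1, κ i l ξ * u l ξ) * e2Ip α (e i j) w := by
    unfold e2Rfix
    rw [e2Ip_sum_left α Finset.univ
      (f := fun i x => e i j x * ∫ ξ in (0 : ℝ)..1, ∑ l, κ i l ξ * u l ξ)
      (fun i _ => ((he i j).continuous.mul continuous_const)) hw]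
    refine Finset.sum_congr rfl fun i _ => ?_
    have h4 : (∫ ξ in (0 : ℝ)..1, ∑ l, κ i l ξ * u l ξ) = ∑ l, ∫ ξ in (0 : ℝ)..1, κ i l ξ * u l ξ :=
      intervalIntegral.integral_finsetSum fun l _ =>
        ((hκ i l).continuous.mul (hu l).continuous).intervalIntegrable _ _
    have h5 : (fun x => e i j x * ∫ ξ in (0 : ℝ)..1, ∑ l, κ i l ξ * u l ξ)
        = fun x => (∫ ξ in (0 : ℝ)..1, ∑ l, κ i l ξ * u l ξ) * e i j x := by
      funext x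
      ring
    rw [h5, e2Ip_smul_left, h4, Finset.sum_mul]
  rw [h1, h2, h3]

end Claimed.Agent.R324
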